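import Vale.Agent.P217.EFDefs

/-!
# P217, block EF: values of formal group laws on the open disc
-/

noncomputable section

namespace Vale.Agent.P217.EF

variable {p : ℕ}

open Filter Topology

section laws

open Eval

variable {K : Type} [NontriviallyNormedField K] [IsUltrametricDist K]
variable {R : Type} [CommRing R] {j : R →+* K}

/-- The sum of two points, with coefficients through j. -/
def vadd (j : R →+* K) (G : FormalGroup R) (a b : K) : K := mveval j G.toPowerSeries ![a, b]

omit [IsUltrametricDist K] in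
theorem gadd_map (j : R →+* K) (G : FormalGroup R) (a b : K) :
    gadd (G.map j) a b = vadd j G a b := by
  simp [gadd, vadd, FormalGroup.map, mveval_map]

omit [IsUltrametricDist K] in
theorem norm_pair_lt {a b : K} (ha : ‖a‖ < 1) (hb : ‖b‖ < 1) : ∀ i, ‖(![a, b] : Fin 2 → K) i‖ < 1 := by
  intro i; fin_cases i <;> simpa

omit [IsUltrametricDist K] in
theorem norm_pair_le {a b : K} {r : ℝ} (ha : ‖a‖ ≤ r) (hb : ‖b‖ ≤ r) :
    ∀ i, ‖(![a, b] : Fin 2 → K) i‖ ≤ r := by
  intro i; fin_cases i <;> simpa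

variable (hj : ∀ r, ‖j r‖ ≤ 1) (G : FormalGroup R)

include hj

theorem norm_vadd_le {a b : K} {r : ℝ} (hr : r ≤ 1) (ha : ‖a‖ ≤ r) (hb : ‖b‖ ≤ r) :
    ‖vadd j G a b‖ ≤ r :=
  norm_mveval_le_max hj _ G.zero_constantCoeff ((norm_nonneg a).trans ha) hr (norm_pair_le ha hb)

variable [CompleteSpace K]

omit [CompleteSpace K] in
theorem norm_vadd_lt {a b : K} (ha : ‖a‖ < 1) (hb : ‖b‖ < 1) : ‖vadd j G a b‖ < 1 :=
  norm_mveval_lt_one hj (norm_pair_lt ha hb) _ G.zero_constantCoeff

theorem vadd_assoc {a b c : K} (ha : ‖a‖ < 1) (hb : ‖b‖ < 1) (hc : ‖c‖ < 1) :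
    vadd j G (vadd j G a b) c = vadd j G a (vadd j G b c) := by
  have h3 : ∀ i, ‖(![a, b, c] : Fin 3 → K) i‖ < 1 := by intro i; fin_cases i <;> simpa
  have h := congrArg (fun f => mveval j f ![a, b, c]) G.assoc
  rw [mveval_subst hj h3 (fun s => ?_), mveval_subst hj h3 (fun s => ?_)] at h
  · have e : ∀ (u v : Fin 3) , mveval j (MvPowerSeries.subst
        ![MvPowerSeries.X u, MvPowerSeries.X v] G.toPowerSeries) ![a, b, c] =
          vadd j G (![a, b, c] u) (![a, b, c] v) := by
      intro u v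
      rw [mveval_subst hj h3 (fun s => by fin_cases s <;> simp), vadd]
      congr 1
      funext s
      fin_cases s <;> simp [mveval_X]
    unfold vadd
    convert h using 2 <;> funext s <;> fin_cases s <;> simp [mveval_X, e, vadd]
  · fin_cases s
    · simp
    · exact MvPowerSeries.constantCoeff_subst_eq_zero MvPowerSeries.HasSubst.X_X
        (fun s => by fin_cases s <;> simp) G.zero_constantCoeff
  · fin_cases s
    · exact MvPowerSeries.constantCoeff_subst_eq_zero MvPowerSeries.HasSubst.X_X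
        (fun s => by fin_cases s <;> simp) G.zero_constantCoeff
    · simp

theorem vadd_zero {a : K} (ha : ‖a‖ < 1) : vadd j G a 0 = a := by
  have h := congrArg (fun f => peval j f a) G.Xzero_eq_X
  simp only [FormalGroup.Xzero] at h
  rw [peval_subst_mv hj ha (fun s => by fin_cases s <;> simp), peval_X] at h
  refine (congrArg (mveval j G.toPowerSeries) (funext fun s => ?_)).trans h
  fin_cases s <;> simp [peval_X, peval_zero]

theorem zero_vadd {a : K} (ha : ‖a‖ < 1) : vadd j G 0 a = a := by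
  have h := congrArg (fun f => peval j f a) G.zeroX_eq_X
  simp only [FormalGroup.zeroX] at h
  rw [peval_subst_mv hj ha (fun s => by fin_cases s <;> simp), peval_X] at h
  refine (congrArg (mveval j G.toPowerSeries) (funext fun s => ?_)).trans h
  fin_cases s <;> simp [peval_X, peval_zero]

theorem vadd_comm [G.IsComm] {a b : K} (ha : ‖a‖ < 1) (hb : ‖b‖ < 1) :
    vadd j G a b = vadd j G b a := by
  unfold vadd
  conv_lhs => rw [(FormalGroup.IsComm.comm (F := G))]
  rw [mveval_subst hj (norm_pair_lt ha hb) (fun s => by fin_cases s <;> simp)]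
  congr 1
  funext s
  fin_cases s <;> simp [mveval_X]

theorem norm_vadd_sub_add_le {a b : K} {r : ℝ} (hr : r ≤ 1) (ha : ‖a‖ ≤ r) (hb : ‖b‖ ≤ r)
    (ha' : ‖a‖ < 1) (hb' : ‖b‖ < 1) : ‖vadd j G a b - (a + b)‖ ≤ r ^ 2 := by
  have e : mveval j (G.toPowerSeries - (MvPowerSeries.X 0 + MvPowerSeries.X 1)) ![a, b] =
      vadd j G a b - (a + b) := by
    rw [mveval_sub hj (norm_pair_lt ha' hb'), mveval_add hj (norm_pair_lt ha' hb'), mveval_X,
      mveval_X]
    rfl
  rw [← e]
  refine norm_mveval_le_pow hj _ ((norm_nonneg a).trans ha) hr (norm_pair_le ha hb) 2 fun k hk => ?_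
  rw [Fin.sum_univ_two] at hk
  have hk' : k = 0 ∨ k = Finsupp.single 0 1 ∨ k = Finsupp.single 1 1 := by
    rcases Nat.lt_or_ge (k 0) 1 with h0 | h0
    · rcases Nat.lt_or_ge (k 1) 1 with h1 | h1
      · exact Or.inl (Finsupp.ext fun i => by fin_cases i <;> simp <;> omega)
      · exact Or.inr (Or.inr (Finsupp.ext fun i => by fin_cases i <;> simp <;> omega))
    · exact Or.inr (Or.inl (Finsupp.ext fun i => by fin_cases i <;> simp <;> omega))
  rcases hk' with rfl | rfl | rfl
  · simp [G.zero_constantCoeff]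
  · simp [G.lin_coeff_X, MvPowerSeries.coeff_X, Finsupp.single_left_inj]
  · simp [G.lin_coeff_Y, MvPowerSeries.coeff_X, Finsupp.single_left_inj]

end laws

section series

open Eval

variable {K : Type} [NontriviallyNormedField K] [IsUltrametricDist K] [CompleteSpace K]
variable {R : Type} [CommRing R] {j : R →+* K}

omit [CompleteSpace K] in
theorem norm_pow_sub_pow_le {a b : K} (ha : ‖a‖ ≤ 1) (hb : ‖b‖ ≤ 1) (k : ℕ) :
    ‖a ^ k - b ^ k‖ ≤ ‖a - b‖ := by
  induction k with
  | zero => simp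
  | succ k ih =>
    have e : a ^ (k + 1) - b ^ (k + 1) = a ^ k * (a - b) + (a ^ k - b ^ k) * b := by ring
    rw [e]
    refine (IsUltrametricDist.norm_add_le_max _ _).trans (max_le ?_ ?_)
    · rw [norm_mul, norm_pow]
      exact mul_le_of_le_one_left (norm_nonneg _) (pow_le_one₀ (norm_nonneg _) ha)
    · rw [norm_mul]
      exact (mul_le_of_le_one_right (norm_nonneg _) hb).trans ih

theorem hasSum_peval (hj : ∀ r, ‖j r‖ ≤ 1) (f : PowerSeries R) {y : K} (hy : ‖y‖ < 1) :
    HasSum (fun k => j (PowerSeries.coeff k f) * y ^ k) (peval j f y) := by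
  refine (NonarchimedeanAddGroup.summable_of_tendsto_cofinite_zero ?_).hasSum
  rw [Nat.cofinite_eq_atTop]
  refine squeeze_zero_norm (fun k => ?_) (tendsto_pow_atTop_nhds_zero_of_lt_one (norm_nonneg y) hy)
  rw [norm_mul, norm_pow]
  exact mul_le_of_le_one_left (pow_nonneg (norm_nonneg _) _) (hj _)

/-- Two series with close coefficients, at close points, have close values. -/
theorem norm_peval_sub_le {R' : Type} [CommRing R'] {j' : R' →+* K} (hj : ∀ r, ‖j r‖ ≤ 1)
    (hj' : ∀ r, ‖j' r‖ ≤ 1) {f : PowerSeries R} {g : PowerSeries R'} {a b : K} (ha : ‖a‖ < 1)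
    (hb : ‖b‖ < 1) {δ : ℝ}
    (hc : ∀ k, ‖j (PowerSeries.coeff k f) - j' (PowerSeries.coeff k g)‖ ≤ δ)
    (hab : ‖a - b‖ ≤ δ) : ‖peval j f a - peval j' g b‖ ≤ δ := by
  have hδ : 0 ≤ δ := (norm_nonneg _).trans hab
  rw [← ((hasSum_peval hj f ha).sub (hasSum_peval hj' g hb)).tsum_eq]
  refine IsUltrametricDist.norm_tsum_le_of_forall_le_of_nonneg hδ fun k => ?_
  have e : j (PowerSeries.coeff k f) * a ^ k - j' (PowerSeries.coeff k g) * b ^ k =
      (j (PowerSeries.coeff k f) - j' (PowerSeries.coeff k g)) * a ^ k +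
        j' (PowerSeries.coeff k g) * (a ^ k - b ^ k) := by ring
  rw [e]
  refine (IsUltrametricDist.norm_add_le_max _ _).trans (max_le ?_ ?_)
  · rw [norm_mul, norm_pow]
    exact (mul_le_of_le_one_right (norm_nonneg _) (pow_le_one₀ (norm_nonneg _) ha.le)).trans (hc k)
  · rw [norm_mul]
    exact (mul_le_of_le_one_left (norm_nonneg _) (hj' _)).trans
      ((norm_pow_sub_pow_le ha.le hb.le k).trans hab)

theorem norm_mveval_sub_le {R' : Type} [CommRing R'] {j' : R' →+* K} {d : ℕ}
    (hj : ∀ r, ‖j r‖ ≤ 1) (hj' : ∀ r, ‖j' r‖ ≤ 1) {f : MvPowerSeries (Fin d) R}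
    {g : MvPowerSeries (Fin d) R'} {a b : Fin d → K} (ha : ∀ i, ‖a i‖ < 1) (hb : ∀ i, ‖b i‖ < 1)
    {δ : ℝ} (hδ : 0 ≤ δ)
    (hc : ∀ k, ‖j (MvPowerSeries.coeff k f) - j' (MvPowerSeries.coeff k g)‖ ≤ δ)
    (hab : ∀ i, ‖a i - b i‖ ≤ δ) : ‖mveval j f a - mveval j' g b‖ ≤ δ := by
  classical
  rw [← ((hasSum_mveval hj ha f).sub (hasSum_mveval hj' hb g)).tsum_eq]
  refine IsUltrametricDist.norm_tsum_le_of_forall_le_of_nonneg hδ fun k => ?_
  have hp : ∀ (c : Fin d → K), (∀ i, ‖c i‖ < 1) → ∀ s : Finset (Fin d),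
      ‖∏ i ∈ s, c i ^ k i‖ ≤ 1 := fun c hc s => by
    rw [norm_prod]
    exact Finset.prod_le_one (fun i _ => norm_nonneg _) fun i _ => by
      rw [norm_pow]; exact pow_le_one₀ (norm_nonneg _) (hc i).le
  have hd : ∀ s : Finset (Fin d), ‖(∏ i ∈ s, a i ^ k i) - ∏ i ∈ s, b i ^ k i‖ ≤ δ := by
    intro s
    induction s using Finset.induction with
    | empty => simpa using hδ
    | @insert x s hx ih =>
      rw [Finset.prod_insert hx, Finset.prod_insert hx]
      have e : ∀ u v w z : K, u * v - w * z = (u - w) * v + w * (v - z) := fun u v w z => by ring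
      rw [e]
      refine (IsUltrametricDist.norm_add_le_max _ _).trans (max_le ?_ ?_) <;> rw [norm_mul]
      · exact (mul_le_of_le_one_right (norm_nonneg _) (hp a ha s)).trans
          ((norm_pow_sub_pow_le (ha x).le (hb x).le _).trans (hab x))
      · refine (mul_le_of_le_one_left (norm_nonneg _) ?_).trans ih
        rw [norm_pow]; exact pow_le_one₀ (norm_nonneg _) (hb x).le
  have e : j (MvPowerSeries.coeff k f) * ∏ i, a i ^ k i -
      j' (MvPowerSeries.coeff k g) * ∏ i, b i ^ k i =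
      (j (MvPowerSeries.coeff k f) - j' (MvPowerSeries.coeff k g)) * ∏ i, a i ^ k i +
        j' (MvPowerSeries.coeff k g) * ((∏ i, a i ^ k i) - ∏ i, b i ^ k i) := by ring
  rw [e]
  refine (IsUltrametricDist.norm_add_le_max _ _).trans (max_le ?_ ?_) <;> rw [norm_mul]
  · exact (mul_le_of_le_one_right (norm_nonneg _) (hp a ha _)).trans (hc k)
  · exact (mul_le_of_le_one_left (norm_nonneg _) (hj' _)).trans (hd _)

theorem norm_vadd_sub_le {R' : Type} [CommRing R'] {j' : R' →+* K} (hj : ∀ r, ‖j r‖ ≤ 1)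
    (hj' : ∀ r, ‖j' r‖ ≤ 1) {G : FormalGroup R} {G' : FormalGroup R'} {a b a' b' : K}
    (ha : ‖a‖ < 1) (hb : ‖b‖ < 1) (ha' : ‖a'‖ < 1) (hb' : ‖b'‖ < 1) {δ : ℝ}
    (hc : ∀ k, ‖j (MvPowerSeries.coeff k G.toPowerSeries) -
      j' (MvPowerSeries.coeff k G'.toPowerSeries)‖ ≤ δ)
    (h1 : ‖a - a'‖ ≤ δ) (h2 : ‖b - b'‖ ≤ δ) : ‖vadd j G a b - vadd j' G' a' b'‖ ≤ δ :=
  norm_mveval_sub_le hj hj' (norm_pair_lt ha hb) (norm_pair_lt ha' hb')
    ((norm_nonneg _).trans h1) hc fun i => by fin_cases i <;> simpa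

variable [CharP K p] [Fact p.Prime]

/-- Frobenius and evaluation commute. -/
theorem mveval_pow_char {d : ℕ} (hj : ∀ r, ‖j r‖ ≤ 1) (f : MvPowerSeries (Fin d) R) {a : Fin d → K}
    (ha : ∀ i, ‖a i‖ < 1) (k : ℕ) (hfix : ∀ r, j r ^ p ^ k = j r) :
    mveval j f a ^ p ^ k = mveval j f (fun i => a i ^ p ^ k) := by
  have h := (hasSum_mveval hj ha f).map (iterateFrobenius K p k)
    (by rw [show ⇑(iterateFrobenius K p k) = fun x : K => x ^ p ^ k from funext fun x => iterateFrobenius_def ..]; exact continuous_pow _)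
  have e : (iterateFrobenius K p k) ∘ (fun m : Fin d →₀ ℕ =>
      j (MvPowerSeries.coeff m f) * ∏ i, a i ^ m i) =
      fun m => j (MvPowerSeries.coeff m f) * ∏ i, (a i ^ p ^ k) ^ m i := by
    funext m
    simp only [Function.comp_apply, iterateFrobenius_def, mul_pow, hfix, ← Finset.prod_pow,
      ← pow_mul, mul_comm]
  rw [e, iterateFrobenius_def] at h
  exact h.tsum_eq.symm

theorem peval_pow_char (hj : ∀ r, ‖j r‖ ≤ 1) (f : PowerSeries R) {y : K} (hy : ‖y‖ < 1) (k : ℕ)
    (hfix : ∀ r, j r ^ p ^ k = j r) : peval j f y ^ p ^ k = peval j f (y ^ p ^ k) := by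
  have h := (hasSum_peval hj f hy).map (iterateFrobenius K p k)
    (by rw [show ⇑(iterateFrobenius K p k) = fun x : K => x ^ p ^ k from funext fun x => iterateFrobenius_def ..]; exact continuous_pow _)
  have e : (iterateFrobenius K p k) ∘ (fun m : ℕ => j (PowerSeries.coeff m f) * y ^ m) =
      fun m => j (PowerSeries.coeff m f) * (y ^ p ^ k) ^ m := by
    funext m
    simp only [Function.comp_apply, iterateFrobenius_def, mul_pow, hfix, ← pow_mul, mul_comm]
  rw [e, iterateFrobenius_def] at h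
  exact h.tsum_eq.symm

/-- A homomorphism of laws is additive on values. -/
theorem hom_vadd (hj : ∀ r, ‖j r‖ ≤ 1) {G G' : FormalGroup R} {i : PowerSeries R}
    (hi : IsHom G G' i) {a b : K} (ha : ‖a‖ < 1) (hb : ‖b‖ < 1) :
    peval j i (vadd j G a b) = vadd j G' (peval j i a) (peval j i b) := by
  have hab := norm_pair_lt ha hb
  have h := congrArg (fun f => mveval j f ![a, b]) hi.2
  rw [mveval_powerSeries_subst hj hab G.zero_constantCoeff, mveval_subst hj hab (fun s => ?_)] at h
  · refine h.trans (congrArg (mveval j G'.toPowerSeries) (funext fun s => ?_))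
    fin_cases s <;>
      simp [mveval_powerSeries_subst hj hab (MvPowerSeries.constantCoeff_X _), mveval_X]
  · fin_cases s <;>
      exact PowerSeries.constantCoeff_subst_eq_zero (MvPowerSeries.constantCoeff_X _) _ hi.1

omit [IsUltrametricDist K] [CompleteSpace K] [CharP K p] [Fact p.Prime] in
theorem constantCoeff_seriesSum {G : FormalGroup R} : ∀ {L : List (PowerSeries R)},
    (∀ f ∈ L, PowerSeries.constantCoeff f = 0) → PowerSeries.constantCoeff (seriesSum G L) = 0
  | [], _ => by simp [seriesSum]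
  | f :: L, h => by
    have hL : PowerSeries.constantCoeff (seriesSum G L) = 0 :=
      constantCoeff_seriesSum fun g hg => h g (List.mem_cons_of_mem _ hg)
    exact MvPowerSeries.constantCoeff_subst_eq_zero
      (MvPowerSeries.hasSubst_of_constantCoeff_zero fun s => by
        fin_cases s
        · exact h f (List.mem_cons_self ..)
        · exact hL)
      (fun s => by
        fin_cases s
        · exact h f (List.mem_cons_self ..)
        · exact hL) G.zero_constantCoeff

omit [IsUltrametricDist K] [CompleteSpace K] [CharP K p] [Fact p.Prime] in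
theorem constantCoeff_nsmulSeries (G : FormalGroup R) (k : ℕ) :
    PowerSeries.constantCoeff (nsmulSeries G k) = 0 :=
  constantCoeff_seriesSum fun f hf => by
    rw [List.eq_of_mem_replicate hf]; exact PowerSeries.constantCoeff_X

theorem peval_seriesSum (hj : ∀ r, ‖j r‖ ≤ 1) {G : FormalGroup R} {y : K} (hy : ‖y‖ < 1) :
    ∀ {L : List (PowerSeries R)}, (∀ f ∈ L, PowerSeries.constantCoeff f = 0) →
      peval j (seriesSum G L) y = pointSum (G.map j) (L.map fun f => peval j f y)
  | [], _ => by simp [seriesSum, pointSum, peval_zero]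
  | f :: L, h => by
    have hL : ∀ g ∈ L, PowerSeries.constantCoeff g = 0 := fun g hg => h g (List.mem_cons_of_mem _ hg)
    rw [seriesSum, List.map_cons, pointSum, gadd_map, ← peval_seriesSum hj hy hL,
      peval_subst_mv hj hy (fun s => by
        fin_cases s
        · exact h f (List.mem_cons_self ..)
        · exact constantCoeff_seriesSum hL), vadd]
    congr 1
    funext s
    fin_cases s <;> rfl

theorem peval_nsmulSeries (hj : ∀ r, ‖j r‖ ≤ 1) (G : FormalGroup R) (k : ℕ) {y : K}
    (hy : ‖y‖ < 1) : peval j (nsmulSeries G k) y = nPoint (G.map j) k y := by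
  rw [nsmulSeries, peval_seriesSum hj hy (fun f hf => by
    rw [List.eq_of_mem_replicate hf]; exact PowerSeries.constantCoeff_X)]
  simp [nPoint, peval_X]

theorem norm_nPoint_lt (hj : ∀ r, ‖j r‖ ≤ 1) (G : FormalGroup R) (k : ℕ) {y : K}
    (hy : ‖y‖ < 1) : ‖nPoint (G.map j) k y‖ < 1 := by
  rw [← peval_nsmulSeries hj G k hy]
  exact (norm_peval_le hj hy.le _ (constantCoeff_nsmulSeries G k)).trans_lt hy

/-- Multiplication by k is additive for a commutative law. -/
theorem nPoint_vadd (hj : ∀ r, ‖j r‖ ≤ 1) (G : FormalGroup R) [G.IsComm] (k : ℕ) {a b : K}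
    (ha : ‖a‖ < 1) (hb : ‖b‖ < 1) :
    nPoint (G.map j) k (vadd j G a b) =
      vadd j G (nPoint (G.map j) k a) (nPoint (G.map j) k b) := by
  induction k with
  | zero => simp [nPoint, pointSum, vadd_zero hj G (show ‖(0 : K)‖ < 1 by simp)]
  | succ k ih =>
    simp only [nPoint, List.replicate_succ, pointSum, gadd_map] at ih ⊢
    rw [ih]
    set u := pointSum (G.map j) (List.replicate k a)
    set v := pointSum (G.map j) (List.replicate k b)
    have hu : ‖u‖ < 1 := norm_nPoint_lt hj G k ha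
    have hv : ‖v‖ < 1 := norm_nPoint_lt hj G k hb
    rw [vadd_assoc hj G ha hb (norm_vadd_lt hj G hu hv), ← vadd_assoc hj G hb hu hv,
      vadd_comm hj G hb hu, vadd_assoc hj G hu hb hv,
      ← vadd_assoc hj G ha hu (norm_vadd_lt hj G hb hv)]

end series

end Vale.Agent.P217.EF
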