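import Vale.Agent.P217.EF.Point

/-!
# P217, block EF: the covering map of the open disc at a point
-/

noncomputable section

namespace Vale.Agent.P217.EF

open Filter Topology Eval

variable {p : ℕ} [Fact p.Prime] {n h : ℕ} {C : Type} [NontriviallyNormedField C]
  [IsUltrametricDist C]

/-- What is used about multiplication by p: modulo the maximal ideal it is X ^ q, and at the
point it is a series in X ^ Q. -/
structure PMulShape (F : FormalGroup (E0 p n)) (P : GoodPoint p n h C) : Prop where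
  residue_val : ∀ z : C, ‖z‖ < 1 →
    peval (P.emb.comp residue) (nsmulSeries F p) z = z ^ p ^ n
  support : ∀ k, ¬ p ^ h ∣ k → P.chi (PowerSeries.coeff k (nsmulSeries F p)) = 0
  one_le : 1 ≤ n

variable [CompleteSpace C] {F : FormalGroup (E0 p n)} {P : GoodPoint p n h C}

theorem pMul_eq_nPoint (hn : 1 ≤ n) {z : C} (hz : ‖z‖ < 1) :
    pMul F P z = nPoint (lawAt F P) p z :=
  peval_nsmulSeries (norm_chi_le hn P) F p hz

omit [CompleteSpace C] in
theorem norm_pMul_le (hn : 1 ≤ n) {z : C} (hz : ‖z‖ < 1) : ‖pMul F P z‖ ≤ ‖z‖ :=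
  norm_peval_le (norm_chi_le hn P) hz.le _ (constantCoeff_nsmulSeries F p)

omit [CompleteSpace C] in
theorem norm_iterate_pMul_le (hn : 1 ≤ n) (m : ℕ) {z : C} (hz : ‖z‖ < 1) :
    ‖(pMul F P)^[m] z‖ ≤ ‖z‖ := by
  induction m generalizing z with
  | zero => simp
  | succ m ih =>
    rw [Function.iterate_succ_apply]
    exact (ih ((norm_pMul_le hn hz).trans_lt hz)).trans (norm_pMul_le hn hz)

theorem pMul_sub_pow_le (H : PMulShape F P) {z : C} (hz : ‖z‖ < 1) :
    ‖pMul F P z - z ^ p ^ n‖ ≤ (p : ℝ)⁻¹ := by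
  have e : peval (P.emb.comp residue) (nsmulSeries F p) z = z ^ p ^ n := H.residue_val z hz
  rw [← e]
  exact norm_peval_sub_le (j' := P.emb.comp residue) (f := nsmulSeries F p)
    (g := nsmulSeries F p) (δ := (p : ℝ)⁻¹) (norm_chi_le H.one_le P)
    (fun r => norm_eq_of_fixed H.one_le (emb_fixed H.one_le P _)) hz hz
    (fun k => chi_sub_emb_le P _) (by rw [sub_self, norm_zero]; exact inv_prime_pos.le)

variable [CharP C p]

theorem pMul_contract (H : PMulShape F P) {a b : C} (ha : ‖a‖ < 1) (hb : ‖b‖ < 1) :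
    ‖pMul F P a - pMul F P b‖ ≤ ‖a - b‖ ^ p ^ h := by
  have hj := norm_chi_le H.one_le P
  rw [pMul, pMul, ← ((hasSum_peval hj _ ha).sub (hasSum_peval hj _ hb)).tsum_eq]
  refine IsUltrametricDist.norm_tsum_le_of_forall_le_of_nonneg (pow_nonneg (norm_nonneg _) _)
    fun k => ?_
  by_cases hk : p ^ h ∣ k
  · obtain ⟨r, rfl⟩ := hk
    rw [← mul_sub, norm_mul, pow_mul, pow_mul, ← norm_pow, sub_pow_char_pow]
    refine (mul_le_of_le_one_left (norm_nonneg _) (hj _)).trans ?_
    exact norm_pow_sub_pow_le (by rw [norm_pow]; exact pow_le_one₀ (norm_nonneg _) ha.le)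
      (by rw [norm_pow]; exact pow_le_one₀ (norm_nonneg _) hb.le) r
  · simp [H.support k hk]

theorem iterate_pMul_contract (H : PMulShape F P) (m : ℕ) {a b : C} (ha : ‖a‖ < 1) (hb : ‖b‖ < 1) :
    ‖(pMul F P)^[m] a - (pMul F P)^[m] b‖ ≤ ‖a - b‖ ^ (p ^ h) ^ m := by
  induction m generalizing a b with
  | zero => simp
  | succ m ih =>
    rw [Function.iterate_succ_apply, Function.iterate_succ_apply]
    refine (ih ((norm_pMul_le H.one_le ha).trans_lt ha) ((norm_pMul_le H.one_le hb).trans_lt hb)).trans ?_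
    rw [pow_succ', pow_mul]
    exact pow_le_pow_left₀ (norm_nonneg _) (pMul_contract H ha hb) _

/-- A bound tending to zero. -/
theorem tendsto_bound (hh : 1 ≤ h) :
    Tendsto (fun m : ℕ => ((p : ℝ)⁻¹) ^ (p ^ h) ^ m) atTop (𝓝 0) :=
  (tendsto_pow_atTop_nhds_zero_of_lt_one inv_prime_pos.le inv_prime_lt_one).comp
    (tendsto_pow_atTop_atTop_of_one_lt
      ((Fact.out : p.Prime).one_lt.trans_le (Nat.le_self_pow (by omega) p)))

variable [IsAlgClosed C]

/-- The approximants of the covering map. -/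
def seq (F : FormalGroup (E0 p n)) (P : GoodPoint p n h C) (z : C) (m : ℕ) : C :=
  (pMul F P)^[m] (root p n m z)

omit [CompleteSpace C] in
theorem norm_seq_lt (H : PMulShape F P) (m : ℕ) {z : C} (hz : ‖z‖ < 1) : ‖seq F P z m‖ < 1 :=
  (norm_iterate_pMul_le H.one_le m (norm_root_lt hz)).trans_lt (norm_root_lt hz)

theorem seq_succ_sub_le (H : PMulShape F P) (m : ℕ) {z : C} (hz : ‖z‖ < 1) :
    ‖seq F P z (m + 1) - seq F P z m‖ ≤ ((p : ℝ)⁻¹) ^ (p ^ h) ^ m := by
  rw [seq, seq, Function.iterate_succ_apply]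
  have hr := norm_root_lt (p := p) (n := n) (m := m + 1) hz
  refine (iterate_pMul_contract H m ((norm_pMul_le H.one_le hr).trans_lt hr)
    (norm_root_lt hz)).trans (pow_le_pow_left₀ (norm_nonneg _) ?_ _)
  conv_lhs => arg 1; arg 2; rw [← root_succ_pow]
  exact pMul_sub_pow_le H hr

theorem seq_add_sub_le (H : PMulShape F P) (m k : ℕ) {z : C} (hz : ‖z‖ < 1) :
    ‖seq F P z (m + k) - seq F P z m‖ ≤ ((p : ℝ)⁻¹) ^ (p ^ h) ^ m := by
  induction k with
  | zero => simp [pow_nonneg]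
  | succ k ih =>
    rw [← sub_add_sub_cancel _ (seq F P z (m + k))]
    refine (IsUltrametricDist.norm_add_le_max _ _).trans (max_le ?_ ih)
    refine (seq_succ_sub_le H (m + k) hz).trans ?_
    exact pow_le_pow_of_le_one inv_prime_pos.le inv_prime_lt_one.le
      (Nat.pow_le_pow_right (pow_pos (Fact.out : p.Prime).pos h) (Nat.le_add_right m k))

theorem piMap_tendsto (H : PMulShape F P) (hh : 1 ≤ h) {z : C} (hz : ‖z‖ < 1) :
    Tendsto (seq F P z) atTop (𝓝 (piMap F P z)) := by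
  have hc : CauchySeq (seq F P z) := NonarchimedeanAddGroup.cauchySeq_of_tendsto_sub_nhds_zero
    (squeeze_zero_norm (fun m => seq_succ_sub_le H m hz) (tendsto_bound hh))
  obtain ⟨l, hl⟩ := cauchySeq_tendsto_of_complete hc
  exact tendsto_nhds_limUnder ⟨l, hl⟩

theorem piMap_sub_seq_le (H : PMulShape F P) (hh : 1 ≤ h) (m : ℕ) {z : C} (hz : ‖z‖ < 1) :
    ‖piMap F P z - seq F P z m‖ ≤ ((p : ℝ)⁻¹) ^ (p ^ h) ^ m := by
  refine le_of_tendsto (((piMap_tendsto H hh hz).sub_const _).norm)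
    (eventually_atTop.2 ⟨m, fun k hk => ?_⟩)
  obtain ⟨i, rfl⟩ := Nat.le.dest hk
  exact seq_add_sub_le H m i hz

theorem piMap_sub_self_le (H : PMulShape F P) (hh : 1 ≤ h) {z : C} (hz : ‖z‖ < 1) :
    ‖piMap F P z - z‖ ≤ (p : ℝ)⁻¹ := by
  simpa [seq, root_zero_index] using piMap_sub_seq_le H hh 0 hz

theorem norm_piMap_le (H : PMulShape F P) (hh : 1 ≤ h) {z : C} (hz : ‖z‖ < 1) :
    ‖piMap F P z‖ ≤ max ‖z‖ (p : ℝ)⁻¹ := by
  rw [← sub_add_cancel (piMap F P z) z]
  exact (IsUltrametricDist.norm_add_le_max _ _).trans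
    (max_le ((piMap_sub_self_le H hh hz).trans (le_max_right _ _)) (le_max_left _ _))

theorem norm_piMap_lt (H : PMulShape F P) (hh : 1 ≤ h) {z : C} (hz : ‖z‖ < 1) :
    ‖piMap F P z‖ < 1 :=
  (norm_piMap_le H hh hz).trans_lt (max_lt hz inv_prime_lt_one)

theorem piMap_eq_of_close (H : PMulShape F P) (hh : 1 ≤ h) {z w : C} (hz : ‖z‖ < 1)
    (hw : ∀ m, ‖seq F P z m - w‖ ≤ ((p : ℝ)⁻¹) ^ (p ^ h) ^ m) : piMap F P z = w :=
  tendsto_nhds_unique (piMap_tendsto H hh hz)
    (tendsto_iff_norm_sub_tendsto_zero.2 (squeeze_zero (fun _ => norm_nonneg _) hw (tendsto_bound hh)))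

theorem piMap_zero (H : PMulShape F P) (hh : 1 ≤ h) : piMap F P 0 = 0 := by
  refine piMap_eq_of_close H hh (by simp) fun m => ?_
  have h0 : ‖seq F P 0 m‖ ≤ 0 := by
    have hr : ‖root p n m (0 : C)‖ < 1 := by rw [root_zero, norm_zero]; exact zero_lt_one
    refine (norm_iterate_pMul_le (F := F) (P := P) H.one_le m hr).trans ?_
    rw [root_zero, norm_zero]
  rw [sub_zero]
  exact h0.trans (pow_nonneg inv_prime_pos.le _)

theorem piMap_pow (H : PMulShape F P) (hh : 1 ≤ h) {z : C} (hz : ‖z‖ < 1) :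
    piMap F P (z ^ p ^ n) = pMul F P (piMap F P z) := by
  have hz' : ‖z ^ p ^ n‖ < 1 := by
    rw [norm_pow]; exact pow_lt_one₀ (norm_nonneg _) hz (pow_pos (Fact.out : p.Prime).pos n).ne'
  refine tendsto_nhds_unique ((piMap_tendsto H hh hz').comp (tendsto_add_atTop_nat 1)) ?_
  have e : seq F P (z ^ p ^ n) ∘ (fun m => m + 1) = fun m => pMul F P (seq F P z m) := by
    funext m
    simp only [Function.comp_apply, seq, root_succ_of_pow, Function.iterate_succ_apply']
  rw [e, tendsto_iff_norm_sub_tendsto_zero]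
  refine squeeze_zero (fun _ => norm_nonneg _) (fun m => ?_) (tendsto_bound (p := p) hh)
  refine (pMul_contract H (norm_seq_lt H m hz) (norm_piMap_lt H hh hz)).trans ?_
  rw [norm_sub_rev]
  refine (pow_le_of_le_one (norm_nonneg _) ?_ (pow_pos (Fact.out : p.Prime).pos h).ne').trans
    (piMap_sub_seq_le H hh m hz)
  exact (piMap_sub_seq_le H hh m hz).trans (pow_le_one₀ inv_prime_pos.le inv_prime_lt_one.le)

theorem piMap_pow_iterate (H : PMulShape F P) (hh : 1 ≤ h) (m : ℕ) {z : C} (hz : ‖z‖ < 1) :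
    piMap F P z = (pMul F P)^[m] (piMap F P (root p n m z)) := by
  induction m with
  | zero => simp [root_zero_index]
  | succ m ih =>
    rw [ih, Function.iterate_succ_apply, ← piMap_pow H hh (norm_root_lt hz), root_succ_pow]

/-- Near a point the covering map is the iterate at a constant root, up to high order. -/
theorem piMap_sub_iterate_le {P' : GoodPoint p n h C} (H' : PMulShape F P') (H : PMulShape F P)
    (hh : 1 ≤ h) (m : ℕ) {z : C} (hz : ‖z‖ < 1) :
    ‖piMap F P' z - (pMul F P')^[m] (piMap F P (root p n m z))‖ ≤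
      ‖piMap F P' (root p n m z) - piMap F P (root p n m z)‖ ^ (p ^ h) ^ m := by
  rw [piMap_pow_iterate H' hh m hz]
  exact iterate_pMul_contract H' m (norm_piMap_lt H' hh (norm_root_lt hz))
    (norm_piMap_lt H hh (norm_root_lt hz))

omit [CharP C p] [IsAlgClosed C] in
theorem seq_lipschitz {P' : GoodPoint p n h C} (hn : 1 ≤ n) {δ : ℝ} (hδ : 0 ≤ δ)
    (hd : ∀ a, ‖P'.chi a - P.chi a‖ ≤ δ) (m : ℕ) {r : C} (hr : ‖r‖ < 1) :
    ‖(pMul F P')^[m] r - (pMul F P)^[m] r‖ ≤ δ := by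
  induction m with
  | zero => simpa using hδ
  | succ m ih =>
    simp only [Function.iterate_succ_apply']
    exact norm_peval_sub_le (norm_chi_le hn P') (norm_chi_le hn P)
      ((norm_iterate_pMul_le hn m hr).trans_lt hr) ((norm_iterate_pMul_le hn m hr).trans_lt hr)
      (fun k => hd _) ih

theorem piMap_lipschitz {P' : GoodPoint p n h C} (H' : PMulShape F P') (H : PMulShape F P)
    (hh : 1 ≤ h) {δ : ℝ} (hδ : 0 ≤ δ) (hd : ∀ a, ‖P'.chi a - P.chi a‖ ≤ δ) {z : C}
    (hz : ‖z‖ < 1) : ‖piMap F P' z - piMap F P z‖ ≤ δ :=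
  le_of_tendsto' (((piMap_tendsto H' hh hz).sub (piMap_tendsto H hh hz)).norm)
    fun m => seq_lipschitz H.one_le hδ hd m (norm_root_lt hz)

end Vale.Agent.P217.EF
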