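import Vale.Agent.P217.EF.Basic

/-!
# P217, block EF: zeros of series in the open disc, by Weierstrass preparation in the unit ball
-/

noncomputable section

namespace Vale.Agent.P217.EF

open Filter Topology Eval

variable {C : Type} [NontriviallyNormedField C] [IsUltrametricDist C]

theorem mem_span_iff {c x : unitBall C} (hc : (c : C) ≠ 0) :
    x ∈ Ideal.span {c} ↔ ‖(x : C)‖ ≤ ‖(c : C)‖ := by
  rw [Ideal.mem_span_singleton]
  constructor
  · rintro ⟨y, rfl⟩
    rw [Subring.coe_mul, norm_mul]
    exact mul_le_of_le_one_right (norm_nonneg _) y.2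
  · intro h
    refine ⟨⟨(x : C) / c, ?_⟩, ?_⟩
    · show ‖(x : C) / c‖ ≤ 1
      rw [norm_div, div_le_one (norm_pos_iff.2 hc)]
      exact h
    · apply Subtype.ext
      simp [mul_div_cancel₀ _ hc]

theorem smodEq_iff {c x y : unitBall C} (hc : (c : C) ≠ 0) (k : ℕ) :
    x ≡ y [SMOD ((Ideal.span {c}) ^ k • ⊤ : Submodule (unitBall C) (unitBall C))] ↔
      ‖(x : C) - y‖ ≤ ‖(c : C)‖ ^ k := by
  have hck : ((c ^ k : unitBall C) : C) ≠ 0 := by
    rw [SubmonoidClass.coe_pow]; exact pow_ne_zero _ hc
  rw [SModEq.sub_mem, smul_eq_mul, Ideal.mul_top, Ideal.span_singleton_pow, mem_span_iff hck]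
  simp

theorem isUnit_iff_norm {x : unitBall C} : IsUnit x ↔ ‖(x : C)‖ = 1 := by
  constructor
  · intro hu
    obtain ⟨y, hy⟩ := isUnit_iff_exists_inv.1 hu
    refine le_antisymm x.2 ?_
    have h1 : ‖(x : C)‖ * ‖(y : C)‖ = 1 := by
      rw [← norm_mul, ← Subring.coe_mul, hy]; simp
    exact h1 ▸ mul_le_of_le_one_right (norm_nonneg _) y.2
  · intro h
    have hx : (x : C) ≠ 0 := fun h0 => by simp [h0] at h
    refine isUnit_iff_exists_inv.2 ⟨⟨(x : C)⁻¹, ?_⟩, ?_⟩
    · show ‖(x : C)⁻¹‖ ≤ 1
      rw [norm_inv, h, inv_one]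
    · apply Subtype.ext
      simp [mul_inv_cancel₀ hx]

theorem norm_subtype_le (r : unitBall C) : ‖(unitBall C).subtype r‖ ≤ 1 := r.2

variable [CompleteSpace C]

theorem isAdicComplete_span {c : unitBall C} (hc : (c : C) ≠ 0) (hc1 : ‖(c : C)‖ < 1) :
    IsAdicComplete (Ideal.span {c}) (unitBall C) where
  haus' x hx := by
    have h : ∀ k : ℕ, ‖(x : C)‖ ≤ ‖(c : C)‖ ^ k := fun k => by
      simpa using (smodEq_iff hc k).1 (hx k)
    have h0 := ge_of_tendsto' (tendsto_pow_atTop_nhds_zero_of_lt_one (norm_nonneg _) hc1) h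
    exact Subtype.ext (norm_le_zero_iff.1 h0)
  prec' f hf := by
    have hd : ∀ {i j}, i ≤ j → ‖(f i : C) - f j‖ ≤ ‖(c : C)‖ ^ i := fun hij =>
      (smodEq_iff hc _).1 (hf hij)
    have hcs : CauchySeq fun i => (f i : C) :=
      NonarchimedeanAddGroup.cauchySeq_of_tendsto_sub_nhds_zero (squeeze_zero_norm
        (fun i => by rw [norm_sub_rev]; exact hd (Nat.le_succ i))
        (tendsto_pow_atTop_nhds_zero_of_lt_one (norm_nonneg _) hc1))
    obtain ⟨L, hL⟩ := cauchySeq_tendsto_of_complete hcs
    refine ⟨⟨L, le_of_tendsto' hL.norm fun i => (f i).2⟩, fun k => (smodEq_iff hc k).2 ?_⟩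
    exact le_of_tendsto (hL.const_sub _).norm (eventually_atTop.2 ⟨k, fun i hi => hd hi⟩)

/-- Weierstrass preparation for a series whose coefficients below N are small. -/
theorem exists_factor (f : PowerSeries (unitBall C)) {c : unitBall C} (hc : (c : C) ≠ 0)
    (hc1 : ‖(c : C)‖ < 1) {N : ℕ}
    (hlow : ∀ k, k < N → ‖((PowerSeries.coeff k f : unitBall C) : C)‖ ≤ ‖(c : C)‖)
    (hN : ‖((PowerSeries.coeff N f : unitBall C) : C)‖ = 1) :
    ∃ (r : Polynomial (unitBall C)) (q : PowerSeries (unitBall C)), r.degree < N ∧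
      (∀ k, ‖(r.coeff k : C)‖ ≤ ‖(c : C)‖) ∧ ‖((PowerSeries.constantCoeff q : unitBall C) : C)‖ = 1 ∧
      ((Polynomial.X ^ N - r : Polynomial (unitBall C)) : PowerSeries (unitBall C)) = f * q := by
  set I : Ideal (unitBall C) := Ideal.span {c}
  have hI := isAdicComplete_span hc hc1
  have hnot : ∀ x : unitBall C, ‖(x : C)‖ = 1 → x ∉ I := fun x hx hmem => by
    have := (mem_span_iff hc).1 hmem
    linarith
  have hord : (f.map (Ideal.Quotient.mk I)).order = N := by
    refine PowerSeries.order_eq_nat.2 ⟨?_, fun k hk => ?_⟩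
    · rw [PowerSeries.coeff_map, Ne, Ideal.Quotient.eq_zero_iff_mem]
      exact hnot _ hN
    · rw [PowerSeries.coeff_map, Ideal.Quotient.eq_zero_iff_mem]
      exact (mem_span_iff hc).2 (hlow k hk)
  have H : f.IsWeierstrassDivisorAt I := by
    rw [PowerSeries.IsWeierstrassDivisorAt, hord]
    exact isUnit_iff_norm.2 hN
  have hd := H.isWeierstrassDivisionAt_div_mod (PowerSeries.X ^ N)
  have hdeg : (H.mod (PowerSeries.X ^ N)).degree < N := by simpa [hord] using hd.degree_lt
  have hprod : ∀ k, k ≤ N → (PowerSeries.coeff k (f * H.div (PowerSeries.X ^ N)) -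
      PowerSeries.coeff N f * (if k = N then PowerSeries.constantCoeff
        (H.div (PowerSeries.X ^ N)) else 0)) ∈ I := by
    intro k hk
    rw [PowerSeries.coeff_mul, ← Finset.add_sum_erase (a := ((k, 0) : ℕ × ℕ)) _ _ (by simp)]
    have herase : ∀ x ∈ (Finset.HasAntidiagonal.antidiagonal k).erase (k, 0),
        PowerSeries.coeff x.1 f * PowerSeries.coeff x.2 (H.div (PowerSeries.X ^ N)) ∈ I := by
      intro x hx
      rw [Finset.mem_erase, Finset.HasAntidiagonal.mem_antidiagonal] at hx
      refine I.mul_mem_right _ ((mem_span_iff hc).2 (hlow _ ?_))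
      rcases Nat.eq_zero_or_pos x.2 with h | h
      · exact absurd (Prod.ext (by simp only; omega) h) hx.1
      · omega
    rw [add_sub_right_comm]
    refine I.add_mem ?_ (I.sum_mem herase)
    split_ifs with hkN
    · subst hkN
      simp [PowerSeries.coeff_zero_eq_constantCoeff_apply]
    · rw [mul_zero, sub_zero]
      exact I.mul_mem_right _ ((mem_span_iff hc).2 (hlow _ (by omega)))
  refine ⟨H.mod (PowerSeries.X ^ N), H.div (PowerSeries.X ^ N), hdeg, fun k => ?_, ?_, ?_⟩
  · rcases Nat.lt_or_ge k N with hk | hk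
    · refine (mem_span_iff hc).1 ?_
      have e := congrArg (PowerSeries.coeff k) hd.eq_mul_add
      rw [PowerSeries.coeff_X_pow, if_neg hk.ne, map_add, Polynomial.coeff_coe] at e
      have h1 := hprod k hk.le
      rw [if_neg hk.ne, mul_zero, sub_zero] at h1
      rw [eq_neg_of_add_eq_zero_right e.symm]
      exact I.neg_mem h1
    · rw [Polynomial.coeff_eq_zero_of_degree_lt (hdeg.trans_le (by exact_mod_cast hk))]
      simp
  · have e := congrArg (PowerSeries.coeff N) hd.eq_mul_add
    rw [PowerSeries.coeff_X_pow, if_pos rfl, map_add, Polynomial.coeff_coe,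
      Polynomial.coeff_eq_zero_of_degree_lt hdeg, add_zero] at e
    have h1 := hprod N le_rfl
    rw [if_pos rfl, ← e] at h1
    by_contra hne
    have hlt : ‖((PowerSeries.constantCoeff (H.div (PowerSeries.X ^ N)) : unitBall C) : C)‖ < 1 :=
      lt_of_le_of_ne (PowerSeries.constantCoeff (H.div (PowerSeries.X ^ N))).2 hne
    have h2 := (mem_span_iff hc).1 h1
    rw [AddSubgroupClass.coe_sub, Subring.coe_one, Subring.coe_mul,
      sub_eq_add_neg, IsUltrametricDist.norm_add_eq_max_of_norm_ne_norm
        (by rw [norm_neg, norm_one, norm_mul, hN, one_mul]; exact hlt.ne'), norm_neg] at h2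
    rw [norm_one] at h2
    linarith [le_max_left (1 : ℝ) ‖((PowerSeries.coeff N f : unitBall C) : C) *
      ((PowerSeries.constantCoeff (H.div (PowerSeries.X ^ N)) : unitBall C) : C)‖]
  · rw [Polynomial.coe_sub, Polynomial.coe_pow, Polynomial.coe_X]
    exact sub_eq_iff_eq_add.2 hd.eq_mul_add

omit [CompleteSpace C] in
theorem peval_polynomial (P : Polynomial (unitBall C)) (y : C) :
    peval (unitBall C).subtype (P : PowerSeries (unitBall C)) y =
      (P.map (unitBall C).subtype).eval y := by
  rw [peval, tsum_eq_sum (s := Finset.range (P.natDegree + 1)) fun k hk => ?_]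
  · rw [Polynomial.eval_map, Polynomial.eval₂_eq_sum_range]
    simp
  · rw [Finset.mem_range, not_lt] at hk
    rw [Polynomial.coeff_coe, Polynomial.coeff_eq_zero_of_natDegree_lt (by omega)]
    simp

/-- A series with small coefficients below N and a unit coefficient at N has a zero in the open
disc, for N positive. -/
theorem exists_zero [IsAlgClosed C] (f : PowerSeries (unitBall C)) {c : unitBall C}
    (hc : (c : C) ≠ 0) (hc1 : ‖(c : C)‖ < 1) {N : ℕ} (hN0 : 0 < N)
    (hlow : ∀ k, k < N → ‖((PowerSeries.coeff k f : unitBall C) : C)‖ ≤ ‖(c : C)‖)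
    (hN : ‖((PowerSeries.coeff N f : unitBall C) : C)‖ = 1) :
    ∃ y : C, ‖y‖ < 1 ∧ peval (unitBall C).subtype f y = 0 := by
  obtain ⟨r, q, hdeg, hr, hq, he⟩ := exists_factor f hc hc1 hlow hN
  set R : Polynomial C := r.map (unitBall C).subtype
  have hRdeg : R.degree < N := (Polynomial.degree_map_le).trans_lt hdeg
  obtain ⟨y, hy⟩ := IsAlgClosed.exists_root (Polynomial.X ^ N - R) (by
    rw [Polynomial.degree_sub_eq_left_of_degree_lt (by rwa [Polynomial.degree_X_pow]),
      Polynomial.degree_X_pow]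
    exact_mod_cast hN0.ne')
  have hy' : y ^ N = R.eval y := by simpa [sub_eq_zero] using hy
  have hy1 : ‖y‖ < 1 := by
    by_contra hge
    push Not at hge
    have hRnat : R.natDegree < N :=
      (Nat.lt_or_ge R.natDegree N).resolve_right fun hge' => by
        rcases eq_or_ne R 0 with h0 | h0
        · rw [h0, Polynomial.natDegree_zero] at hge'; omega
        · rw [Polynomial.degree_eq_natDegree h0] at hRdeg
          exact absurd (by exact_mod_cast hRdeg) (not_lt.2 hge')
    have hpos : 0 < ‖y‖ ^ N := pow_pos (zero_lt_one.trans_le hge) N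
    have hle : ‖R.eval y‖ ≤ ‖(c : C)‖ * ‖y‖ ^ N := by
      rw [Polynomial.eval_eq_sum_range' hRnat]
      refine IsUltrametricDist.norm_sum_le_of_forall_le_of_nonneg
        (mul_nonneg (norm_nonneg _) hpos.le) fun k hk => ?_
      rw [norm_mul, norm_pow, Polynomial.coeff_map]
      exact mul_le_mul (hr k) (pow_le_pow_right₀ hge (Finset.mem_range.1 hk).le)
        (pow_nonneg (norm_nonneg _) _) (norm_nonneg _)
    rw [← hy', norm_pow] at hle
    have : ‖(c : C)‖ * ‖y‖ ^ N < ‖y‖ ^ N := mul_lt_of_lt_one_left hpos hc1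
    linarith
  refine ⟨y, hy1, ?_⟩
  have h1 := congrArg (fun g => peval (unitBall C).subtype g y) he
  simp only [peval_polynomial, peval_mul norm_subtype_le hy1] at h1
  rw [Polynomial.map_sub, Polynomial.map_pow, Polynomial.map_X, hy] at h1
  refine (mul_eq_zero.1 h1.symm).resolve_right fun h0 => ?_
  have hz : ‖peval (unitBall C).subtype q y -
      ((PowerSeries.constantCoeff q : unitBall C) : C)‖ ≤ ‖y‖ := by
    have e : peval (unitBall C).subtype (q - PowerSeries.C (PowerSeries.constantCoeff q)) y =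
        peval (unitBall C).subtype q y -
          peval (unitBall C).subtype (PowerSeries.C (PowerSeries.constantCoeff q)) y :=
      eq_sub_of_add_eq (by rw [← peval_add norm_subtype_le hy1, sub_add_cancel])
    have e0 : peval (unitBall C).subtype (PowerSeries.C (PowerSeries.constantCoeff q)) y =
        ((PowerSeries.constantCoeff q : unitBall C) : C) := by
      simpa using peval_C_mul_X_pow (j := (unitBall C).subtype) (y := y) 0
        (PowerSeries.constantCoeff q)
    rw [← e0, ← e]
    exact norm_peval_le norm_subtype_le hy1.le _ (by simp)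
  rw [h0, zero_sub, norm_neg, hq] at hz
  linarith

end Vale.Agent.P217.EF
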