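import Vale.Agent.P217.A.Height
import Vale.Agent.P217.EFDefs

/-!
# P217, block EF: the universal law is commutative and reduces to the Honda law
-/

noncomputable section

namespace Vale.Agent.P217.EF

open PowerSeries

variable {p n : ℕ} [Fact p.Prime]

/-- A law with a logarithm over a larger ring is commutative. -/
theorem isComm_of_log {B K : Type} [CommRing B] [CommRing K] (ι : B →+* K)
    (hι : Function.Injective ι) {f : PowerSeries K} (hf0 : constantCoeff f = 0)
    (hf1 : IsUnit (coeff 1 f)) {G : FormalGroup B}
    (hG : subst (G.map ι).toPowerSeries f =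
      subst (MvPowerSeries.X 0 : MvPowerSeries (Fin 2) K) f +
        subst (MvPowerSeries.X 1 : MvPowerSeries (Fin 2) K) f) : G.IsComm := by
  have hz : ∀ i : Fin 2, (![(MvPowerSeries.X 1 : MvPowerSeries (Fin 2) B),
      MvPowerSeries.X 0] i).constantCoeff = 0 := fun i => by fin_cases i <;> simp
  have hzK : ∀ i : Fin 2, (![(MvPowerSeries.X 1 : MvPowerSeries (Fin 2) K),
      MvPowerSeries.X 0] i).constantCoeff = 0 := fun i => by fin_cases i <;> simp
  have hw := MvPowerSeries.hasSubst_of_constantCoeff_zero hzK
  refine ⟨MvPowerSeries.ext fun k => hι ?_⟩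
  have h0 := (G.map ι).zero_constantCoeff
  have h0' : (MvPowerSeries.subst ![MvPowerSeries.X 1, MvPowerSeries.X 0]
      (G.map ι).toPowerSeries : MvPowerSeries (Fin 2) K).constantCoeff = 0 :=
    MvPowerSeries.constantCoeff_subst_eq_zero hw hzK h0
  have key : (G.map ι).toPowerSeries =
      MvPowerSeries.subst ![MvPowerSeries.X 1, MvPowerSeries.X 0] (G.map ι).toPowerSeries := by
    refine FE.subst_injective hf0 hf1 h0 h0' ?_
    rw [FE.log_add h0 hG (MvPowerSeries.constantCoeff_X 1) (MvPowerSeries.constantCoeff_X 0), hG,
      add_comm]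
  rw [← MvPowerSeries.coeff_map, ← MvPowerSeries.coeff_map,
    MvPowerSeries.map_subst (MvPowerSeries.hasSubst_of_constantCoeff_zero hz)]
  refine (congrArg (MvPowerSeries.coeff k) key).trans ?_
  congr 2
  funext i
  fin_cases i <;> simp

theorem isComm_universal {F : FormalGroup (E0 p n)} (hF : IsUniversalDeformation p n F) :
    F.IsComm := by
  have hp : 1 < p := (Fact.out : p.Prime).one_lt
  refine isComm_of_log (f := logSeries p n) (algebraMap (E0 p n) (E0Inv p n)) (ltData p n).inj
    ?_ ?_ hF
  · rw [logSeries_eq]; exact (ltData p n).constantCoeff_f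
  · rw [logSeries_eq, (ltData p n).coeff_one_f hp]; exact isUnit_one

/-- A ring map from the p-adic integers to a ring of characteristic p factors through toZMod. -/
theorem hom_padicInt_eq {R : Type} [CommRing R] [CharP R p] (g : ℤ_[p] →+* R) :
    g = (ZMod.castHom (dvd_refl p) R).comp PadicInt.toZMod := by
  refine RingHom.ext fun x => ?_
  have hm : x - ((PadicInt.toZMod x).val : ℤ_[p]) ∈ RingHom.ker (PadicInt.toZMod (p := p)) := by
    rw [RingHom.mem_ker, map_sub, map_natCast, ZMod.natCast_val, ZMod.cast_id, sub_self]
  rw [PadicInt.ker_toZMod, PadicInt.maximalIdeal_eq_span_p, Ideal.mem_span_singleton] at hm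
  obtain ⟨y, hy⟩ := hm
  have e := congrArg g (sub_eq_iff_eq_add.1 hy)
  rw [map_add, map_mul, map_natCast, map_natCast, CharP.cast_eq_zero, zero_mul, zero_add] at e
  rw [e]
  rw [RingHom.comp_apply, ← map_natCast (ZMod.castHom (dvd_refl p) R), ZMod.natCast_val, ZMod.cast_id]

/-- The universal law reduces to the Honda law. -/
theorem residue_universal {F : FormalGroup (E0 p n)} (hF : IsUniversalDeformation p n F)
    (hn : 1 ≤ n) {Gn : FormalGroup ℤ_[p]} (hG : IsHondaLift n Gn) :
    F.map residue = hondaIn Gn (GaloisField p n) := by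
  let W := WittVector p (GaloisField p n)
  let K := FractionRing W
  let zW : ℤ_[p] →+* W :=
    (WittVector.map (ZMod.castHom (dvd_refl p) (GaloisField p n))).comp
      (WittVector.equiv p).symm.toRingHom
  have hp0W : (p : W) ≠ 0 := WittVector.p_nonzero p _
  have hu : IsUnit (((algebraMap W K).comp
      (MvPowerSeries.constantCoeff : E0 p n →+* W)) (p : E0 p n)) := by
    rw [map_natCast]
    refine isUnit_iff_ne_zero.2 ?_
    rw [← map_natCast (algebraMap W K)]
    exact fun h => hp0W (IsFractionRing.injective W K (by rw [h, map_zero]))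
  let cK : E0Inv p n →+* K := IsLocalization.Away.lift (p : E0 p n) hu
  have hcK : ∀ a, cK (algebraMap _ _ a) = algebraMap W K (MvPowerSeries.constantCoeff a) :=
    fun a => IsLocalization.Away.lift_eq (p : E0 p n) hu a
  have hzinj : Function.Injective ((algebraMap W K).comp zW) :=
    (IsFractionRing.injective W K).comp
      ((WittVector.map_injective _ (RingHom.injective _)).comp (WittVector.equiv p).symm.injective)
  let qK : ℚ_[p] →+* K := IsFractionRing.lift hzinj
  have hqK : ∀ a : ℤ_[p], qK (algebraMap _ _ a) = algebraMap W K (zW a) :=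
    fun a => IsFractionRing.lift_algebraMap hzinj a
  have hpK : (p : K) ≠ 0 := by
    rw [← map_natCast (algebraMap W K)]
    exact fun h => hp0W (IsFractionRing.injective W K (by rw [h, map_zero]))
  have hM : ∀ k, cK ((ltData p n).M k) = qK ((hondaData p n hn).M k) := by
    intro k
    induction k using Nat.strong_induction_on with
    | _ k ih =>
      rcases k with _ | k
      · rw [(ltData p n).M_zero, (hondaData p n hn).M_zero, map_one, map_one]
      refine mul_left_cancel₀ hpK ?_
      have h1 := congrArg cK ((ltData p n).M_succ k)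
      have h2 := congrArg qK ((hondaData p n hn).M_succ k)
      simp only [map_mul, map_natCast, map_sum, map_pow] at h1 h2
      rw [h1, h2]
      refine Finset.sum_congr rfl fun j hj => ?_
      rw [ih j (Finset.mem_range.1 hj)]
      congr 2
      show cK (algebraMap _ _ (vv p n (k + 1 - j))) =
        qK (algebraMap _ _ (if k + 1 - j = n then 1 else 0))
      rw [hcK, hqK, vv]
      by_cases hjn : k + 1 - j = n
      · rw [dif_neg (by omega), if_pos hjn, if_pos hjn, map_one, map_one, map_one, map_one]
      · rw [if_neg hjn, if_neg hjn, map_zero, map_zero]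
        split_ifs
        · rw [MvPowerSeries.constantCoeff_X, map_zero]
        · rw [map_zero, map_zero]
  have hf : PowerSeries.map cK (ltData p n).f = PowerSeries.map qK (hondaData p n hn).f := by
    simp only [FE.Data.f, FE.map_pser, hM]
  have hp : 1 < p := (Fact.out : p.Prime).one_lt
  have hfG : (hondaData p n hn).f = PowerSeries.mk fun N =>
      if N = p ^ Nat.log p N ∧ n ∣ Nat.log p N then 1 / (p : ℚ_[p]) ^ (Nat.log p N / n) else 0 := by
    ext N
    simp only [FE.Data.f, FE.pser, hondaData, PowerSeries.coeff_mk]
    by_cases h1 : N = p ^ Nat.log p N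
    · by_cases h2 : n ∣ Nat.log p N
      · rw [if_pos h1, if_pos h2, if_pos ⟨h1, h2⟩]
      · rw [if_pos h1, if_neg h2, if_neg fun hc => h2 hc.2]
    · rw [if_neg h1, if_neg fun hc => h1 hc.1]
  have hlog : ∀ {B L : Type} [CommRing B] [CommRing L] (ι : B →+* L) (g : L →+* K)
      (G : FormalGroup B) (f : PowerSeries L), PowerSeries.constantCoeff f = 0 →
      subst (G.map ι).toPowerSeries f = subst (MvPowerSeries.X 0 : MvPowerSeries (Fin 2) L) f +
        subst (MvPowerSeries.X 1 : MvPowerSeries (Fin 2) L) f →
      subst (G.map (g.comp ι)).toPowerSeries (PowerSeries.map g f) =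
        subst (MvPowerSeries.X 0 : MvPowerSeries (Fin 2) K) (PowerSeries.map g f) +
          subst (MvPowerSeries.X 1 : MvPowerSeries (Fin 2) K) (PowerSeries.map g f) := by
    intro B L _ _ ι g G f _ e
    have hX : ∀ i : Fin 2, PowerSeries.HasSubst (MvPowerSeries.X i : MvPowerSeries (Fin 2) L) :=
      fun i => PowerSeries.HasSubst.of_constantCoeff_zero (MvPowerSeries.constantCoeff_X i)
    have e' := congrArg (MvPowerSeries.map g) e
    rw [map_add, PowerSeries.map_subst
      (PowerSeries.HasSubst.of_constantCoeff_zero (G.map ι).zero_constantCoeff),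
      PowerSeries.map_subst (hX 0), PowerSeries.map_subst (hX 1), MvPowerSeries.map_X,
      MvPowerSeries.map_X] at e'
    rw [← e']
    congr 1
  have e1 := hlog (ltData p n).ι cK F (ltData p n).f (ltData p n).constantCoeff_f hF
  have e2 := hlog (hondaData p n hn).ι qK Gn (hondaData p n hn).f
    (hondaData p n hn).constantCoeff_f (by rw [hfG]; exact hG)
  rw [hf] at e1
  have hu1 : IsUnit (PowerSeries.coeff 1 (PowerSeries.map qK (hondaData p n hn).f)) := by
    rw [PowerSeries.coeff_map, (hondaData p n hn).coeff_one_f hp, map_one]; exact isUnit_one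
  have h0 : PowerSeries.constantCoeff (PowerSeries.map qK (hondaData p n hn).f) = 0 := by
    rw [← coeff_zero_eq_constantCoeff_apply, PowerSeries.coeff_map,
      coeff_zero_eq_constantCoeff_apply, (hondaData p n hn).constantCoeff_f, map_zero]
  have key := FE.subst_injective h0 hu1 (FormalGroup.zero_constantCoeff _)
    (FormalGroup.zero_constantCoeff _) (e1.trans e2.symm)
  refine FormalGroup.ext (MvPowerSeries.ext fun k => ?_)
  have hk := congrArg (MvPowerSeries.coeff k) key
  simp only [FormalGroup.map, MvPowerSeries.coeff_map, RingHom.comp_apply] at hk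
  have hk' : MvPowerSeries.constantCoeff (MvPowerSeries.coeff k F.toPowerSeries) =
      zW (MvPowerSeries.coeff k Gn.toPowerSeries) :=
    IsFractionRing.injective W K ((hcK _).symm.trans (hk.trans (hqK _)))
  simp only [hondaIn, FormalGroup.map, MvPowerSeries.coeff_map, residue, RingHom.comp_apply, hk']
  exact RingHom.congr_fun (hom_padicInt_eq (WittVector.constantCoeff.comp zW)) _

end Vale.Agent.P217.EF
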