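import Vale.Agent.P217.A.Coeff
import Vale.Agent.P217.EF.Cover
import Vale.Agent.P217.EF.Solve
import Vale.Agent.P217.EF.Univ
import Vale.Agent.P217.Jac.Point

/-!
# P217, block EF: the covering map is additive and onto; symmetries
-/

noncomputable section

namespace Vale.Agent.P217.EF

open Filter Topology Eval

variable {p : ℕ} [Fact p.Prime] {n h : ℕ} {C : Type} [NontriviallyNormedField C]
  [IsUltrametricDist C] [CompleteSpace C] [CharP C p]
  {F : FormalGroup (E0 p n)} {P : GoodPoint p n h C} {Gn : FormalGroup ℤ_[p]}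

/-- The coefficient map of the Honda law into C. -/
def cast (p : ℕ) [Fact p.Prime] (C : Type) [CommRing C] [CharP C p] : ℤ_[p] →+* C :=
  (ZMod.castHom (dvd_refl p) C).comp PadicInt.toZMod

omit [IsUltrametricDist C] [CompleteSpace C] in
theorem cast_fixed (k : ℕ) (r : ℤ_[p]) : cast p C r ^ p ^ k = cast p C r := by
  rw [cast, RingHom.comp_apply, ← map_pow, ZMod.pow_card_pow]

omit [IsUltrametricDist C] [CompleteSpace C] in
theorem norm_cast_le (r : ℤ_[p]) : ‖cast p C r‖ ≤ 1 :=
  norm_eq_of_fixed (k := 1) le_rfl (cast_fixed 1 r)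

omit [IsUltrametricDist C] [CompleteSpace C] in
theorem gadd_honda (a b : C) : gadd (hondaIn Gn C) a b = vadd (cast p C) Gn a b :=
  gadd_map _ _ _ _

omit [IsUltrametricDist C] [CompleteSpace C] [CharP C p] in
theorem gadd_law (a b : C) : gadd (lawAt F P) a b = vadd P.chi F a b :=
  gadd_map _ _ _ _

omit [IsUltrametricDist C] [CompleteSpace C] in
/-- The law at a point is the Honda law up to 1 / p. -/
theorem law_residue (hF : IsUniversalDeformation p n F) (hn : 1 ≤ n) (hG : IsHondaLift n Gn)
    (k : Fin 2 →₀ ℕ) : P.emb (residue (MvPowerSeries.coeff k F.toPowerSeries)) =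
      cast p C (MvPowerSeries.coeff k Gn.toPowerSeries) := by
  have e := congrArg (fun G : FormalGroup (GaloisField p n) =>
    P.emb (MvPowerSeries.coeff k G.toPowerSeries)) (residue_universal hF hn hG)
  simp only [hondaIn, FormalGroup.map, MvPowerSeries.coeff_map] at e
  rw [e]
  exact RingHom.congr_fun (hom_padicInt_eq (P.emb.comp
    ((ZMod.castHom (dvd_refl p) (GaloisField p n)).comp PadicInt.toZMod))) _

theorem pMulShape (hF : IsUniversalDeformation p n F) (hh : 1 ≤ h) (hhn : h ≤ n)
    (hG : IsHondaLift n Gn) : PMulShape F P where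
  one_le := hh.trans hhn
  residue_val z hz := by
    rw [peval_nsmulSeries
      (j := P.emb.comp residue) (fun r => norm_eq_of_fixed (hh.trans hhn) (emb_fixed (hh.trans hhn) P _))
      F p hz]
    have e : F.map (P.emb.comp residue) = hondaIn Gn C := FormalGroup.ext (MvPowerSeries.ext
      fun k => by
        simp only [hondaIn, FormalGroup.map, MvPowerSeries.coeff_map]
        exact law_residue hF (hh.trans hhn) hG k)
    rw [e]
    exact (coeffPin p n (hh.trans hhn)).2 Gn hG C z hz
  support k hk := by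
    have hm := ((coeffPin p n (hh.trans hhn)).1 F hF h hh hhn).1 k hk
    have hle : heightIdeal p n h ≤ RingHom.ker P.chi := by
      rw [heightIdeal, if_neg (by omega), Ideal.span_le]
      rintro x (rfl | ⟨i, -, hi, rfl⟩)
      · exact chi_p P
      · exact P.chi_zero i hi
    exact hle hm

omit [CharP C p] in
theorem pMul_vadd (hF : IsUniversalDeformation p n F) (hn : 1 ≤ n) {a b : C} (ha : ‖a‖ < 1)
    (hb : ‖b‖ < 1) : pMul F P (vadd P.chi F a b) = vadd P.chi F (pMul F P a) (pMul F P b) := by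
  have := isComm_universal hF
  have hj := norm_chi_le hn P
  rw [pMul_eq_nPoint hn (norm_vadd_lt hj F ha hb), pMul_eq_nPoint hn ha, pMul_eq_nPoint hn hb]
  exact nPoint_vadd hj F p ha hb

omit [CharP C p] in
theorem iterate_pMul_vadd (hF : IsUniversalDeformation p n F) (hn : 1 ≤ n) (m : ℕ) {a b : C}
    (ha : ‖a‖ < 1) (hb : ‖b‖ < 1) : (pMul F P)^[m] (vadd P.chi F a b) =
      vadd P.chi F ((pMul F P)^[m] a) ((pMul F P)^[m] b) := by
  induction m with
  | zero => rfl
  | succ m ih =>
    simp only [Function.iterate_succ_apply', ih]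
    exact pMul_vadd hF hn ((norm_iterate_pMul_le hn m ha).trans_lt ha)
      ((norm_iterate_pMul_le hn m hb).trans_lt hb)

variable [IsAlgClosed C]

theorem piMap_add (hF : IsUniversalDeformation p n F) (hh : 1 ≤ h) (hhn : h ≤ n)
    (hG : IsHondaLift n Gn) {a b : C} (ha : ‖a‖ < 1) (hb : ‖b‖ < 1) :
    piMap F P (vadd (cast p C) Gn a b) = vadd P.chi F (piMap F P a) (piMap F P b) := by
  have hn : 1 ≤ n := hh.trans hhn
  have H : PMulShape F P := pMulShape hF hh hhn hG
  have hj := norm_chi_le hn P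
  have hc : ∀ k, ‖cast p C (MvPowerSeries.coeff k Gn.toPowerSeries) -
      P.chi (MvPowerSeries.coeff k F.toPowerSeries)‖ ≤ (p : ℝ)⁻¹ := fun k => by
    rw [← law_residue (P := P) hF hn hG k, norm_sub_rev]
    exact chi_sub_emb_le P _
  have hab := norm_vadd_lt (norm_cast_le (C := C)) Gn ha hb
  refine piMap_eq_of_close H hh hab fun m => ?_
  have hra := norm_root_lt (p := p) (n := n) (m := m) ha
  have hrb := norm_root_lt (p := p) (n := n) (m := m) hb
  have eroot : root p n m (vadd (cast p C) Gn a b) =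
      vadd (cast p C) Gn (root p n m a) (root p n m b) :=
    pow_injective_char (p := p) (n * m) (by
      simp only [root_pow]
      rw [vadd, vadd, mveval_pow_char (j := cast p C) norm_cast_le _ (norm_pair_lt hra hrb) _
        (cast_fixed _)]
      congr 1
      funext i
      fin_cases i <;> simp [root_pow])
  rw [seq, eroot, ← sub_add_sub_cancel _ ((pMul F P)^[m] (vadd P.chi F (root p n m a) (root p n m b)))]
  refine (IsUltrametricDist.norm_add_le_max _ _).trans (max_le ?_ ?_)
  · refine (iterate_pMul_contract H m (norm_vadd_lt norm_cast_le Gn hra hrb)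
      (norm_vadd_lt hj F hra hrb)).trans (pow_le_pow_left₀ (norm_nonneg _) ?_ _)
    exact norm_vadd_sub_le norm_cast_le hj hra hrb hra hrb hc
      (by rw [sub_self, norm_zero]; exact inv_prime_pos.le)
      (by rw [sub_self, norm_zero]; exact inv_prime_pos.le)
  · rw [iterate_pMul_vadd hF hn m hra hrb]
    refine norm_vadd_sub_le hj hj (norm_seq_lt H m ha) (norm_seq_lt H m hb) (norm_piMap_lt H hh ha)
      (norm_piMap_lt H hh hb) (fun k => by rw [sub_self, norm_zero]; positivity) ?_ ?_
    · rw [norm_sub_rev]; exact piMap_sub_seq_le H hh m ha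
    · rw [norm_sub_rev]; exact piMap_sub_seq_le H hh m hb

omit [CharP C p] in
/-- Multiplication by p is onto the open disc. -/
theorem exists_pMul_eq (H : PMulShape F P) (hcoef : ∀ k, k < p ^ n →
      ‖P.chi (PowerSeries.coeff k (nsmulSeries F p))‖ ≤ (p : ℝ)⁻¹)
    (htop : ‖P.chi (PowerSeries.coeff (p ^ n) (nsmulSeries F p))‖ = 1) {a : C} (ha : ‖a‖ < 1) :
    ∃ y, ‖y‖ < 1 ∧ pMul F P y = a := by
  have hq : 0 < p ^ n := pow_pos (Fact.out : p.Prime).pos n
  have hj := norm_chi_le H.one_le P
  let jb : E0 p n →+* unitBall C := P.chi.codRestrict (unitBall C) hj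
  let f : PowerSeries (unitBall C) :=
    PowerSeries.map jb (nsmulSeries F p) - PowerSeries.C ⟨a, ha.le⟩
  by_cases hz : (∀ k, k < p ^ n → P.chi (PowerSeries.coeff k (nsmulSeries F p)) = 0) ∧ a = 0
  · refine ⟨0, by simp, ?_⟩
    have h0 := norm_pMul_le (F := F) (P := P) H.one_le (show ‖(0 : C)‖ < 1 by simp)
    rw [norm_zero, norm_le_zero_iff] at h0
    rw [h0, hz.2]
  have hfc : ∀ k, ((PowerSeries.coeff k f : unitBall C) : C) =
      P.chi (PowerSeries.coeff k (nsmulSeries F p)) - if k = 0 then a else 0 := fun k => by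
    simp only [f, map_sub, PowerSeries.coeff_map, PowerSeries.coeff_C, AddSubgroupClass.coe_sub]
    split_ifs <;> rfl
  obtain ⟨k0, hk0, hmax⟩ := (Finset.range (p ^ n)).exists_max_image
    (fun k => ‖((PowerSeries.coeff k f : unitBall C) : C)‖) ⟨0, Finset.mem_range.2 hq⟩
  have h0 : P.chi (PowerSeries.coeff 0 (nsmulSeries F p)) = 0 := by
    rw [PowerSeries.coeff_zero_eq_constantCoeff_apply, constantCoeff_nsmulSeries, map_zero]
  have hc0 : ((PowerSeries.coeff k0 f : unitBall C) : C) ≠ 0 := by
    intro hc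
    refine hz ⟨fun k hk => ?_, ?_⟩ <;> by_contra hne
    · have hle := hmax k (Finset.mem_range.2 hk)
      rw [hc, norm_zero, norm_le_zero_iff, hfc] at hle
      rcases eq_or_ne k 0 with rfl | hk'
      · exact hne h0
      · rw [if_neg hk', sub_zero] at hle
        exact hne hle
    · have hle := hmax 0 (Finset.mem_range.2 hq)
      rw [hc, norm_zero, norm_le_zero_iff, hfc, if_pos rfl, h0, zero_sub, neg_eq_zero] at hle
      exact hne hle
  have hc1 : ‖((PowerSeries.coeff k0 f : unitBall C) : C)‖ < 1 := by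
    rw [hfc, sub_eq_add_neg]
    refine (IsUltrametricDist.norm_add_le_max _ _).trans_lt (max_lt ?_ ?_)
    · exact (hcoef k0 (Finset.mem_range.1 hk0)).trans_lt inv_prime_lt_one
    · rw [norm_neg]
      split_ifs
      · exact ha
      · simp
  obtain ⟨y, hy, hy0⟩ := exists_zero f hc0 hc1 hq (fun k hk => hmax k (Finset.mem_range.2 hk))
    (by rw [hfc, if_neg hq.ne', sub_zero]; exact htop)
  refine ⟨y, hy, ?_⟩
  have e : peval (unitBall C).subtype (PowerSeries.map jb (nsmulSeries F p)) y =
      peval (unitBall C).subtype f y +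
        peval (unitBall C).subtype (PowerSeries.C (⟨a, ha.le⟩ : unitBall C)) y := by
    rw [← peval_add norm_subtype_le hy, sub_add_cancel]
  rw [hy0, zero_add, peval_map] at e
  have e1 : peval (unitBall C).subtype (PowerSeries.C (⟨a, ha.le⟩ : unitBall C)) y = a := by
    simpa using peval_C_mul_X_pow (j := (unitBall C).subtype) (y := y) 0 (⟨a, ha.le⟩ : unitBall C)
  rw [e1] at e
  exact e

theorem residue_nsmul (hF : IsUniversalDeformation p n F) (hn : 1 ≤ n) (hG : IsHondaLift n Gn) :
    PowerSeries.map residue (nsmulSeries F p) = PowerSeries.X ^ p ^ n := by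
  rw [(map_nsmulSeries F residue p).2, residue_universal hF hn hG, hondaIn,
    ← (map_nsmulSeries Gn _ p).2, PowerSeries.map_comp, RingHom.comp_apply,
    honda_nsmul_p hn hG, map_pow, PowerSeries.map_X]

theorem piMap_surjective (hF : IsUniversalDeformation p n F) (hh : 1 ≤ h) (hhn : h ≤ n)
    (hG : IsHondaLift n Gn) {a : C} (ha : ‖a‖ < 1) :
    ∃ z, ‖z‖ < 1 ∧ piMap F P z = a := by
  have hn : 1 ≤ n := hh.trans hhn
  have H : PMulShape F P := pMulShape hF hh hhn hG
  have hq : 2 ≤ p ^ n := (Fact.out : p.Prime).two_le.trans (Nat.le_self_pow (by omega) p)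
  have hres : ∀ k, P.emb (residue (PowerSeries.coeff k (nsmulSeries F p))) =
      if k = p ^ n then 1 else 0 := fun k => by
    have := congrArg (fun g => P.emb (PowerSeries.coeff k g)) (residue_nsmul hF hn hG)
    simp only [PowerSeries.coeff_map, PowerSeries.coeff_X_pow] at this
    rw [this]
    split_ifs <;> simp
  have hstep : ∀ w : C, ‖w‖ < 1 → ∃ y, ‖y‖ < 1 ∧ pMul F P y = w := fun w hw =>
    exists_pMul_eq H (fun k hk => by
      have := chi_sub_emb_le P (PowerSeries.coeff k (nsmulSeries F p))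
      rwa [hres, if_neg hk.ne, sub_zero] at this) (by
      have h1 := chi_sub_emb_le P (PowerSeries.coeff (p ^ n) (nsmulSeries F p))
      rw [hres, if_pos rfl] at h1
      rw [← sub_add_cancel (P.chi _) 1, IsUltrametricDist.norm_add_eq_max_of_norm_ne_norm
        (by rw [norm_one]; exact (h1.trans_lt inv_prime_lt_one).ne), norm_one]
      exact max_eq_right (h1.trans inv_prime_lt_one.le)) hw
  choose next hnext1 hnext2 using hstep
  let Y : ℕ → {w : C // ‖w‖ < 1} := fun m => Nat.rec ⟨a, ha⟩
    (fun _ w => ⟨next w.1 w.2, hnext1 w.1 w.2⟩) m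
  have hY : ∀ m, pMul F P (Y (m + 1)).1 = (Y m).1 := fun m => hnext2 _ _
  let w : ℕ → C := fun m => (Y m).1 ^ p ^ (n * m)
  have hpow : ∀ m, ((p : ℝ)⁻¹) ^ p ^ (n * m) ≤ (p : ℝ)⁻¹ := fun m =>
    pow_le_of_le_one inv_prime_pos.le inv_prime_lt_one.le (pow_pos (Fact.out : p.Prime).pos _).ne'
  have hw : ∀ m, ‖w (m + 1) - w m‖ ≤ ((p : ℝ)⁻¹) ^ p ^ (n * m) := fun m => by
    simp only [w]
    rw [show n * (m + 1) = n + n * m by ring, pow_add, pow_mul, ← sub_pow_char_pow, norm_pow]
    refine pow_le_pow_left₀ (norm_nonneg _) ?_ _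
    rw [← hY m, norm_sub_rev]
    exact pMul_sub_pow_le H (Y (m + 1)).2
  have hadd : ∀ m k, ‖w (m + k) - w m‖ ≤ ((p : ℝ)⁻¹) ^ p ^ (n * m) := fun m k => by
    induction k with
    | zero => simp [pow_nonneg]
    | succ k ih =>
      rw [← sub_add_sub_cancel _ (w (m + k))]
      refine (IsUltrametricDist.norm_add_le_max _ _).trans (max_le ((hw (m + k)).trans ?_) ih)
      exact pow_le_pow_of_le_one inv_prime_pos.le inv_prime_lt_one.le
        (Nat.pow_le_pow_right (Fact.out : p.Prime).pos (Nat.mul_le_mul_left n (Nat.le_add_right m k)))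
  have hlim : Tendsto (fun m : ℕ => ((p : ℝ)⁻¹) ^ p ^ (n * m)) atTop (𝓝 0) := by
    simp only [pow_mul]
    exact tendsto_bound (p := p) (h := n) hn
  obtain ⟨z, hz⟩ := cauchySeq_tendsto_of_complete
    (NonarchimedeanAddGroup.cauchySeq_of_tendsto_sub_nhds_zero (squeeze_zero_norm hw hlim))
  have hzw : ∀ m, ‖z - w m‖ ≤ ((p : ℝ)⁻¹) ^ p ^ (n * m) := fun m =>
    le_of_tendsto ((hz.sub_const _).norm) (eventually_atTop.2 ⟨m, fun k hk => by
      obtain ⟨i, rfl⟩ := Nat.le.dest hk
      exact hadd m i⟩)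
  have hz1 : ‖z‖ < 1 := by
    rw [← sub_add_cancel z (w 0)]
    refine (IsUltrametricDist.norm_add_le_max _ _).trans_lt
      (max_lt ((hzw 0).trans_lt ((hpow 0).trans_lt inv_prime_lt_one)) ?_)
    simpa [w, Y] using ha
  refine ⟨z, hz1, piMap_eq_of_close H hh hz1 fun m => ?_⟩
  have hit : ∀ k, (pMul F P)^[k] (Y k).1 = a := fun k => by
    induction k with
    | zero => rfl
    | succ k ih => rw [Function.iterate_succ_apply, hY, ih]
  rw [seq, ← hit m]
  refine (iterate_pMul_contract H m (norm_root_lt hz1) (Y m).2).trans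
    (pow_le_pow_left₀ (norm_nonneg _) ?_ _)
  refine le_of_pow_le_pow_left₀ (pow_pos (Fact.out : p.Prime).pos (n * m)).ne' inv_prime_pos.le ?_
  rw [← norm_pow, sub_pow_char_pow, root_pow]
  exact hzw m

/-- The covering facts. -/
theorem coverFacts_of (hF : IsUniversalDeformation p n F) (hh : 1 ≤ h) (hhn : h < n)
    (hG : IsHondaLift n Gn) : CoverFacts Gn F P where
  pMul_add a b ha hb := by
    simp only [gadd_law]; exact pMul_vadd hF (hh.trans hhn.le) ha hb
  pi_small z hz := norm_piMap_lt (pMulShape hF hh hhn.le hG) hh hz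
  pi_bound z hz := norm_piMap_le (pMulShape hF hh hhn.le hG) hh hz
  pi_add a b ha hb := by
    simp only [gadd_law, gadd_honda]; exact piMap_add hF hh hhn.le hG ha hb
  pi_pow z hz := piMap_pow (pMulShape hF hh hhn.le hG) hh hz
  pi_surj w hw := piMap_surjective hF hh hhn.le hG hw
  pi_lipschitz := by
    refine ⟨1, (p : ℝ)⁻¹, inv_prime_pos, fun η P' hs hη z hz => ?_⟩
    rw [one_mul]
    refine piMap_lipschitz (pMulShape hF hh hhn.le hG) (pMulShape hF hh hhn.le hG) hh
      (norm_nonneg η) (fun b => ?_) hz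
    rw [chi_eq_value (hh.trans hhn.le) P', chi_eq_value (hh.trans hhn.le) P, hs.1]
    refine norm_mveval_sub_le (norm_emb_le _) (norm_emb_le _) (norm_coord_lt P') (norm_coord_lt P)
      (norm_nonneg η) (fun k => by rw [sub_self, norm_zero]; exact norm_nonneg η) fun i => ?_
    rw [coord_of_isShift hhn.le P P' η hs, add_sub_cancel_left]
    exact norm_shiftVec_le η i

theorem coverPin : CoverPin := fun _ _ _ _ _ _ _ _ _ _ _ hh hhn hG _ hF _ =>
  coverFacts_of hF hh hhn hG

omit [CompleteSpace C] [CharP C p] [IsAlgClosed C] in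
theorem peval_sub' [CompleteSpace C] {R : Type} [CommRing R] {j : R →+* C} (hj : ∀ r, ‖j r‖ ≤ 1)
    {y : C} (hy : ‖y‖ < 1) (f g : PowerSeries R) :
    peval j (f - g) y = peval j f y - peval j g y :=
  eq_sub_of_add_eq (by rw [← peval_add hj hy, sub_add_cancel])

omit [IsUltrametricDist C] [CompleteSpace C] [CharP C p] [IsAlgClosed C] in
theorem nPoint_zero (G : FormalGroup C) (z : C) : nPoint G 0 z = 0 := rfl

/-- A homomorphism between the laws at two points intertwines the covering maps. -/
theorem piMap_hom (hF : IsUniversalDeformation p n F) (hh : 1 ≤ h) (hhn : h ≤ n)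
    (hG : IsHondaLift n Gn) {P' : GoodPoint p n h C} (s : E0 p n →+* E0 p n)
    (hs : ∀ a, P'.chi a = P.chi (s a)) {ψ : PowerSeries (E0 p n)} (hψ : IsHom (F.map s) F ψ)
    {z : C} (hz : ‖z‖ < 1) :
    peval P.chi ψ (piMap F P' z) = piMap F P (peval (P.emb.comp residue) ψ z) := by
  have hn : 1 ≤ n := hh.trans hhn
  have H : PMulShape F P := pMulShape hF hh hhn hG
  have H' : PMulShape F P' := pMulShape hF hh hhn hG
  have hj := norm_chi_le hn P
  have he : ∀ r, ‖(P.emb.comp residue) r‖ ≤ 1 := fun r =>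
    norm_eq_of_fixed hn (emb_fixed hn P _)
  have hlt : ∀ {u : C}, ‖u‖ < 1 → ‖peval P.chi ψ u‖ < 1 := fun hu =>
    (norm_peval_le hj hu.le _ hψ.1).trans_lt hu
  have hzb : ‖peval (P.emb.comp residue) ψ z‖ < 1 :=
    (norm_peval_le he hz.le _ hψ.1).trans_lt hz
  have hchi : P'.chi = P.chi.comp s := RingHom.ext hs
  have hcomm : ∀ u : C, ‖u‖ < 1 → peval P.chi ψ (pMul F P' u) = pMul F P (peval P.chi ψ u) := by
    intro u hu
    have e := congrArg (fun g => peval P.chi g u) (hom_nsmul hψ.1 hψ.2 p).2.2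
    rw [peval_subst hj hu (constantCoeff_nsmulSeries _ _), peval_subst hj hu hψ.1,
      ← (map_nsmulSeries F s p).2, peval_map, ← hchi] at e
    exact e
  have hit : ∀ m, ∀ u : C, ‖u‖ < 1 →
      peval P.chi ψ ((pMul F P')^[m] u) = (pMul F P)^[m] (peval P.chi ψ u) := by
    intro m
    induction m with
    | zero => intro u _; rfl
    | succ m ih =>
      intro u hu
      simp only [Function.iterate_succ_apply', ← ih u hu]
      exact hcomm _ ((norm_iterate_pMul_le hn m hu).trans_lt hu)
  have hroot : ∀ m, root p n m (peval (P.emb.comp residue) ψ z) =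
      peval (P.emb.comp residue) ψ (root p n m z) := fun m =>
    pow_injective_char (p := p) (n * m) (by
      simp only [root_pow]
      rw [peval_pow_char (j := P.emb.comp residue) he _ (norm_root_lt hz) _ (fun r => ?_), root_pow]
      induction m with
      | zero => simp
      | succ m ih => rw [show n * (m + 1) = n * m + n by ring, pow_add, pow_mul, ih,
          RingHom.comp_apply, emb_fixed hn P])
  symm
  refine piMap_eq_of_close H hh hzb fun m => ?_
  rw [seq, hroot, ← sub_add_sub_cancel _ ((pMul F P)^[m] (peval P.chi ψ (root p n m z)))]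
  have hr := norm_root_lt (p := p) (n := n) (m := m) hz
  refine (IsUltrametricDist.norm_add_le_max _ _).trans (max_le ?_ ?_)
  · refine (iterate_pMul_contract H m ((norm_peval_le he hr.le _ hψ.1).trans_lt hr) (hlt hr)).trans
      (pow_le_pow_left₀ (norm_nonneg _) ?_ _)
    exact norm_peval_sub_le he hj hr hr
      (fun k => by rw [norm_sub_rev]; exact chi_sub_emb_le P _)
      (by rw [sub_self, norm_zero]; exact inv_prime_pos.le)
  · rw [← hit m _ hr]
    refine norm_peval_sub_le hj hj ((norm_iterate_pMul_le hn m hr).trans_lt hr)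
      (norm_piMap_lt H' hh hz) (fun k => by rw [sub_self, norm_zero]; positivity) ?_
    rw [norm_sub_rev]
    exact piMap_sub_seq_le H' hh m hz

end Vale.Agent.P217.EF
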