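import Vale.Agent.P217.EF.Main
import Vale.Agent.P217.B.Block
import Vale.Agent.P217.Hom.Linearised
import Vale.Agent.P217.Jac.Final
import Vale.Agent.P217.I.End
import Vale.Agent.P217.BlockH

/-!
# P217: block EF
-/

noncomputable section

namespace Vale.Agent.P217

section points

variable {p : ℕ} [Fact p.Prime] {n : ℕ} {C : Type} [NontriviallyNormedField C]
  [IsUltrametricDist C] [CompleteSpace C] [CharP C p] {Gn : FormalGroup ℤ_[p]}

/-- A composite of fixed endomorphisms is one, and acts by composition. -/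
theorem fixedEnd_comp (hn : 1 ≤ n) {b cc : PowerSeries C}
    (hb : IsFixedEnd (p ^ n) (hondaIn Gn C) b) (hcc : IsFixedEnd (p ^ n) (hondaIn Gn C) cc) :
    ∃ w, IsFixedEnd (p ^ n) (hondaIn Gn C) w ∧ ∀ y : C, ‖y‖ < 1 →
      peval (RingHom.id C) w y = peval (RingHom.id C) b (peval (RingHom.id C) cc y) := by
  have hl0 := I.constantCoeff_lift (p := p) hcc.1 hcc.2.1
  have hs := PowerSeries.HasSubst.of_constantCoeff_zero hcc.2.1
  have e : PowerSeries.subst cc b = PowerSeries.map (I.fixRing (p := p) C n).subtype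
      (PowerSeries.subst (I.lift n cc hcc.1) (I.lift n b hb.1)) := by
    show _ = MvPowerSeries.map _ _
    rw [PowerSeries.map_subst (PowerSeries.HasSubst.of_constantCoeff_zero hl0), I.map_lift]
    exact congrArg (fun z => PowerSeries.subst z b) (I.map_lift cc hcc.1).symm
  refine ⟨PowerSeries.subst cc b, I.isFixedEnd_iff.2 ⟨fun i => ?_,
    PowerSeries.constantCoeff_subst_eq_zero hcc.2.1 _ hb.2.1, ?_⟩, fun y hy => ?_⟩
  · rw [e, PowerSeries.coeff_map]
    exact I.mem_fixRing.1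
      (PowerSeries.coeff i (PowerSeries.subst (I.lift n cc hcc.1) (I.lift n b hb.1))).2
  · have hG := PowerSeries.HasSubst.of_constantCoeff_zero (hondaIn Gn C).zero_constantCoeff
    have hX : ∀ i : Fin 2, PowerSeries.HasSubst (MvPowerSeries.X i : MvPowerSeries (Fin 2) C) :=
      fun i => PowerSeries.HasSubst.of_constantCoeff_zero (MvPowerSeries.constantCoeff_X i)
    have h2 := I.hasSubst_two (I.constantCoeff_inVar 0 hcc.2.1) (I.constantCoeff_inVar 1 hcc.2.1)
    have h3 : MvPowerSeries.HasSubst ![I.inVar 0 b, I.inVar 1 b] :=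
      I.hasSubst_two (I.constantCoeff_inVar 0 hb.2.1) (I.constantCoeff_inVar 1 hb.2.1)
    show PowerSeries.subst _ (PowerSeries.subst cc b) = _
    rw [PowerSeries.subst_comp_subst_apply hs hG, (I.isFixedEnd_iff.1 hcc).2.2,
      PowerSeries.subst_def, ← MvPowerSeries.subst_comp_subst_apply hG.const h2, ← PowerSeries.subst_def,
      (I.isFixedEnd_iff.1 hb).2.2, MvPowerSeries.subst_comp_subst_apply h3 h2]
    have hpush : ∀ u : Fin 2, MvPowerSeries.subst ![I.inVar 0 cc, I.inVar 1 cc] (I.inVar u b) =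
        I.inVar u (PowerSeries.subst cc b) := fun u => by
      have hr : I.inVar u (PowerSeries.subst cc b) = PowerSeries.subst (I.inVar u cc) b :=
        PowerSeries.subst_comp_subst_apply hs (hX u) b
      rw [hr]
      show MvPowerSeries.subst ![I.inVar 0 cc, I.inVar 1 cc]
          (MvPowerSeries.subst (fun _ : Unit => (MvPowerSeries.X u : MvPowerSeries (Fin 2) C)) b) =
        MvPowerSeries.subst (fun _ : Unit => I.inVar u cc) b
      rw [MvPowerSeries.subst_comp_subst_apply (hX u).const h2]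
      refine congrArg (fun z => MvPowerSeries.subst z b) (funext fun _ => ?_)
      rw [MvPowerSeries.subst_X h2]
      fin_cases u <;> rfl
    congr 1
    funext u
    fin_cases u
    · exact hpush 0
    · exact hpush 1
  · rw [e, Eval.peval_map, RingHom.id_comp, Eval.peval_subst (I.norm_fixRing hn) hy hl0,
      I.peval_lift, I.peval_lift]

/-- Negatives of points are given by a fixed endomorphism. -/
theorem exists_negEnd (hn : 1 ≤ n) (hGn : IsHondaLift n Gn) :
    ∃ b, IsFixedEnd (p ^ n) (hondaIn Gn C) b ∧ ∀ y : C, ‖y‖ < 1 →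
      gadd (hondaIn Gn C) y (peval (RingHom.id C) b y) = 0 := by
  set φ := ((ZMod.castHom (dvd_refl p) (HB.fixSub C p n)).comp PadicInt.toZMod : ℤ_[p] →+* HB.fixSub C p n)
  set G : FormalGroup (HB.fixSub C p n) := Gn.map φ with hG
  have hφ : (HB.fixSub C p n).subtype.comp φ = EF.cast p C := EF.hom_padicInt_eq _
  have : Gn.IsComm := I.isComm_of_lift hn hGn
  have : G.IsComm := I.isComm_map Gn _
  obtain ⟨ι, -, hι⟩ := HB.exists_inverse (hh := hn) (G := G)
  have hGC : G.map (HB.fixSub C p n).subtype = hondaIn Gn C := by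
    refine FormalGroup.ext (MvPowerSeries.ext fun a => ?_)
    simp only [hG, hondaIn, FormalGroup.map, MvPowerSeries.coeff_map]
    exact RingHom.congr_fun hφ _
  refine ⟨PowerSeries.map (HB.fixSub C p n).subtype ι.1, I.isFixedEnd_iff.2 ⟨fun k => ?_, ?_, ?_⟩,
    fun y hy => ?_⟩
  · rw [PowerSeries.coeff_map]
    exact HB.mem_fixSub.1 (PowerSeries.coeff k ι.1).2
  · rw [← PowerSeries.coeff_zero_eq_constantCoeff_apply, PowerSeries.coeff_map,
      PowerSeries.coeff_zero_eq_constantCoeff_apply, ι.2.1, map_zero]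
  · have hX : ∀ s : Fin 2,
        PowerSeries.HasSubst (MvPowerSeries.X s : MvPowerSeries (Fin 2) (HB.fixSub C p n)) :=
      fun s => PowerSeries.HasSubst.of_constantCoeff_zero (MvPowerSeries.constantCoeff_X _)
    rw [← hGC]
    unfold I.IsHom
    rw [FormalGroup.map,
      ← PowerSeries.map_subst (PowerSeries.HasSubst.of_constantCoeff_zero G.zero_constantCoeff),
      ι.2.2, MvPowerSeries.map_subst (HB.hasSubst_pair
        (PowerSeries.constantCoeff_subst_eq_zero (MvPowerSeries.constantCoeff_X _) _ ι.2.1)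
        (PowerSeries.constantCoeff_subst_eq_zero (MvPowerSeries.constantCoeff_X _) _ ι.2.1))]
    congr 1
    funext s
    fin_cases s <;> simp [I.inVar, PowerSeries.map_subst (hX _)]
  · rw [← hGC, EF.gadd_map, Eval.peval_map, RingHom.id_comp]
    exact congrArg Subtype.val (hι ⟨y, hy⟩)

variable [IsAlgClosed C] {h : ℕ} {Gh : FormalGroup ℤ_[p]} {F : FormalGroup (E0 p n)}
  {P : GoodPoint p n h C} {i : PowerSeries C} {ξ : Fin (n - h) → C}

open EF in
/-- The periods of the orbit form a group of points. -/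
theorem orbit_isPointGroup (hF : IsUniversalDeformation p n F) (hh : 1 ≤ h) (hhn : h < n)
    (hGn : IsHondaLift n Gn) (hGh : IsHondaLift h Gh) (hi1 : ∀ k, ‖PowerSeries.coeff k i‖ ≤ 1)
    (hhom : EF.IsHom (lawAt F P) (hondaIn Gh C) i) (hξ : ∀ j, ‖ξ j‖ < 1) :
    IsPointGroup (hondaIn Gh C) (p ^ h) {μ | ∃ cc : PowerSeries C,
      IsFixedEnd (p ^ n) (hondaIn Gn C) cc ∧
        μ = fun j => period F P i (peval (RingHom.id C) cc (ξ j))} := by
  have hn := hh.trans hhn.le
  have H : PMulShape F P := pMulShape hF hh hhn.le hGn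
  have hlt : ∀ cc : PowerSeries C, IsFixedEnd (p ^ n) (hondaIn Gn C) cc →
      ∀ j, ‖peval (RingHom.id C) cc (ξ j)‖ < 1 := fun cc hcc j =>
    (I.norm_peval_end hn hcc (hξ j).le).trans_lt (hξ j)
  have hz : period F P i 0 = 0 := by
    rw [period, piMap_zero H hh, peval, tsum_eq_single 0 fun k hk => by simp [hk]]
    simp [hhom.1]
  have hadd : ∀ u v : C, ‖u‖ < 1 → ‖v‖ < 1 → period F P i (gadd (hondaIn Gn C) u v) =
      gadd (hondaIn Gh C) (period F P i u) (period F P i v) := fun u v hu hv => by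
    rw [gadd_honda, gadd_honda, period, period, period, piMap_add hF hh hhn.le hGn hu hv,
      peval_vadd hn hi1 hhom (norm_piMap_lt H hh hu) (norm_piMap_lt H hh hv)]
  refine ⟨?_, ?_, ?_, ?_, ?_⟩
  · rintro μ ⟨cc, hcc, rfl⟩ j
    exact norm_period_lt hF hh hhn.le hGn hi1 hhom (hlt cc hcc j)
  · refine ⟨0, I.isFixedEnd_iff.2 ⟨fun k => ?_, map_zero _, ?_⟩, funext fun j => ?_⟩
    · simp [zero_pow (pow_ne_zero n (Fact.out : p.Prime).ne_zero)]
    · have hs : ∀ w : MvPowerSeries (Fin 2) C, PowerSeries.HasSubst w →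
          PowerSeries.subst w (0 : PowerSeries C) = 0 := fun w hw => by
        rw [← map_zero PowerSeries.C, PowerSeries.subst_C, map_zero]
      unfold I.IsHom I.inVar
      rw [hs _ (PowerSeries.HasSubst.of_constantCoeff_zero (hondaIn Gn C).zero_constantCoeff),
        hs _ (PowerSeries.HasSubst.of_constantCoeff_zero (by simp)),
        hs _ (PowerSeries.HasSubst.of_constantCoeff_zero (by simp)),
        show (![0, 0] : Fin 2 → MvPowerSeries (Fin 2) C) = 0 by ext i; fin_cases i <;> rfl,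
        MvPowerSeries.subst_zero_of_constantCoeff_zero (hondaIn Gn C).zero_constantCoeff]
    · rw [Eval.peval_zero, hz]; rfl
  · rintro μ ⟨cc, hcc, rfl⟩ ν ⟨dd, hdd, rfl⟩
    have : Gn.IsComm := I.isComm_of_lift hn hGn
    have : (hondaIn Gn C).IsComm := I.isComm_map Gn _
    obtain ⟨f1, f2, f3⟩ := I.isFixedEnd_iff.1 hcc
    obtain ⟨g1, g2, g3⟩ := I.isFixedEnd_iff.1 hdd
    refine ⟨I.addS (hondaIn Gn C) cc dd, I.isFixedEnd_iff.2 ⟨I.fixed_addS Gn f2 g2 f1 g1,
      I.constantCoeff_addS _ f2 g2, I.isHom_addS _ f2 g2 f3 g3⟩, funext fun j => ?_⟩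
    rw [I.peval_addS hn Gn f1 g1 f2 g2 (hξ j), hadd _ _ (hlt cc hcc j) (hlt dd hdd j)]
  · rintro μ ⟨cc, hcc, rfl⟩
    obtain ⟨b, hb, hneg⟩ := exists_negEnd (C := C) hn hGn
    obtain ⟨w, hw, hwy⟩ := fixedEnd_comp hn hb hcc
    refine ⟨_, ⟨w, hw, rfl⟩, fun j => ?_⟩
    rw [← hadd _ _ (hlt cc hcc j) (hlt w hw j), hwy _ (hξ j), hneg _ (hlt cc hcc j), hz]
  · rintro μ ⟨cc, hcc, rfl⟩
    obtain ⟨w, hw, hwy⟩ := fixedEnd_comp hn (I.atom_end hn hGn (one_pow _) n) hcc
    refine ⟨w, hw, funext fun j => ?_⟩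
    rw [hwy _ (hξ j), Eval.peval_C_mul_X_pow, RingHom.id_apply, one_mul,
      period_pow hF hh hhn.le hGn hGh hi1 hhom (hlt cc hcc j)]

end points

open EF MvPolynomial in
/-- Block EF from the blocks A and B. -/
theorem blockEF_of (hA : BlockA) (hB : BlockB) : BlockEF := by
  intro p n h _ C _ _ _ _ _ T Gn Gh hh hhn hGn hGh F hF J hJ hJh P hJP
  classical
  have hn := hh.trans hhn.le
  obtain ⟨a, ha1, ha0, -, hi1, hlin, hhom⟩ := Hom.homPin p n h C Gh hh hhn.le hGh F hF P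
  set i : PowerSeries C := digitSeries p (hondaIn Gh C) a with hi
  obtain ⟨ξ, L, hξ, hξ0, hLdet, hL, hindep⟩ := EF.jacPin p n h C Gn hh hhn hGn F hF P
  obtain ⟨D, hDxi, hDPhi⟩ := exists_periodData Hom.linearisedPin T hF hh hhn hGn hGh a ha1 hi hi1 hhom
    (by rw [hlin]; exact ha0) ξ hξ hindep
  obtain ⟨f₀, hf₀, hf₀h⟩ := SetLike.not_le_iff_exists.1 hJh
  obtain ⟨e, he⟩ := (Chart.taylorPin p n h C hh hhn P f₀).2 hf₀h
  set c : ℕ → C := fun k => PowerSeries.coeff k i with hc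
  have hrec : ∀ k, c k ^ p ^ h = (∑ j ∈ Finset.range k, c j * P.chi (recCoeff F h k j)) +
      c k * P.chi (vv p n h) ^ k := fun k => by
    have := point_recursion hF hh hhn.le P (toBall i hi1)
      (subst_nsmul_of_hom hh hGh (isHom_ball hn hi1 hhom)) k
    simpa [toBall, hc] using this
  have hall : ∀ E, ∃ v : MvPolynomial (Fin (n - h)) C, e < E →
      ((∀ b ∈ v.support, (∑ u, b u) < E) ∧
        ∃ b : Fin (n - h) →₀ ℕ, (∑ u, b u) ≤ e ∧ coeff b v ≠ 0) ∧
      ∀ cc : PowerSeries C, IsFixedEnd (p ^ n) (hondaIn Gn C) cc → ∃ (K : ℝ) (l₀ : ℕ), ∀ l, l₀ ≤ l →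
        ‖eval (fun j => period F P i (peval (RingHom.id C) cc (ξ j)) ^ (p ^ h) ^ l) v‖ ≤
          K * ‖fun j => piMap F P (peval (RingHom.id C) cc (ξ j))‖ ^ ((p ^ h) ^ l * E) := by
    intro E
    obtain ⟨Ξ, hΞ0, hΞlin, hΞ⟩ := exists_chartMap hF hh hhn hGn P c hi1 hrec ξ hξ hξ0 L hL
      (max E 2) (le_max_right _ _)
    obtain ⟨Tf, -, -, hTf⟩ := EF.exists_taylor hh hhn P f₀ E
    have hdet : IsUnit (c 1 • L).det := by
      rw [Matrix.det_smul]
      exact IsUnit.mul (isUnit_iff_ne_zero.2 (pow_ne_zero _ (by simp only [hc, hlin]; exact ha0))) hLdet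
    obtain ⟨v, hsupp, hK, hnz⟩ := Chart.invertPin (n - h) C E (c 1 • L) Ξ hdet hΞ0
      (fun j u => by rw [hΞlin, Matrix.smul_apply, smul_eq_mul]) Tf
    refine ⟨v, fun hE => ⟨⟨hsupp, hnz e hE ?_⟩, fun cc hcc => ?_⟩⟩
    · exact he E hE Tf 1 (p : ℝ)⁻¹ inv_prime_pos fun η P' hs hη => by
        rw [one_mul]; exact hTf η P' hs hη
    · exact orbit_small hA hB gammaPin hF hh hhn hGn hGh hi1 hhom J hJ hJP f₀ hf₀ ξ hξ hξ0 L hLdet
        hL cc hcc E (max E 2) (le_max_left _ _) Tf hTf Ξ hΞ0 hΞ v hK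
  choose v hv using hall
  have hcc1 : ∀ cc : PowerSeries C, IsFixedEnd (p ^ n) (hondaIn Gn C) cc →
      ∀ k, ‖PowerSeries.coeff k cc‖ ≤ 1 := fun cc hcc k => norm_eq_of_fixed hn (hcc.1 k)
  have H : PMulShape F P := pMulShape hF hh hhn.le hGn
  obtain ⟨f, hf, hfix, hkill⟩ := descentPin p h (n - h) C hh
    {μ | ∃ cc : PowerSeries C, IsFixedEnd (p ^ n) (hondaIn Gn C) cc ∧
      μ = fun j => period F P i (peval (RingHom.id C) cc (ξ j))}
    (by
      rintro μ ⟨cc, hcc, rfl⟩ j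
      exact norm_period_lt hF hh hhn.le hGn hi1 hhom (norm_peval_id_lt (hcc1 cc hcc) hcc.2.1 (hξ j)))
    e v (fun E hE => ((hv E) hE).1) (by
      rintro μ ⟨cc, hcc, rfl⟩
      refine ⟨‖fun j => piMap F P (peval (RingHom.id C) cc (ξ j))‖, norm_nonneg _,
        (pi_norm_lt_iff zero_lt_one).2 fun j =>
          norm_piMap_lt H hh (norm_peval_id_lt (hcc1 cc hcc) hcc.2.1 (hξ j)),
        fun E hE => ((hv E) hE).2 cc hcc⟩)
  refine ⟨D, _, orbit_isPointGroup hF hh hhn hGn hGh hi1 hhom hξ, fun cc hcc => ⟨cc, hcc, ?_⟩,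
    f, hf, hfix, hkill⟩
  rw [hDxi, hDPhi]

/-- Block EF. -/
theorem blockEF : BlockEF := blockEF_of blockA blockB

end Vale.Agent.P217
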