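import Vale.Agent.P217.EF.Expand

/-!
# P217, block EF: the chart
-/

noncomputable section

namespace Vale.Agent.P217.EF

open Filter Topology Eval MvPolynomial

variable {p : ℕ} [Fact p.Prime] {n h : ℕ} {C : Type} [NontriviallyNormedField C]
  [IsUltrametricDist C] [CompleteSpace C] [CharP C p]
  {F : FormalGroup (E0 p n)} {P : GoodPoint p n h C}

/-- The coefficients entering the recursion. -/
def recCoeff (F : FormalGroup (E0 p n)) (h k j : ℕ) : E0 p n :=
  PowerSeries.coeff (p ^ h * k) (nsmulSeries F p ^ j)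

omit [CompleteSpace C] [IsUltrametricDist C] in
theorem heightIdeal_le_ker (hh : 1 ≤ h) (P : GoodPoint p n h C) :
    heightIdeal p n h ≤ RingHom.ker P.chi := by
  rw [heightIdeal, if_neg (by omega), Ideal.span_le]
  rintro x (rfl | ⟨i, -, hi, rfl⟩)
  · exact chi_p P
  · exact P.chi_zero i hi

omit [CompleteSpace C] in
/-- The recursion at a point, for a series turning multiplication by p into the Q-th power. -/
theorem point_recursion (hF : IsUniversalDeformation p n F) (hh : 1 ≤ h) (hhn : h ≤ n)
    (P : GoodPoint p n h C) (u : PowerSeries (unitBall C))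
    (hu : PowerSeries.subst (nsmulSeries (F.map (chiBall (hh.trans hhn) P)) p) u = u ^ p ^ h)
    (k : ℕ) :
    ((PowerSeries.coeff k u : unitBall C) : C) ^ p ^ h =
      (∑ j ∈ Finset.range k, ((PowerSeries.coeff j u : unitBall C) : C) * P.chi (recCoeff F h k j)) +
        ((PowerSeries.coeff k u : unitBall C) : C) * P.chi (vv p n h) ^ k := by
  set g := chiBall (hh.trans hhn) P with hg
  have hC := (coeffPin p n (hh.trans hhn)).1 F hF h hh hhn
  have hval : ∀ a, ((g a : unitBall C) : C) = P.chi a := fun _ => rfl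
  rw [← (map_nsmulSeries F g p).2] at hu
  have hr := coeff_recursion (p := p) h (u := u) (N := PowerSeries.map g (nsmulSeries F p))
    (by rw [← PowerSeries.coeff_zero_eq_constantCoeff_apply, PowerSeries.coeff_map,
      PowerSeries.coeff_zero_eq_constantCoeff_apply, constantCoeff_nsmulSeries, map_zero])
    (fun m hm => by
      rw [PowerSeries.coeff_map]
      exact Subtype.ext (heightIdeal_le_ker hh P (hC.1 m hm))) hu k
  have hvv : P.chi (PowerSeries.coeff (p ^ h) (nsmulSeries F p)) = P.chi (vv p n h) := by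
    have := heightIdeal_le_ker hh P hC.2
    rwa [RingHom.mem_ker, map_sub, sub_eq_zero] at this
  have e := congrArg (Subtype.val : unitBall C → C) hr
  simp only [← map_pow, PowerSeries.coeff_map] at e
  push_cast [hval] at e
  rw [map_pow P.chi (PowerSeries.coeff (p ^ h) (nsmulSeries F p)) k, hvv] at e
  simpa [recCoeff] using e

omit [CompleteSpace C] [CharP C p] [IsUltrametricDist C] in
theorem isShift_zero (P : GoodPoint p n h C) : IsShift P 0 P := ⟨rfl, by simp⟩

variable [IsAlgClosed C]

omit [CharP C p] [IsAlgClosed C] in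
theorem exists_taylor0 (hh : 1 ≤ h) (hhn : h < n) (P : GoodPoint p n h C) (a : E0 p n) (E : ℕ) :
    ∃ T : MvPolynomial (Fin (n - h)) C, coeff 0 T = P.chi a ∧
      ∀ η P', IsShift P η P' → ‖η‖ ≤ (p : ℝ)⁻¹ → ‖P'.chi a - eval η T‖ ≤ ‖η‖ ^ E := by
  obtain ⟨T, -, -, hT⟩ := exists_taylor hh hhn P a (E + 1)
  refine ⟨T, ?_, fun η P' hs hη => (hT η P' hs hη).trans (pow_le_pow_of_le_one (norm_nonneg _)
    (hη.trans inv_prime_lt_one.le) (Nat.le_succ E))⟩
  have := hT 0 P (isShift_zero P) (by simp [inv_prime_pos.le])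
  rw [norm_zero, zero_pow (Nat.succ_ne_zero E), norm_le_zero_iff, sub_eq_zero] at this
  rw [this, ← constantCoeff_eq, eval_zero]

omit [IsAlgClosed C] in
/-- The coefficients of the hom at nearby points, as polynomials up to order E. -/
theorem exists_coeff_polys (hh : 1 ≤ h) (hhn : h < n) (P : GoodPoint p n h C) (c : ℕ → C)
    (hc : ∀ k, c k ^ p ^ h = (∑ j ∈ Finset.range k, c j * P.chi (recCoeff F h k j)) +
      c k * P.chi (vv p n h) ^ k) (E : ℕ) :
    ∀ M, ∃ (e : ℕ → MvPolynomial (Fin (n - h)) C) (K δ : ℝ), 0 < δ ∧ δ ≤ (p : ℝ)⁻¹ ∧ 0 ≤ K ∧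
      ∀ k < M, coeff 0 (e k) = c k ∧ ∀ η P', IsShift P η P' → ‖η‖ ≤ δ →
        ‖eval η (e k) ^ p ^ h - (∑ j ∈ Finset.range k, eval η (e j) * P'.chi (recCoeff F h k j)) -
          eval η (e k) * P'.chi (vv p n h) ^ k‖ ≤ K * ‖η‖ ^ E := by
  classical
  intro M
  induction M with
  | zero => exact ⟨fun _ => 0, 0, (p : ℝ)⁻¹, inv_prime_pos, le_rfl, le_rfl, fun k hk => absurd hk (Nat.not_lt_zero k)⟩
  | succ M ih =>
    obtain ⟨e, K, δ, hδ, hδ1, hK, he⟩ := ih
    choose T hT0 hT using fun j => exists_taylor0 hh hhn P (recCoeff F h M j) E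
    obtain ⟨Tv, hTv0, hTv⟩ := exists_taylor0 hh hhn P (vv p n h ^ M) E
    set A : MvPolynomial (Fin (n - h)) C := ∑ j ∈ Finset.range M, e j * T j with hA
    have hA0 : coeff 0 A = ∑ j ∈ Finset.range M, c j * P.chi (recCoeff F h M j) := by
      rw [← constantCoeff_eq, hA, map_sum]
      refine Finset.sum_congr rfl fun j hj => ?_
      rw [map_mul, constantCoeff_eq, (he j (Finset.mem_range.1 hj)).1, hT0]
    have : ExpChar C p := ExpChar.prime (Fact.out : p.Prime)
    obtain ⟨f, K', δ', hδ', -, hK', hf0, hf⟩ := exists_root_poly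
      (Q := p ^ h) ((Fact.out : p.Prime).two_le.trans (Nat.le_self_pow (by omega) p)) Tv A
      (by rw [hTv0, map_pow]; exact pow_ne_zero _ P.chi_h) (e0 := c M)
      (by rw [hA0, hTv0, map_pow]; exact hc M) (fun a b => add_pow_char_pow a b p h) E
    set B : ℝ := max (max K K') (max (polyNorm f) (∑ j ∈ Finset.range M, polyNorm (e j))) with hB
    refine ⟨Function.update e M f, B, min δ δ', lt_min hδ hδ',
      (min_le_left _ _).trans hδ1, le_max_of_le_left (le_max_of_le_left hK), fun k hk => ?_⟩
    rcases Nat.lt_succ_iff_lt_or_eq.1 hk with hlt | rfl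
    · refine ⟨by rw [Function.update_of_ne hlt.ne]; exact (he k hlt).1, fun η P' hs hη => ?_⟩
      rw [Function.update_of_ne hlt.ne, Finset.sum_congr rfl fun j hj => by
        rw [Function.update_of_ne ((Finset.mem_range.1 hj).trans hlt).ne]]
      exact ((he k hlt).2 η P' hs (hη.trans (min_le_left _ _))).trans
        (mul_le_mul_of_nonneg_right (le_max_of_le_left (le_max_left _ _)) (by positivity))
    · refine ⟨by rw [Function.update_self, hf0], fun η P' hs hη => ?_⟩
      have hp : ‖η‖ ≤ (p : ℝ)⁻¹ := hη.trans ((min_le_left _ _).trans hδ1)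
      have hη1 : ‖η‖ ≤ 1 := hp.trans inv_prime_lt_one.le
      rw [Function.update_self, Finset.sum_congr rfl fun j hj => by
        rw [Function.update_of_ne (Finset.mem_range.1 hj).ne]]
      have h1 : ‖eval η f ^ p ^ h - eval η A - eval η f * eval η Tv‖ ≤ B * ‖η‖ ^ E :=
        ((hf η (hη.trans (min_le_right _ _))).trans (mul_le_mul_of_nonneg_left
          (pow_le_pow_of_le_one (norm_nonneg _) hη1 (Nat.le_succ E)) hK')).trans
          (mul_le_mul_of_nonneg_right (le_max_of_le_left (le_max_right _ _)) (by positivity))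
      have h2 : ‖eval η A - ∑ j ∈ Finset.range k, eval η (e j) * P'.chi (recCoeff F h k j)‖ ≤
          B * ‖η‖ ^ E := by
        rw [hA, map_sum, ← Finset.sum_sub_distrib]
        refine IsUltrametricDist.norm_sum_le_of_forall_le_of_nonneg
          (mul_nonneg (le_max_of_le_left (le_max_of_le_left hK)) (by positivity)) fun j hj => ?_
        rw [map_mul, ← mul_sub, norm_mul, norm_sub_rev]
        exact mul_le_mul ((norm_eval_le (e j) hη1).trans (le_max_of_le_right (le_max_of_le_right
          (Finset.single_le_sum (fun i _ => polyNorm_nonneg (e i)) hj)))) (hT j η P' hs hp)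
          (norm_nonneg _) (le_max_of_le_left (le_max_of_le_left hK))
      have h3 : ‖eval η f * (eval η Tv - P'.chi (vv p n h) ^ k)‖ ≤ B * ‖η‖ ^ E := by
        rw [norm_mul, norm_sub_rev]
        exact mul_le_mul ((norm_eval_le f hη1).trans (le_max_of_le_right (le_max_left _ _)))
          (by have := hTv η P' hs hp; rwa [map_pow] at this) (norm_nonneg _)
          (le_max_of_le_left (le_max_of_le_left hK))
      have e' : eval η f ^ p ^ h -
          (∑ j ∈ Finset.range k, eval η (e j) * P'.chi (recCoeff F h k j)) -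
          eval η f * P'.chi (vv p n h) ^ k =
          (eval η f ^ p ^ h - eval η A - eval η f * eval η Tv) +
            (eval η A - ∑ j ∈ Finset.range k, eval η (e j) * P'.chi (recCoeff F h k j)) +
            eval η f * (eval η Tv - P'.chi (vv p n h) ^ k) := by ring
      rw [e']
      exact (IsUltrametricDist.norm_add_le_max _ _).trans
        (max_le ((IsUltrametricDist.norm_add_le_max _ _).trans (max_le h1 h2)) h3)

end Vale.Agent.P217.EF
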