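import Vale.Agent.P217.EF.Compare

/-!
# P217, block EF: the chart map
-/

noncomputable section

namespace Vale.Agent.P217.EF

open Filter Topology Eval MvPolynomial

variable {p : ℕ} [Fact p.Prime] {n h : ℕ} {C : Type} [NontriviallyNormedField C]
  [IsUltrametricDist C] [CompleteSpace C] [CharP C p]
  {F : FormalGroup (E0 p n)} {P : GoodPoint p n h C}

omit [CharP C p] in
theorem norm_peval_sub_sum_le {R : Type} [CommRing R] {j : R →+* C} (hj : ∀ r, ‖j r‖ ≤ 1)
    (f : PowerSeries R) {y : C} (hy : ‖y‖ < 1) (E : ℕ) :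
    ‖peval j f y - ∑ k ∈ Finset.range E, j (PowerSeries.coeff k f) * y ^ k‖ ≤ ‖y‖ ^ E := by
  have hs := hasSum_peval hj f hy
  rw [← hs.tsum_eq, ← hs.summable.sum_add_tsum_nat_add E, add_sub_cancel_left]
  refine IsUltrametricDist.norm_tsum_le_of_forall_le_of_nonneg (pow_nonneg (norm_nonneg _) _)
    fun k => ?_
  rw [norm_mul, norm_pow]
  exact (mul_le_of_le_one_left (pow_nonneg (norm_nonneg _) _) (hj _)).trans
    (pow_le_pow_of_le_one (norm_nonneg _) hy.le (Nat.le_add_left E k))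

variable [IsAlgClosed C] {Gn : FormalGroup ℤ_[p]}

/-- The chart at order E: polynomials agreeing with the moved period map at the kernel elements. -/
theorem exists_chartMap (hF : IsUniversalDeformation p n F) (hh : 1 ≤ h) (hhn : h < n)
    (hG : IsHondaLift n Gn) (P : GoodPoint p n h C) (c : ℕ → C)
    (hc1 : ∀ k, ‖c k‖ ≤ 1)
    (hc : ∀ k, c k ^ p ^ h = (∑ j ∈ Finset.range k, c j * P.chi (recCoeff F h k j)) +
      c k * P.chi (vv p n h) ^ k)
    (ξ : Fin (n - h) → C) (hξ : ∀ j, ‖ξ j‖ < 1) (hξ0 : ∀ j, piMap F P (ξ j) = 0)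
    (L : Matrix (Fin (n - h)) (Fin (n - h)) C)
    (hL : ∃ K δ : ℝ, 0 < δ ∧ ∀ η P', IsShift P η P' → ‖η‖ ≤ δ →
      ∀ j, ‖piMap F P' (ξ j) - L.mulVec η j‖ ≤ K * ‖η‖ ^ 2)
    (E : ℕ) (hE : 2 ≤ E) :
    ∃ Ξ : Fin (n - h) → MvPolynomial (Fin (n - h)) C, (∀ j, coeff 0 (Ξ j) = 0) ∧
      (∀ j i, coeff (Finsupp.single i 1) (Ξ j) = c 1 * L j i) ∧
      ∃ (K δ ε : ℝ), 0 ≤ K ∧ 0 < δ ∧ 0 < ε ∧ ∀ η P', IsShift P η P' → ‖η‖ ≤ δ →
        ∀ u : PowerSeries (unitBall C), PowerSeries.constantCoeff u = 0 →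
          PowerSeries.subst (nsmulSeries (F.map (chiBall (hh.trans hhn.le) P')) p) u = u ^ p ^ h →
          (∀ k < E, ‖((PowerSeries.coeff k u : unitBall C) : C) - c k‖ ≤ ε) →
          ∀ j, ‖peval (unitBall C).subtype u (piMap F P' (ξ j)) - eval η (Ξ j)‖ ≤ K * ‖η‖ ^ E := by
  classical
  have hn := hh.trans hhn.le
  have H : ∀ P : GoodPoint p n h C, PMulShape F P := fun P => pMulShape hF hh hhn.le hG
  obtain ⟨e, K₀, δ₀, hδ₀, hδ₀1, hK₀, he⟩ := exists_coeff_polys (F := F) hh hhn P c hc E E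
  obtain ⟨K₁, δ₁, ε, hK₁, hδ₁, hδ₁0, hε, hcmp⟩ :=
    exists_coeff_bound (F := F) hh hhn P c e hδ₀ hK₀ E he
  choose Y hY using fun j => exists_pi_poly hF hh hhn hG P (hξ j) E
  set M : ℝ := 1 + ∑ k ∈ Finset.range E, polyNorm (e k) with hM
  have hM1 : (1 : ℝ) ≤ M := le_add_of_nonneg_right (Finset.sum_nonneg fun _ _ => polyNorm_nonneg _)
  set Ξ : Fin (n - h) → MvPolynomial (Fin (n - h)) C := fun j =>
    ∑ k ∈ Finset.Ico 1 E, e k * Y j ^ k with hΞ
  have hy : ∀ η P', IsShift P η P' → ‖η‖ ≤ (p : ℝ)⁻¹ → ∀ j, ‖piMap F P' (ξ j)‖ ≤ ‖η‖ := by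
    intro η P' hs _ j
    simpa [hξ0] using piMap_lipschitz (H P') (H P) hh (norm_nonneg η) (chi_dist_le hn hhn.le hs) (hξ j)
  have hYb : ∀ η P', IsShift P η P' → ‖η‖ ≤ (p : ℝ)⁻¹ → ∀ j, ‖eval η (Y j)‖ ≤ ‖η‖ := by
    intro η P' hs hp j
    rw [← sub_add_cancel (eval η (Y j)) (piMap F P' (ξ j))]
    refine (IsUltrametricDist.norm_add_le_max _ _).trans (max_le ?_ (hy η P' hs hp j))
    rw [norm_sub_rev]
    refine (hY j η P' hs hp).trans (pow_le_of_le_one (norm_nonneg _) (hp.trans inv_prime_lt_one.le) ?_)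
    omega
  have hshift : ∃ δ₂ : ℝ, 0 < δ₂ ∧ δ₂ ≤ (p : ℝ)⁻¹ ∧ ∀ η : Fin (n - h) → C, ‖η‖ ≤ δ₂ →
      ∃ P', IsShift P η P' := by
    refine ⟨min (p : ℝ)⁻¹ (‖P.chi (vv p n h)‖ / 2), lt_min inv_prime_pos
      (half_pos (norm_pos_iff.2 P.chi_h)), min_le_left _ _, fun η hη => ?_⟩
    exact exists_shift hh hhn P η (hη.trans (min_le_left _ _))
      ((hη.trans (min_le_right _ _)).trans_lt (half_lt_self (norm_pos_iff.2 P.chi_h)))
  obtain ⟨δ₂, hδ₂, hδ₂p, hshift⟩ := hshift
  have hlin : ∀ j, coeff 0 (Ξ j) = 0 ∧ ∀ i, coeff (Finsupp.single i 1) (Ξ j) = c 1 * L j i := by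
    intro j
    obtain ⟨KL, δL, hδL, hLb⟩ := hL
    set D : MvPolynomial (Fin (n - h)) C :=
      Ξ j - ∑ i, MvPolynomial.C (c 1 * L j i) * MvPolynomial.X i with hD
    set B : ℝ := max (max (max KL 1) (∑ k ∈ Finset.range E,
      polyNorm (e k - MvPolynomial.C (coeff 0 (e k))))) M with hB
    have hB1 : (1 : ℝ) ≤ B := hM1.trans (le_max_right _ _)
    have hDb : ∀ η, ‖η‖ ≤ min δ₂ δL → ‖eval η D‖ ≤ B * ‖η‖ ^ 2 := by
      intro η hη
      obtain ⟨P', hs⟩ := hshift η (hη.trans (min_le_left _ _))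
      have hp : ‖η‖ ≤ (p : ℝ)⁻¹ := hη.trans ((min_le_left _ _).trans hδ₂p)
      have hη1 : ‖η‖ ≤ 1 := hp.trans inv_prime_lt_one.le
      have hsum : eval η D = (∑ k ∈ Finset.Ico 1 E,
          (eval η (e k) - if k = 1 then c 1 else 0) * eval η (Y j) ^ k) +
          c 1 * ((eval η (Y j) - piMap F P' (ξ j)) + (piMap F P' (ξ j) - L.mulVec η j)) := by
        simp only [hD, hΞ, map_sub, map_sum, map_mul, map_pow, eval_C, eval_X, sub_mul,
          Finset.sum_sub_distrib, ite_mul, zero_mul, Finset.sum_ite_eq', Finset.mem_Ico]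
        rw [if_pos ⟨le_rfl, by omega⟩, pow_one, Matrix.mulVec, dotProduct]
        rw [sub_add_sub_cancel, mul_sub, Finset.mul_sum]
        simp only [mul_assoc]
        ring
      rw [hsum]
      refine (IsUltrametricDist.norm_add_le_max _ _).trans (max_le ?_ ?_)
      · refine IsUltrametricDist.norm_sum_le_of_forall_le_of_nonneg
          (mul_nonneg (zero_le_one.trans hB1) (by positivity)) fun k hk => ?_
        rw [Finset.mem_Ico] at hk
        rw [norm_mul, norm_pow]
        split_ifs with hk1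
        · subst hk1
          rw [pow_one, sq, ← mul_assoc, ← (he 1 hk.2).1]
          refine mul_le_mul ((norm_eval_sub_const_le (e 1) hη1).trans
            (mul_le_mul_of_nonneg_right ?_ (norm_nonneg _))) (hYb η P' hs hp j) (norm_nonneg _)
            (mul_nonneg (zero_le_one.trans hB1) (norm_nonneg _))
          exact (Finset.single_le_sum (fun i _ => polyNorm_nonneg
            (e i - MvPolynomial.C (coeff 0 (e i)))) (Finset.mem_range.2 hk.2)).trans
            ((le_max_right _ _).trans (le_max_left _ _))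
        · rw [sub_zero]
          refine mul_le_mul ?_ ((pow_le_pow_left₀ (norm_nonneg _) (hYb η P' hs hp j) k).trans
            (pow_le_pow_of_le_one (norm_nonneg _) hη1 (by omega))) (by positivity)
            (zero_le_one.trans hB1)
          refine ((norm_eval_le (e k) hη1).trans ?_).trans (le_max_right _ _)
          exact (Finset.single_le_sum (fun i _ => polyNorm_nonneg (e i))
            (Finset.mem_range.2 hk.2)).trans (le_add_of_nonneg_left zero_le_one)
      · rw [norm_mul]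
        refine (mul_le_of_le_one_left (norm_nonneg _) (hc1 1)).trans
          ((IsUltrametricDist.norm_add_le_max _ _).trans (max_le ?_ ?_))
        · rw [norm_sub_rev]
          refine ((hY j η P' hs hp).trans (pow_le_pow_of_le_one (norm_nonneg _) hη1 hE)).trans ?_
          exact le_mul_of_one_le_left (by positivity) hB1
        · exact (hLb η P' hs (hη.trans (min_le_right _ _)) j).trans (mul_le_mul_of_nonneg_right
            (((le_max_left _ _).trans (le_max_left _ _)).trans (le_max_left _ _)) (by positivity))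
    obtain ⟨h0, h1⟩ := coeff_low_eq_zero D (lt_min hδ₂ hδL) hDb
    refine ⟨?_, fun i => ?_⟩
    · have e0 : coeff 0 D = coeff 0 (Ξ j) := by
        have e1 : coeff 0 (∑ u, MvPolynomial.C (c 1 * L j u) *
            (MvPolynomial.X u : MvPolynomial (Fin (n - h)) C)) = 0 := by
          rw [← constantCoeff_eq, map_sum]
          simp
        rw [hD, coeff_sub, e1, sub_zero]
      rw [← e0]; exact h0
    · have e1 : coeff (Finsupp.single i 1) (∑ u, MvPolynomial.C (c 1 * L j u) *
          (MvPolynomial.X u : MvPolynomial (Fin (n - h)) C)) = c 1 * L j i := by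
        rw [coeff_sum, Finset.sum_eq_single i, coeff_C_mul, coeff_X, if_pos rfl, mul_one]
        · intro u _ hu
          rw [coeff_C_mul, MvPolynomial.coeff_X, if_neg, mul_zero]
          exact fun h => hu ((Finsupp.single_left_injective one_ne_zero) h)
        · simp
      have h2 := h1 i
      rw [hD, coeff_sub, e1] at h2
      exact sub_eq_zero.1 h2
  refine ⟨Ξ, fun j => (hlin j).1, fun j => (hlin j).2, max (max K₁ 1) M, min δ₁ δ₂, ε,
    le_max_of_le_left (le_max_of_le_left hK₁), lt_min hδ₁ hδ₂, hε, fun η P' hs hη u hu0 hu hclose j => ?_⟩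
  have hp : ‖η‖ ≤ (p : ℝ)⁻¹ := hη.trans ((min_le_right _ _).trans hδ₂p)
  have hη1 : ‖η‖ ≤ 1 := hp.trans inv_prime_lt_one.le
  have hM0 : 0 ≤ max (max K₁ 1) M := le_max_of_le_left (le_max_of_le_left hK₁)
  have hcoef := hcmp η P' hs (hη.trans (min_le_left _ _))
    (fun k => ((PowerSeries.coeff k u : unitBall C) : C))
    (point_recursion hF hh hhn.le P' u hu) hclose
  set y := piMap F P' (ξ j) with hydef
  have hyη : ‖y‖ ≤ ‖η‖ := hy η P' hs hp j
  have hy1 : ‖y‖ < 1 := hyη.trans_lt (hp.trans_lt inv_prime_lt_one)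
  have htail := norm_peval_sub_sum_le (j := (unitBall C).subtype) norm_subtype_le u hy1 E
  have hsum : ∑ k ∈ Finset.range E, (unitBall C).subtype (PowerSeries.coeff k u) * y ^ k =
      ∑ k ∈ Finset.Ico 1 E, ((PowerSeries.coeff k u : unitBall C) : C) * y ^ k := by
    rw [Finset.range_eq_Ico, Finset.sum_eq_sum_Ico_succ_bot (by omega : 0 < E)]
    simp [hu0]
  rw [hsum] at htail
  rw [← sub_add_sub_cancel _ (∑ k ∈ Finset.Ico 1 E, ((PowerSeries.coeff k u : unitBall C) : C) * y ^ k)]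
  refine (IsUltrametricDist.norm_add_le_max _ _).trans (max_le ?_ ?_)
  · exact (htail.trans (pow_le_pow_left₀ (norm_nonneg _) hyη _)).trans
      (le_mul_of_one_le_left (by positivity) (hM1.trans (le_max_right _ _)))
  · simp only [hΞ, map_sum, map_mul, map_pow, ← Finset.sum_sub_distrib]
    refine IsUltrametricDist.norm_sum_le_of_forall_le_of_nonneg
      (mul_nonneg hM0 (by positivity)) fun k hk => ?_
    rw [Finset.mem_Ico] at hk
    have e' : ((PowerSeries.coeff k u : unitBall C) : C) * y ^ k - eval η (e k) * eval η (Y j) ^ k =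
        (((PowerSeries.coeff k u : unitBall C) : C) - eval η (e k)) * y ^ k +
          eval η (e k) * (y ^ k - eval η (Y j) ^ k) := by ring
    rw [e']
    refine (IsUltrametricDist.norm_add_le_max _ _).trans (max_le ?_ ?_) <;> rw [norm_mul]
    · rw [norm_pow]
      exact (mul_le_of_le_one_right (norm_nonneg _) (pow_le_one₀ (norm_nonneg _) hy1.le)).trans
        ((hcoef k hk.2).trans (mul_le_mul_of_nonneg_right
          (le_max_of_le_left (le_max_left _ _)) (by positivity)))
    · refine mul_le_mul ?_ ?_ (norm_nonneg _) hM0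
      · exact ((norm_eval_le (e k) hη1).trans ((Finset.single_le_sum
          (fun i _ => polyNorm_nonneg (e i)) (Finset.mem_range.2 hk.2)).trans
            (le_add_of_nonneg_left zero_le_one))).trans (le_max_right _ _)
      · exact (norm_pow_sub_pow_le hy1.le ((hYb η P' hs hp j).trans hη1) k).trans
          (hY j η P' hs hp)

end Vale.Agent.P217.EF
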