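import Vale.Agent.P217.EFDefs

/-!
# P217, block EF, chart part: interfaces
-/

noncomputable section

namespace Vale.Agent.P217.EF

variable {p : ℕ} [Fact p.Prime]

/-- A fixed endomorphism c of the Honda law gives deep digits: 1 + p ^ l * c has the value
z + c (z ^ (q ^ l)) at z. -/
def GammaPin : Prop :=
  ∀ (p n : ℕ) [Fact p.Prime] (C : Type) [NontriviallyNormedField C] [IsUltrametricDist C]
    [CompleteSpace C] [CharP C p] (Gn : FormalGroup ℤ_[p]), 1 ≤ n → IsHondaLift n Gn →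
      ∀ e : GaloisField p n →+* C, ∀ c : PowerSeries C, IsFixedEnd (p ^ n) (hondaIn Gn C) c →
        ∃ c₀ : ℕ → GaloisField p n, ∀ l, 1 ≤ l → ∀ z : C, ‖z‖ < 1 →
          peval e (digitSeries p (hondaIn Gn (GaloisField p n)) (deepDigits n l c₀)) z =
            gadd (hondaIn Gn C) z (peval (RingHom.id C) c (z ^ p ^ (n * l)))

/-- Descent degree by degree, without compatibility of the polynomials. -/
def DescentPin : Prop :=
  ∀ (p h d : ℕ) [Fact p.Prime] (C : Type) [NontriviallyNormedField C] [IsUltrametricDist C]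
    [CompleteSpace C] [IsAlgClosed C] [CharP C p], 1 ≤ h →
      ∀ (S : Set (Fin d → C)), (∀ μ ∈ S, ∀ i, ‖μ i‖ < 1) →
        ∀ (e : ℕ) (v : ℕ → MvPolynomial (Fin d) C),
          (∀ E, e < E → (∀ b ∈ (v E).support, (∑ i, b i) < E) ∧
            ∃ b : Fin d →₀ ℕ, (∑ i, b i) ≤ e ∧ MvPolynomial.coeff b (v E) ≠ 0) →
          (∀ μ ∈ S, ∃ ρ : ℝ, 0 ≤ ρ ∧ ρ < 1 ∧ ∀ E, e < E → ∃ (K : ℝ) (l₀ : ℕ), ∀ l, l₀ ≤ l →
            ‖MvPolynomial.eval (fun i => μ i ^ (p ^ h) ^ l) (v E)‖ ≤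
              K * ρ ^ ((p ^ h) ^ l * E)) →
          ∃ f : MvPowerSeries (Fin d) C, f ≠ 0 ∧ FixedSeries (p ^ h) f ∧
            ∀ μ ∈ S, mveval (RingHom.id C) f μ = 0

/-- The value of an element of E0 near a point: a polynomial up to every order, not zero for an
element outside the height ideal. -/
def TaylorPin : Prop :=
  ∀ (p n h : ℕ) [Fact p.Prime] (C : Type) [NontriviallyNormedField C] [IsUltrametricDist C]
    [CompleteSpace C] [IsAlgClosed C] [CharP C p], 1 ≤ h → h < n →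
      ∀ (P : GoodPoint p n h C) (a : E0 p n),
        (∀ E : ℕ, ∃ (T : MvPolynomial (Fin (n - h)) C) (K δ : ℝ), 0 < δ ∧
          ∀ η P', IsShift P η P' → ‖η‖ ≤ δ →
            ‖P'.chi a - MvPolynomial.eval η T‖ ≤ K * ‖η‖ ^ E) ∧
        (a ∉ heightIdeal p n h → ∃ e : ℕ, ∀ E, e < E →
          ∀ (T : MvPolynomial (Fin (n - h)) C) (K δ : ℝ), 0 < δ →
            (∀ η P', IsShift P η P' → ‖η‖ ≤ δ →
              ‖P'.chi a - MvPolynomial.eval η T‖ ≤ K * ‖η‖ ^ E) →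
            ∃ b : Fin (n - h) →₀ ℕ, (∑ i, b i) ≤ e ∧ MvPolynomial.coeff b T ≠ 0)

/-- A polynomial map with invertible linear part has an inverse up to every order. -/
def InvertPin : Prop :=
  ∀ (d : ℕ) (C : Type) [NontriviallyNormedField C] [IsUltrametricDist C] (E : ℕ)
    (L : Matrix (Fin d) (Fin d) C) (Ξ : Fin d → MvPolynomial (Fin d) C), IsUnit L.det →
      (∀ j, MvPolynomial.coeff 0 (Ξ j) = 0) →
      (∀ j i, MvPolynomial.coeff (Finsupp.single i 1) (Ξ j) = L j i) →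
      ∀ f : MvPolynomial (Fin d) C, ∃ v : MvPolynomial (Fin d) C,
        (∀ b ∈ v.support, (∑ i, b i) < E) ∧
        (∃ K : ℝ, ∀ η : Fin d → C, ‖η‖ ≤ 1 →
          ‖MvPolynomial.eval η f - MvPolynomial.eval (fun j => MvPolynomial.eval η (Ξ j)) v‖ ≤
            K * ‖η‖ ^ E) ∧
        ∀ e, e < E → (∃ b : Fin d →₀ ℕ, (∑ i, b i) ≤ e ∧ MvPolynomial.coeff b f ≠ 0) →
          ∃ b : Fin d →₀ ℕ, (∑ i, b i) ≤ e ∧ MvPolynomial.coeff b v ≠ 0

end Vale.Agent.P217.EF
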