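import Vale.Agent.P217.EF.Chart

/-!
# P217, block EF: the chart map approximates the moved period map
-/

noncomputable section

namespace Vale.Agent.P217.EF

open Filter Topology Eval MvPolynomial

variable {p : ℕ} [Fact p.Prime] {n h : ℕ} {C : Type} [NontriviallyNormedField C]
  [IsUltrametricDist C]

/-- Roots of T ^ Q - b T which are small are determined up to the error. -/
theorem norm_small_root {Q : ℕ} (hQ : 2 ≤ Q) {D b R : C} (hD : ‖D‖ < ‖b‖) (hD1 : ‖D‖ ≤ 1)
    (hR : D ^ Q - D * b = R) : ‖D‖ * ‖b‖ = ‖R‖ := by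
  rcases eq_or_ne D 0 with rfl | hD0
  · rw [zero_mul, zero_pow (by omega), sub_zero] at hR
    rw [← hR, norm_zero, zero_mul]
  have hlt : ‖D ^ Q‖ < ‖D * b‖ := by
    rw [norm_pow, norm_mul]
    exact (pow_le_pow_of_le_one (norm_nonneg _) hD1 hQ).trans_lt
      (by rw [sq]; exact mul_lt_mul_of_pos_left hD (norm_pos_iff.2 hD0))
  rw [← hR, sub_eq_add_neg, IsUltrametricDist.norm_add_eq_max_of_norm_ne_norm
    (by rw [norm_neg]; exact hlt.ne), norm_neg, max_eq_right hlt.le, norm_mul]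

variable [CompleteSpace C] [CharP C p] {F : FormalGroup (E0 p n)} {P : GoodPoint p n h C}

omit [CompleteSpace C] [CharP C p] in
theorem chi_vv_shift (hhn : h < n) {η : Fin (n - h) → C} {P' : GoodPoint p n h C}
    (hs : IsShift P η P') (hη : ‖η‖ < ‖P.chi (vv p n h)‖) :
    ‖P'.chi (vv p n h)‖ = ‖P.chi (vv p n h)‖ := by
  have h0 : P'.chi (vv p n h) = P.chi (vv p n h) + η ⟨0, by omega⟩ := by
    simpa using hs.2 ⟨0, by omega⟩
  have hlt := (norm_le_pi_norm η (⟨0, by omega⟩ : Fin (n - h))).trans_lt hη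
  rw [h0, IsUltrametricDist.norm_add_eq_max_of_norm_ne_norm hlt.ne', max_eq_left hlt.le]

variable [IsAlgClosed C]

omit [IsAlgClosed C] [CompleteSpace C] in
/-- At nearby points, small solutions of the recursion are given by the polynomials. -/
theorem exists_coeff_bound (hh : 1 ≤ h) (hhn : h < n) (P : GoodPoint p n h C) (c : ℕ → C)
    (e : ℕ → MvPolynomial (Fin (n - h)) C) {K₀ δ₀ : ℝ} (hδ₀ : 0 < δ₀) (hK₀ : 0 ≤ K₀) (E : ℕ)
    (he : ∀ k < E, coeff 0 (e k) = c k ∧ ∀ η P', IsShift P η P' → ‖η‖ ≤ δ₀ →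
      ‖eval η (e k) ^ p ^ h - (∑ j ∈ Finset.range k, eval η (e j) * P'.chi (recCoeff F h k j)) -
        eval η (e k) * P'.chi (vv p n h) ^ k‖ ≤ K₀ * ‖η‖ ^ E) :
    ∃ (K δ ε : ℝ), 0 ≤ K ∧ 0 < δ ∧ δ ≤ δ₀ ∧ 0 < ε ∧ ∀ η P', IsShift P η P' → ‖η‖ ≤ δ →
      ∀ u : ℕ → C, (∀ k, u k ^ p ^ h = (∑ j ∈ Finset.range k, u j * P'.chi (recCoeff F h k j)) +
          u k * P'.chi (vv p n h) ^ k) →
        (∀ k < E, ‖u k - c k‖ ≤ ε) → ∀ k < E, ‖u k - eval η (e k)‖ ≤ K * ‖η‖ ^ E := by
  have hn := hh.trans hhn.le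
  set x := ‖P.chi (vv p n h)‖ with hx
  have hx0 : 0 < x := norm_pos_iff.2 P.chi_h
  have hx1 : x ≤ 1 := norm_chi_le hn P _
  set B : ℝ := ∑ k ∈ Finset.range E, polyNorm (e k - MvPolynomial.C (coeff 0 (e k))) with hB
  have hB0 : 0 ≤ B := Finset.sum_nonneg fun _ _ => polyNorm_nonneg _
  set ε : ℝ := x ^ E / 2 with hε
  have hε0 : 0 < ε := div_pos (pow_pos hx0 E) two_pos
  refine ⟨K₀ / x ^ (E * E), min δ₀ (min (x / 2) (ε / (B + 1))), ε, by positivity,
    lt_min hδ₀ (lt_min (half_pos hx0) (div_pos hε0 (by linarith))), min_le_left _ _, hε0,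
    fun η P' hs hη u hu hclose => ?_⟩
  have hη0 : ‖η‖ ≤ δ₀ := hη.trans (min_le_left _ _)
  have hηx : ‖η‖ < x :=
    (hη.trans ((min_le_right _ _).trans (min_le_left _ _))).trans_lt (half_lt_self hx0)
  have hη1 : ‖η‖ ≤ 1 := hηx.le.trans hx1
  have hηB : ‖η‖ * (B + 1) ≤ ε :=
    (le_div_iff₀ (by linarith)).1 (hη.trans ((min_le_right _ _).trans (min_le_right _ _)))
  have hv := chi_vv_shift hhn hs hηx
  have : ExpChar C p := ExpChar.prime (Fact.out : p.Prime)
  suffices H : ∀ k, k < E → ‖u k - eval η (e k)‖ ≤ K₀ / x ^ (E * (k + 1)) * ‖η‖ ^ E from fun k hk =>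
    (H k hk).trans (mul_le_mul_of_nonneg_right (div_le_div_of_nonneg_left hK₀ (by positivity)
      (pow_le_pow_of_le_one hx0.le hx1 (Nat.mul_le_mul_left E hk))) (by positivity))
  intro k
  induction k using Nat.strong_induction_on with
  | _ k ih =>
    intro hk
    have hlt : ‖u k - eval η (e k)‖ < x ^ k := by
      rw [← sub_add_sub_cancel _ (c k)]
      refine (IsUltrametricDist.norm_add_le_max _ _).trans_lt (max_lt ?_ ?_)
      · exact (hclose k hk).trans_lt ((half_lt_self (pow_pos hx0 E)).trans_le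
          (pow_le_pow_of_le_one hx0.le hx1 hk.le))
      · rw [norm_sub_rev, ← (he k hk).1]
        refine (norm_eval_sub_const_le (e k) hη1).trans_lt ?_
        calc polyNorm (e k - MvPolynomial.C (coeff 0 (e k))) * ‖η‖ ≤ (B + 1) * ‖η‖ :=
              mul_le_mul_of_nonneg_right ((Finset.single_le_sum (fun i _ => polyNorm_nonneg
                (e i - MvPolynomial.C (coeff 0 (e i)))) (Finset.mem_range.2 hk)).trans
                (le_add_of_nonneg_right zero_le_one)) (norm_nonneg _)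
          _ ≤ ε := by rw [mul_comm]; exact hηB
          _ < x ^ E := half_lt_self (pow_pos hx0 E)
          _ ≤ x ^ k := pow_le_pow_of_le_one hx0.le hx1 hk.le
    set R : C := (∑ j ∈ Finset.range k, (u j - eval η (e j)) * P'.chi (recCoeff F h k j)) -
      (eval η (e k) ^ p ^ h - (∑ j ∈ Finset.range k, eval η (e j) * P'.chi (recCoeff F h k j)) -
        eval η (e k) * P'.chi (vv p n h) ^ k) with hR
    have hRe : (u k - eval η (e k)) ^ p ^ h -
        (u k - eval η (e k)) * P'.chi (vv p n h) ^ k = R := by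
      rw [hR, sub_pow_char_pow, hu k]
      simp only [sub_mul, Finset.sum_sub_distrib]
      ring
    have hroot := norm_small_root ((Fact.out : p.Prime).two_le.trans (Nat.le_self_pow (by omega) p))
      (b := P'.chi (vv p n h) ^ k) (by rw [norm_pow, hv]; exact hlt)
      (hlt.le.trans (pow_le_one₀ hx0.le hx1)) hRe
    rw [norm_pow, hv] at hroot
    have hRb : ‖R‖ ≤ K₀ / x ^ (E * k) * ‖η‖ ^ E := by
      rw [hR, sub_eq_add_neg]
      have hnn : (0 : ℝ) ≤ K₀ / x ^ (E * k) * ‖η‖ ^ E := by positivity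
      refine (IsUltrametricDist.norm_add_le_max _ _).trans (max_le ?_ ?_)
      · refine IsUltrametricDist.norm_sum_le_of_forall_le_of_nonneg hnn fun j hj => ?_
        rw [norm_mul]
        refine (mul_le_of_le_one_right (norm_nonneg _) (norm_chi_le hn P' _)).trans ?_
        have hj' := Finset.mem_range.1 hj
        have hstep := ih j hj' (hj'.trans hk)
        exact hstep.trans (mul_le_mul_of_nonneg_right (div_le_div_of_nonneg_left hK₀ (by positivity)
          (pow_le_pow_of_le_one hx0.le hx1 (Nat.mul_le_mul_left E hj'))) (by positivity))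
      · rw [norm_neg]
        refine ((he k hk).2 η P' hs hη0).trans (mul_le_mul_of_nonneg_right ?_ (by positivity))
        exact le_div_self hK₀ (by positivity) (pow_le_one₀ hx0.le hx1)
    refine le_of_mul_le_mul_right ?_ (pow_pos hx0 k)
    rw [hroot]
    refine hRb.trans ?_
    rw [show K₀ / x ^ (E * (k + 1)) * ‖η‖ ^ E * x ^ k =
      K₀ * x ^ k / x ^ (E * (k + 1)) * ‖η‖ ^ E by ring]
    refine mul_le_mul_of_nonneg_right ?_ (by positivity)
    rw [div_le_div_iff₀ (by positivity) (by positivity), mul_assoc, ← pow_add]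
    refine mul_le_mul_of_nonneg_left (pow_le_pow_of_le_one hx0.le hx1 ?_) hK₀
    rw [Nat.mul_succ]
    omega

end Vale.Agent.P217.EF
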