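import Vale.Agent.P217.EF.ChartPins
import Vale.Agent.P217.GDescent

/-!
# P217, block EF: descent degree by degree

For each order one fixed vector in the span of the conjugates is small on the set and is not zero in
low degree. The fixed coefficients form a finite set, so a limit along an ultrafilter is a series.
-/

noncomputable section

namespace Vale.Agent.P217.EF

open Filter Topology
open Vale.Agent.P217.Descent

section

variable {C : Type} [Field C] {d : ℕ}

/-- The span of the conjugates of the low part of a polynomial. -/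
def conjSpan (σ : C ≃+* C) (φ : (Fin d →₀ ℕ) → C) (E : ℕ) : Submodule C (box d E → C) :=
  Submodule.span C (Set.range fun r : ℕ => fun β : box d E => (σ.symm)^[r] (φ β.1))

theorem conjSpan_stable (σ : C ≃+* C) (φ : (Fin d →₀ ℕ) → C) (E : ℕ) :
    ∀ v ∈ conjSpan σ φ E, (fun β => σ.symm.toRingHom (v β)) ∈ conjSpan σ φ E := by
  intro v hv
  rw [conjSpan] at hv ⊢
  induction hv using Submodule.span_induction with
  | mem x hx =>
    obtain ⟨r, rfl⟩ := hx
    refine Submodule.subset_span ⟨r + 1, ?_⟩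
    funext β
    simp [Function.iterate_succ_apply']
  | zero =>
    have e : (fun β : box d E => σ.symm.toRingHom ((0 : box d E → C) β)) = 0 := by
      funext β; simp
    rw [e]; exact Submodule.zero_mem _
  | add x y _ _ hx hy =>
    have e : (fun β => σ.symm.toRingHom ((x + y) β)) =
        (fun β => σ.symm.toRingHom (x β)) + fun β => σ.symm.toRingHom (y β) := by
      funext β; simp
    rw [e]; exact add_mem hx hy
  | smul c x _ hx =>
    have e : (fun β => σ.symm.toRingHom ((c • x) β)) =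
        σ.symm c • fun β => σ.symm.toRingHom (x β) := by
      funext β; simp
    rw [e]; exact Submodule.smul_mem _ _ hx

/-- A fixed vector in the span which is not zero at a given kind of exponent. -/
theorem exists_fixed_ne (σ : C ≃+* C) (φ : (Fin d →₀ ℕ) → C) (E : ℕ) (β₀ : box d E)
    (hne : φ β₀.1 ≠ 0) :
    ∃ w, w ∈ conjSpan σ φ E ∧ (∀ β, σ (w β) = w β) ∧ w β₀ ≠ 0 := by
  by_contra hall
  push Not at hall
  apply hne
  have h0 := le_span_fixedVectors σ.symm.toRingHom _ (conjSpan_stable σ φ E)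
    (Submodule.subset_span ⟨0, rfl⟩ : (fun β : box d E => φ β.1) ∈ conjSpan σ φ E)
  have hle : Submodule.span C (fixedVectors σ.symm.toRingHom (conjSpan σ φ E)) ≤
      LinearMap.ker (LinearMap.proj β₀ : (box d E → C) →ₗ[C] C) := by
    refine Submodule.span_le.2 fun w hw => ?_
    refine hall w hw.1 fun β => ?_
    have h2 : σ.symm (w β) = w β := hw.2 β
    conv_lhs => rw [← h2]
    exact σ.apply_symm_apply _
  exact hle h0

end

theorem descentPin : DescentPin := by
  intro p h d _ C _ _ _ _ _ hh S hS e v hv hest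
  classical
  set Q := p ^ h
  have hQ : 2 ≤ Q := (Fact.out : p.Prime).two_le.trans (Nat.le_self_pow (by omega) p)
  let σ : C ≃+* C := iterateFrobeniusEquiv C p h
  have hσ : ∀ x, σ x = x ^ Q := fun x => iterateFrobeniusEquiv_def C p h x
  let φ : ℕ → (Fin d →₀ ℕ) → C := fun E β => MvPolynomial.coeff β (v E)
  have hex : ∀ E, e < E → ∃ (w : box d E → C) (β₀ : box d E), (∑ i, β₀.1 i) ≤ e ∧
      w ∈ conjSpan σ (φ E) E ∧ (∀ β, σ (w β) = w β) ∧ w β₀ ≠ 0 := by
    intro E hE
    obtain ⟨-, b, hb, hne⟩ := hv E hE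
    have hbE : b ∈ box d E := mem_box.2 (lt_of_le_of_lt hb hE)
    obtain ⟨w, hw⟩ := exists_fixed_ne σ (φ E) E ⟨b, hbE⟩ hne
    exact ⟨w, ⟨b, hbE⟩, hb, hw⟩
  choose w β₀ hβ₀ hw hwfix hwne using hex
  let ψs : ℕ → (Fin d →₀ ℕ) → C := fun E β =>
    if hE : e < E then if hβ : β ∈ box d E then w E hE ⟨β, hβ⟩ else 0 else 0
  have hψsfix : ∀ E β, σ (ψs E β) = ψs E β := by
    intro E β
    simp only [ψs]
    split_ifs with hE hβ
    · exact hwfix E hE _
    · exact map_zero σ
    · exact map_zero σ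
  have hfin : {x : C | σ x = x}.Finite := by
    refine (Polynomial.X ^ Q - Polynomial.X : Polynomial C).roots.toFinset.finite_toSet.subset
      fun x hx => ?_
    have hx' : x ^ Q = x := (hσ x).symm.trans hx
    rw [Finset.mem_coe, Multiset.mem_toFinset,
      Polynomial.mem_roots (FiniteField.X_pow_card_sub_X_ne_zero C (by omega))]
    simp [hx']
  let U : Ultrafilter ℕ := Ultrafilter.of atTop
  have hU : (U : Filter ℕ) ≤ atTop := Ultrafilter.of_le _
  have hlim : ∀ β, ∃ a, σ a = a ∧ ∀ᶠ E in (U : Filter ℕ), ψs E β = a := by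
    intro β
    have hall : ∀ᶠ E in (U : Filter ℕ), ∃ a ∈ {x : C | σ x = x}, ψs E β = a :=
      Eventually.of_forall fun E => ⟨_, hψsfix E β, rfl⟩
    obtain ⟨a, ha, ha'⟩ := (Ultrafilter.eventually_exists_mem_iff hfin).1 hall
    exact ⟨a, ha, ha'⟩
  choose ψ hψfix hψ using hlim
  have hagree : ∀ k : ℕ, ∀ N : ℕ, ∃ E, N ≤ E ∧ ∀ β ∈ box d k, ψs E β = ψ β := by
    intro k N
    have h1 : ∀ᶠ E in (U : Filter ℕ), ∀ β ∈ box d k, ψs E β = ψ β :=
      (eventually_all_finset _).2 fun β _ => hψ β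
    have h2 : ∀ᶠ E in (U : Filter ℕ), N ≤ E := hU (eventually_ge_atTop N)
    obtain ⟨E, hE1, hE2⟩ := (h1.and h2).exists
    exact ⟨E, hE2, hE1⟩
  refine ⟨ψ, ?_, ?_, fun μ hμ => ?_⟩
  · intro hzero
    obtain ⟨E, hEN, hE⟩ := hagree (e + 1) (e + 1)
    have hlt : e < E := hEN
    have h1 := hE (β₀ E hlt).1 (mem_box.2 (Nat.lt_succ_of_le (hβ₀ E hlt)))
    rw [show ψ (β₀ E hlt).1 = 0 from congrFun hzero _] at h1
    simp only [ψs, dif_pos hlt, dif_pos (β₀ E hlt).2] at h1
    exact hwne E hlt h1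
  · intro β
    show ψ β ^ Q = ψ β
    rw [← hσ, hψfix]
  obtain ⟨ρ, hρ0, hρ1, hb⟩ := hest μ hμ
  obtain ⟨M, hM0, hM1, hμM, hρM⟩ : ∃ M : ℝ, 0 ≤ M ∧ M < 1 ∧ (∀ j, ‖μ j‖ ≤ M) ∧ ρ ≤ M := by
    let s : Finset ℝ := insert ρ (Finset.univ.image fun j => ‖μ j‖)
    have hs : s.Nonempty := Finset.insert_nonempty _ _
    refine ⟨s.max' hs, hρ0.trans (Finset.le_max' _ _ (Finset.mem_insert_self ..)),
      (Finset.max'_lt_iff _ hs).2 ?_, fun j => Finset.le_max' _ _ (by simp [s]),
      Finset.le_max' _ _ (Finset.mem_insert_self ..)⟩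
    intro x hx
    simp only [s, Finset.mem_insert, Finset.mem_image, Finset.mem_univ, true_and] at hx
    rcases hx with rfl | ⟨j, rfl⟩
    · exact hρ1
    · exact hS μ hμ j
  have hnorm : ∀ k, ‖sev ψ μ‖ ≤ M ^ k := by
    intro k
    obtain ⟨E, hEN, hE⟩ := hagree k (k + e + 1)
    have hlt : e < E := by omega
    obtain ⟨K, l₀, hK⟩ := hb E hlt
    have hev : ∀ μ' : Fin d → C, teval (trunc' E (φ E)) μ' = MvPolynomial.eval μ' (v E) := by
      intro μ'
      have e1 : teval (trunc' E (φ E)) μ' = ∑ β ∈ box d E, φ E β * mon μ' β := by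
        rw [teval, ← Finset.sum_coe_sort (box d E) fun β => φ E β * mon μ' β]
        rfl
      rw [e1, MvPolynomial.eval_eq']
      refine (Finset.sum_subset (fun b hb' => mem_box.2 ((hv E hlt).1 b hb')) fun b _ hb' => ?_).symm
      simp [φ, MvPolynomial.notMem_support_iff.1 hb']
    have hsmall : ‖teval (w E hlt) μ‖ ≤ ρ ^ E :=
      norm_teval_le_of_fixed σ hσ hQ (φ E) E μ ρ K hρ0 l₀
        (fun l hl => by rw [hev]; exact hK l hl) _ (hw E hlt) (hwfix E hlt)
    have htr : trunc' E (ψs E) = w E hlt := by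
      funext β
      simp only [trunc', ψs, dif_pos hlt, dif_pos β.2]
    have htk : trunc' k (ψs E) = trunc' k ψ := funext fun β => hE β.1 β.2
    have hn1 : ∀ β, ‖ψ β‖ ≤ 1 := fun β => norm_le_one_of_fixed σ hσ hQ _ (hψfix β)
    have hn2 : ∀ β, ‖ψs E β‖ ≤ 1 := fun β => norm_le_one_of_fixed σ hσ hQ _ (hψsfix E β)
    have b1 := norm_sev_sub_teval_le ψ hn1 μ M hM0 hM1 hμM k
    have b2 := norm_sev_sub_teval_le (ψs E) hn2 μ M hM0 hM1 hμM k
    have b3 := (norm_sev_sub_teval_le (ψs E) hn2 μ M hM0 hM1 hμM E).trans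
      (pow_le_pow_of_le_one hM0 hM1.le (show k ≤ E by omega))
    rw [htk] at b2
    rw [htr] at b3
    have b4 : ‖teval (w E hlt) μ‖ ≤ M ^ k :=
      hsmall.trans ((pow_le_pow_left₀ hρ0 hρM E).trans
        (pow_le_pow_of_le_one hM0 hM1.le (by omega)))
    have e2 : sev ψ μ = (sev ψ μ - teval (trunc' k ψ) μ) +
        -(sev (ψs E) μ - teval (trunc' k ψ) μ) +
        ((sev (ψs E) μ - teval (w E hlt) μ) + teval (w E hlt) μ) := by ring
    rw [e2]
    refine (IsUltrametricDist.norm_add_le_max _ _).trans (max_le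
      ((IsUltrametricDist.norm_add_le_max _ _).trans (max_le b1 ?_))
      ((IsUltrametricDist.norm_add_le_max _ _).trans (max_le b3 b4)))
    rw [norm_neg]
    exact b2
  exact norm_le_zero_iff.1 (ge_of_tendsto' (tendsto_pow_atTop_nhds_zero_of_lt_one hM0 hM1) hnorm)

end Vale.Agent.P217.EF
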