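import Vale.Agent.P217.GDescent
import Vale.Agent.P217.EFDefs

/-!
# P217, block EF: bounds for polynomials near the origin
-/

noncomputable section

namespace Vale.Agent.P217.EF

open Filter Topology

variable {C : Type} [NontriviallyNormedField C] [IsUltrametricDist C] {d : ℕ}

/-- A bound for the coefficients. -/
def polyNorm (f : MvPolynomial (Fin d) C) : ℝ := ∑ b ∈ f.support, ‖MvPolynomial.coeff b f‖

omit [IsUltrametricDist C] in
theorem polyNorm_nonneg (f : MvPolynomial (Fin d) C) : 0 ≤ polyNorm f :=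
  Finset.sum_nonneg fun _ _ => norm_nonneg _

theorem norm_eval_le_pow (f : MvPolynomial (Fin d) C) (r : ℕ)
    (hf : ∀ b : Fin d →₀ ℕ, (∑ i, b i) < r → MvPolynomial.coeff b f = 0) {η : Fin d → C}
    (hη : ‖η‖ ≤ 1) : ‖MvPolynomial.eval η f‖ ≤ polyNorm f * ‖η‖ ^ r := by
  rw [MvPolynomial.eval_eq']
  refine IsUltrametricDist.norm_sum_le_of_forall_le_of_nonneg
    (mul_nonneg (polyNorm_nonneg f) (pow_nonneg (norm_nonneg _) _)) fun b hb => ?_
  rw [norm_mul]
  refine mul_le_mul (Finset.single_le_sum (f := fun b => ‖MvPolynomial.coeff b f‖)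
    (fun i _ => norm_nonneg _) hb) ?_ (norm_nonneg _) (polyNorm_nonneg f)
  rw [norm_prod]
  calc ∏ i, ‖η i ^ b i‖ ≤ ∏ i, ‖η‖ ^ b i := Finset.prod_le_prod (fun i _ => norm_nonneg _)
        fun i _ => by rw [norm_pow]; exact pow_le_pow_left₀ (norm_nonneg _) (norm_le_pi_norm η i) _
    _ = ‖η‖ ^ (∑ i, b i) := Finset.prod_pow_eq_pow_sum ..
    _ ≤ ‖η‖ ^ r := pow_le_pow_of_le_one (norm_nonneg _) hη (le_of_not_gt fun hlt =>
        (MvPolynomial.mem_support_iff.1 hb) (hf b hlt))

theorem norm_eval_le (f : MvPolynomial (Fin d) C) {η : Fin d → C} (hη : ‖η‖ ≤ 1) :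
    ‖MvPolynomial.eval η f‖ ≤ polyNorm f := by
  simpa using norm_eval_le_pow f 0 (fun b hb => absurd hb (Nat.not_lt_zero _)) hη

theorem exists_lipschitz (f : MvPolynomial (Fin d) C) :
    ∃ K : ℝ, 0 ≤ K ∧ ∀ a b : Fin d → C, ‖a‖ ≤ 1 → ‖b‖ ≤ 1 →
      ‖MvPolynomial.eval a f - MvPolynomial.eval b f‖ ≤ K * ‖a - b‖ := by
  induction f using MvPolynomial.induction_on with
  | C c => exact ⟨0, le_rfl, fun a b _ _ => by simp⟩
  | add f g hf hg =>
    obtain ⟨K, hK, hf⟩ := hf
    obtain ⟨K', hK', hg⟩ := hg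
    refine ⟨max K K', le_max_of_le_left hK, fun a b ha hb => ?_⟩
    rw [map_add, map_add, add_sub_add_comm]
    refine (IsUltrametricDist.norm_add_le_max _ _).trans (max_le ?_ ?_)
    · exact (hf a b ha hb).trans (mul_le_mul_of_nonneg_right (le_max_left _ _) (norm_nonneg _))
    · exact (hg a b ha hb).trans (mul_le_mul_of_nonneg_right (le_max_right _ _) (norm_nonneg _))
  | mul_X f i hf =>
    obtain ⟨K, hK, hf⟩ := hf
    refine ⟨max K (polyNorm f), le_max_of_le_left hK, fun a b ha hb => ?_⟩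
    rw [map_mul, map_mul, MvPolynomial.eval_X, MvPolynomial.eval_X]
    have e : MvPolynomial.eval a f * a i - MvPolynomial.eval b f * b i =
        (MvPolynomial.eval a f - MvPolynomial.eval b f) * a i +
          MvPolynomial.eval b f * (a i - b i) := by ring
    rw [e]
    refine (IsUltrametricDist.norm_add_le_max _ _).trans (max_le ?_ ?_) <;> rw [norm_mul]
    · refine (mul_le_of_le_one_right (norm_nonneg _) ((norm_le_pi_norm a i).trans ha)).trans ?_
      exact (hf a b ha hb).trans (mul_le_mul_of_nonneg_right (le_max_left _ _) (norm_nonneg _))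
    · exact mul_le_mul ((norm_eval_le f hb).trans (le_max_right _ _))
        (norm_le_pi_norm (a - b) i) (norm_nonneg _) (le_max_of_le_left hK)

theorem norm_eval_sub_const_le (f : MvPolynomial (Fin d) C) {η : Fin d → C} (hη : ‖η‖ ≤ 1) :
    ‖MvPolynomial.eval η f - MvPolynomial.coeff 0 f‖ ≤
      polyNorm (f - MvPolynomial.C (MvPolynomial.coeff 0 f)) * ‖η‖ := by
  classical
  have h := norm_eval_le_pow (f - MvPolynomial.C (MvPolynomial.coeff 0 f)) 1 (fun b hb => by
    have : b = 0 := Finsupp.ext fun i => Nat.eq_zero_of_le_zero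
      ((Finset.single_le_sum (fun i _ => Nat.zero_le (b i)) (Finset.mem_univ i)).trans
        (Nat.lt_one_iff.1 hb).le)
    subst this
    rw [MvPolynomial.coeff_sub, MvPolynomial.coeff_zero_C, sub_self]) hη
  rwa [map_sub, MvPolynomial.eval_C, pow_one] at h

omit [IsUltrametricDist C] in
theorem coeff_sub_linear (f : MvPolynomial (Fin d) C) (b : Fin d →₀ ℕ) (hb : (∑ l, b l) < 2)
    (h0 : MvPolynomial.coeff 0 f = 0) :
    MvPolynomial.coeff b (f - ∑ l, MvPolynomial.C (MvPolynomial.coeff (Finsupp.single l 1) f) *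
      MvPolynomial.X l) = 0 := by
  classical
  rw [MvPolynomial.coeff_sub, MvPolynomial.coeff_sum]
  simp only [MvPolynomial.coeff_C_mul, MvPolynomial.coeff_X, mul_ite, mul_one, mul_zero]
  by_cases hz : b = 0
  · subst hz
    rw [h0, Finset.sum_eq_zero, sub_zero]
    intro l _
    rw [if_neg]
    exact fun h => by simpa using congrArg (fun u => u l) h
  · obtain ⟨l, hl⟩ : ∃ l, b l ≠ 0 := by
      by_contra h
      push Not at h
      exact hz (Finsupp.ext h)
    have hb' : b = Finsupp.single l 1 := by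
      have hle := Finset.single_le_sum (fun i _ => Nat.zero_le (b i)) (Finset.mem_univ l)
      refine Finsupp.ext fun u => ?_
      rcases eq_or_ne u l with rfl | hu
      · simp; omega
      · rw [Finsupp.single_eq_of_ne hu]
        have h1 : b u + b l ≤ ∑ i, b i := by
          rw [← Finset.sum_pair hu]
          exact Finset.sum_le_sum_of_subset_of_nonneg (Finset.subset_univ _)
            fun _ _ _ => Nat.zero_le _
        omega
    rw [Finset.sum_eq_single l, if_pos hb'.symm, hb', sub_self]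
    · intro u _ hu
      rw [if_neg]
      rw [hb']
      exact fun h => hu ((Finsupp.single_left_injective one_ne_zero) h)
    · simp

omit [IsUltrametricDist C] in
theorem norm_single_eq (i : Fin d) (t : C) : ‖(Pi.single i t : Fin d → C)‖ = ‖t‖ := by
  refine le_antisymm ((pi_norm_le_iff_of_nonneg (norm_nonneg t)).2 fun u => ?_) ?_
  · rcases eq_or_ne u i with rfl | hu
    · rw [Pi.single_eq_same]
    · rw [Pi.single_eq_of_ne hu, norm_zero]
      exact norm_nonneg t
  · simpa using norm_le_pi_norm (Pi.single i t : Fin d → C) i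

omit [IsUltrametricDist C] in
theorem eq_zero_of_linear_bound {c : C} {B δ : ℝ} (hδ : 0 < δ)
    (h : ∀ t : C, 0 < ‖t‖ → ‖t‖ ≤ δ → ‖c‖ ≤ B * ‖t‖) : c = 0 := by
  obtain ⟨t₀, ht0, ht1⟩ := NormedField.exists_norm_lt_one C
  obtain ⟨m, hm⟩ := exists_pow_lt_of_lt_one hδ ht1
  have hlim : Tendsto (fun k : ℕ => B * ‖t₀‖ ^ (m + k)) atTop (𝓝 0) := by
    simpa [pow_add, mul_assoc] using
      ((tendsto_pow_atTop_nhds_zero_of_lt_one ht0.le ht1).const_mul (B * ‖t₀‖ ^ m))
  refine norm_le_zero_iff.1 (ge_of_tendsto' hlim fun k => ?_)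
  have := h (t₀ ^ (m + k)) (by rw [norm_pow]; exact pow_pos ht0 _) (by
    rw [norm_pow]
    exact ((pow_le_pow_of_le_one ht0.le ht1.le (Nat.le_add_right m k)).trans hm.le))
  rwa [norm_pow] at this

omit [IsUltrametricDist C] in
theorem eval_single_linear (c : Fin d → C) (i : Fin d) (t : C) :
    MvPolynomial.eval (Pi.single i t) (∑ l, MvPolynomial.C (c l) * MvPolynomial.X l) = c i * t := by
  classical
  rw [map_sum, Finset.sum_eq_single i]
  · simp
  · intro u _ hu; simp [Pi.single_eq_of_ne hu]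
  · simp

/-- A polynomial of order two at the origin has no constant and no linear coefficient. -/
theorem coeff_low_eq_zero (f : MvPolynomial (Fin d) C) {K δ : ℝ} (hδ : 0 < δ)
    (hf : ∀ η, ‖η‖ ≤ δ → ‖MvPolynomial.eval η f‖ ≤ K * ‖η‖ ^ 2) :
    MvPolynomial.coeff 0 f = 0 ∧ ∀ i, MvPolynomial.coeff (Finsupp.single i 1) f = 0 := by
  classical
  have h0 : MvPolynomial.coeff 0 f = 0 := by
    have h := hf 0 (by simpa using hδ.le)
    rw [norm_zero, zero_pow two_ne_zero, mul_zero] at h
    simpa [MvPolynomial.constantCoeff_eq] using h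
  refine ⟨h0, fun i => ?_⟩
  set c : Fin d → C := fun l => MvPolynomial.coeff (Finsupp.single l 1) f with hc
  set g : MvPolynomial (Fin d) C := f - ∑ l, MvPolynomial.C (c l) * MvPolynomial.X l with hg
  have hglow : ∀ b : Fin d →₀ ℕ, (∑ l, b l) < 2 → MvPolynomial.coeff b g = 0 := fun b hb =>
    coeff_sub_linear f b hb h0
  refine eq_zero_of_linear_bound (B := max K (polyNorm g)) (lt_min hδ one_pos) fun t ht0 ht => ?_
  have hn : ‖(Pi.single i t : Fin d → C)‖ = ‖t‖ := norm_single_eq i t
  have h1 := hf (Pi.single i t) (hn.le.trans (ht.trans (min_le_left _ _)))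
  have h2 := norm_eval_le_pow g 2 hglow (hn.le.trans (ht.trans (min_le_right _ _)))
  have e : MvPolynomial.eval (Pi.single i t) g =
      MvPolynomial.eval (Pi.single i t) f - c i * t := by
    rw [hg, map_sub, eval_single_linear]
  rw [hn] at h1 h2
  have h3 : ‖c i * t‖ ≤ max K (polyNorm g) * ‖t‖ ^ 2 := by
    have e2 : c i * t = MvPolynomial.eval (Pi.single i t) f +
        -MvPolynomial.eval (Pi.single i t) g := by rw [e]; ring
    rw [e2]
    refine (IsUltrametricDist.norm_add_le_max _ _).trans (max_le ?_ ?_)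
    · exact h1.trans (mul_le_mul_of_nonneg_right (le_max_left _ _) (pow_nonneg (norm_nonneg _) _))
    · rw [norm_neg]
      exact h2.trans (mul_le_mul_of_nonneg_right (le_max_right _ _) (pow_nonneg (norm_nonneg _) _))
  rw [norm_mul, sq, ← mul_assoc] at h3
  exact le_of_mul_le_mul_right h3 ht0

end Vale.Agent.P217.EF
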