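import Vale.Agent.P217.EF.Period

/-!
# P217, block EF: the recursion for the coefficients of a hom to the Honda law
-/

noncomputable section

namespace Vale.Agent.P217.EF

open Filter Topology

variable {p : ℕ} [Fact p.Prime] {R : Type} [CommRing R] [CharP R p]

theorem coeff_pow_char (u : PowerSeries R) (h k : ℕ) :
    PowerSeries.coeff (p ^ h * k) (u ^ p ^ h) = PowerSeries.coeff k u ^ p ^ h := by
  have : ExpChar R p := ExpChar.prime (Fact.out : p.Prime)
  have e : u ^ p ^ h = PowerSeries.map (iterateFrobenius R p h)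
      (PowerSeries.expand (p ^ h) (pow_ne_zero h (Fact.out : p.Prime).ne_zero) u) :=
    (MvPowerSeries.map_iterateFrobenius_expand (p := p) (Fact.out : p.Prime).ne_zero u h).symm
  rw [e, PowerSeries.coeff_map, PowerSeries.coeff_expand_mul, iterateFrobenius_def]

omit [CharP R p] [Fact p.Prime] in
theorem exists_expand {Q : ℕ} (hQ : Q ≠ 0) (N : PowerSeries R)
    (hN : ∀ k, ¬ Q ∣ k → PowerSeries.coeff k N = 0) :
    N = PowerSeries.expand Q hQ (PowerSeries.mk fun k => PowerSeries.coeff (Q * k) N) := by
  ext k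
  rw [PowerSeries.coeff_expand]
  split_ifs with hk
  · rw [PowerSeries.coeff_mk, Nat.mul_div_cancel' hk]
  · exact hN k hk

/-- If u turns N, a series in X ^ Q, into the Q-th power, its coefficients satisfy a recursion. -/
theorem coeff_recursion (h : ℕ) {u N : PowerSeries R} (hN0 : PowerSeries.constantCoeff N = 0)
    (hN : ∀ k, ¬ p ^ h ∣ k → PowerSeries.coeff k N = 0)
    (hu : PowerSeries.subst N u = u ^ p ^ h) (k : ℕ) :
    PowerSeries.coeff k u ^ p ^ h =
      (∑ j ∈ Finset.range k, PowerSeries.coeff j u * PowerSeries.coeff (p ^ h * k) (N ^ j)) +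
        PowerSeries.coeff k u * PowerSeries.coeff (p ^ h) N ^ k := by
  have hQ : p ^ h ≠ 0 := pow_ne_zero h (Fact.out : p.Prime).ne_zero
  set g : PowerSeries R := PowerSeries.mk fun k => PowerSeries.coeff (p ^ h * k) N with hg
  have hNg : N = PowerSeries.expand (p ^ h) hQ g := exists_expand hQ N hN
  have hg0 : PowerSeries.constantCoeff g = 0 := by
    rw [← PowerSeries.coeff_zero_eq_constantCoeff_apply, hg, PowerSeries.coeff_mk, mul_zero,
      PowerSeries.coeff_zero_eq_constantCoeff_apply, hN0]
  have hpow : ∀ j, PowerSeries.coeff (p ^ h * k) (N ^ j) = PowerSeries.coeff k (g ^ j) := fun j => by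
    rw [hNg, ← map_pow, PowerSeries.coeff_expand_mul]
  have hlt : ∀ j, k < j → PowerSeries.coeff k (g ^ j) = 0 := fun j hj => by
    obtain ⟨A, hA⟩ := PowerSeries.X_dvd_iff.2 hg0
    rw [hA, mul_pow, PowerSeries.coeff_X_pow_mul', if_neg (not_le.2 hj)]
  have e := congrArg (PowerSeries.coeff (p ^ h * k)) hu
  rw [coeff_pow_char, PowerSeries.coeff_subst' (PowerSeries.HasSubst.of_constantCoeff_zero' hN0),
    finsum_eq_sum_of_support_subset _ (s := Finset.range (k + 1)) ?_, Finset.sum_range_succ] at e
  · simp only [smul_eq_mul] at e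
    rw [← e]
    congr 2
    rw [hpow, hg]
    rw [← hg, coeff_pow_self hg0 k, hg, PowerSeries.coeff_mk, mul_one]
  · intro j hj
    simp only [Function.mem_support, smul_eq_mul] at hj
    simp only [Finset.coe_range, Set.mem_Iio]
    by_contra hlt'
    push Not at hlt'
    exact hj (by rw [hpow, hlt j (by omega), mul_zero])

end Vale.Agent.P217.EF
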