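import Vale.Agent.P217.EF.ChartPins

/-!
# P217, block EF, chart part: inverting a polynomial map up to every order
-/

noncomputable section

namespace Vale.Agent.P217.EF.Chart

open MvPolynomial Finset

/-- A relation stable under products, for monomials. -/
theorem prod_pow_rel {A ι : Type*} [CommMonoid A] [Fintype ι] (R : ℕ → A → A → Prop) (one : R 0 1 1)
    (mul : ∀ a b x y x' y', R a x y → R b x' y' → R (a + b) (x * x') (y * y'))
    (u w : ι → A) (h : ∀ l, R 1 (u l) (w l)) (k : ι → ℕ) :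
    R (∑ l, k l) (∏ l, u l ^ k l) (∏ l, w l ^ k l) := by
  classical
  induction (univ : Finset ι) using Finset.induction with
  | empty => simpa using one
  | insert a s ha ih =>
    rw [sum_insert ha, prod_insert ha, prod_insert ha]
    refine mul _ _ _ _ _ _ ?_ ih
    generalize k a = m
    induction m with
    | zero => simpa using one
    | succ m ihm => rw [pow_succ, pow_succ]; exact mul _ _ _ _ _ _ ihm (h a)

variable {d : ℕ}

/-- The ideal of the variables. -/
abbrev vars (d : ℕ) (C : Type) [CommRing C] : Ideal (MvPolynomial (Fin d) C) :=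
  idealOfVars (Fin d) C

/-- Linear substitution. -/
def lin {C : Type} [CommRing C] (L : Matrix (Fin d) (Fin d) C) (j : Fin d) :
    MvPolynomial (Fin d) C :=
  ∑ i, MvPolynomial.C (L j i) * X i

section Algebra

variable {C : Type} [CommRing C]

theorem coeff_lin_zero (L : Matrix (Fin d) (Fin d) C) (j : Fin d) : coeff 0 (lin L j) = 0 := by
  simp [lin, coeff_sum]

theorem coeff_lin_single (L : Matrix (Fin d) (Fin d) C) (j i : Fin d) :
    coeff (Finsupp.single i 1) (lin L j) = L j i := by
  rw [lin, coeff_sum, sum_eq_single i]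
  · simp [coeff_C_mul]
  · intro l _ hl
    rw [coeff_C_mul, coeff_X, if_neg (fun h => hl ?_), mul_zero]
    exact Finsupp.single_left_injective one_ne_zero h
  · simp

theorem bind_mem_pow {u : Fin d → MvPolynomial (Fin d) C} (hu : ∀ j, u j ∈ vars d C) {N : ℕ}
    {v : MvPolynomial (Fin d) C} (hv : v ∈ vars d C ^ N) : bind₁ u v ∈ vars d C ^ N := by
  have hle : (vars d C).map (bind₁ u) ≤ vars d C := by
    rw [vars, idealOfVars, Ideal.map_span, Ideal.span_le]
    rintro _ ⟨_, ⟨j, rfl⟩, rfl⟩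
    show bind₁ u (X j) ∈ _
    rw [bind₁_X_right]
    exact hu j
  have h := Ideal.mem_map_of_mem (bind₁ u) hv
  rw [Ideal.map_pow] at h
  exact Ideal.pow_right_mono hle N h

theorem bind_sub_mem {u w : Fin d → MvPolynomial (Fin d) C} (hu : ∀ j, u j ∈ vars d C)
    (hw : ∀ j, w j ∈ vars d C) (huw : ∀ j, u j - w j ∈ vars d C ^ 2) {N : ℕ}
    {v : MvPolynomial (Fin d) C} (hv : v ∈ vars d C ^ N) :
    bind₁ u v - bind₁ w v ∈ vars d C ^ (N + 1) := by
  simp only [bind₁]
  rw [MvPolynomial.aeval_def, MvPolynomial.aeval_def, eval₂_eq', eval₂_eq',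
    ← sum_sub_distrib]
  refine Ideal.sum_mem _ fun b hb => ?_
  rw [← mul_sub]
  refine Ideal.mul_mem_left _ _ ?_
  have hN : N ≤ b.degree := (mem_pow_idealOfVars_iff N v).1 hv b hb
  refine Ideal.pow_le_pow_right (Nat.succ_le_succ hN) ?_
  rw [Finsupp.degree_eq_sum]
  have := prod_pow_rel (A := MvPolynomial (Fin d) C)
    (fun a x y => x ∈ vars d C ^ a ∧ y ∈ vars d C ^ a ∧ x - y ∈ vars d C ^ (a + 1))
    (by simp) (fun a b x y x' y' h h' => by
      refine ⟨?_, ?_, ?_⟩
      · rw [pow_add]; exact Ideal.mul_mem_mul h.1 h'.1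
      · rw [pow_add]; exact Ideal.mul_mem_mul h.2.1 h'.2.1
      · rw [show x * x' - y * y' = (x - y) * x' + y * (x' - y') by ring]
        refine add_mem ?_ ?_
        · rw [add_right_comm, pow_add]; exact Ideal.mul_mem_mul h.2.2 h'.1
        · rw [add_assoc, pow_add]; exact Ideal.mul_mem_mul h.2.1 h'.2.2)
    u w (fun l => ⟨by simpa using hu l, by simpa using hw l, huw l⟩) b
  exact this.2.2

theorem lin_mem (L : Matrix (Fin d) (Fin d) C) (j : Fin d) : lin L j ∈ vars d C :=
  Ideal.sum_mem _ fun i _ => Ideal.mul_mem_left _ _ (Ideal.subset_span ⟨i, rfl⟩)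

theorem bind_lin_lin (L M : Matrix (Fin d) (Fin d) C) (hML : M * L = 1) (j : Fin d) :
    bind₁ (lin L) (lin M j) = X j := by
  conv_lhs => rw [lin, map_sum]
  simp only [map_mul, bind₁_C_right, bind₁_X_right]
  simp only [lin, Finset.mul_sum, ← mul_assoc, ← MvPolynomial.C_mul]
  rw [sum_comm]
  simp only [← sum_mul, ← map_sum]
  rw [sum_eq_single j]
  · rw [show ∑ y, M j y * L y j = (M * L) j j from rfl, hML, Matrix.one_apply_eq, map_one, one_mul]
  · intro i _ hi
    rw [show ∑ y, M j y * L y i = (M * L) j i from rfl, hML, Matrix.one_apply_ne hi.symm, map_zero,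
      zero_mul]
  · simp

theorem exists_inverse_mod (L : Matrix (Fin d) (Fin d) C) (Ξ : Fin d → MvPolynomial (Fin d) C)
    (hdet : IsUnit L.det) (h0 : ∀ j, coeff 0 (Ξ j) = 0)
    (h1 : ∀ j i, coeff (Finsupp.single i 1) (Ξ j) = L j i) (f : MvPolynomial (Fin d) C) (N : ℕ) :
    ∃ v, f - bind₁ Ξ v ∈ vars d C ^ N := by
  have hΞ : ∀ j, Ξ j ∈ vars d C := fun j => by
    rw [← pow_one (vars d C), mem_pow_idealOfVars_iff']
    intro b hb
    rw [(Finsupp.degree_eq_zero_iff b).1 (by omega), h0]
  have h2 : ∀ j, Ξ j - lin L j ∈ vars d C ^ 2 := fun j => by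
    rw [mem_pow_idealOfVars_iff']
    intro b hb
    rcases Nat.eq_zero_or_pos b.degree with h | h
    · rw [(Finsupp.degree_eq_zero_iff b).1 h, coeff_sub, h0, coeff_lin_zero, sub_zero]
    · obtain ⟨i, rfl⟩ : ∃ i, b = Finsupp.single i 1 := by
        obtain ⟨i, hi⟩ : b.support.Nonempty := by
          rw [Finsupp.support_nonempty_iff]
          intro h'; subst h'; simp at h
        refine ⟨i, ?_⟩
        have hle : Finsupp.single i 1 ≤ b := by
          rw [Finsupp.single_le_iff]
          exact Nat.one_le_iff_ne_zero.2 (Finsupp.mem_support_iff.1 hi)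
        obtain ⟨c, rfl⟩ := le_iff_exists_add.1 hle
        rw [map_add, Finsupp.degree_single] at hb
        rw [(Finsupp.degree_eq_zero_iff c).1 (by omega), add_zero]
      rw [coeff_sub, h1, coeff_lin_single, sub_self]
  induction N with
  | zero => exact ⟨0, by simp⟩
  | succ N ih =>
    obtain ⟨v, hv⟩ := ih
    refine ⟨v + bind₁ (lin L⁻¹) (f - bind₁ Ξ v), ?_⟩
    have hinv : bind₁ (lin L) (bind₁ (lin L⁻¹) (f - bind₁ Ξ v)) = f - bind₁ Ξ v := by
      rw [bind₁_bind₁]
      simp only [bind_lin_lin L L⁻¹ (Matrix.nonsing_inv_mul L hdet)]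
      simp
    have h := bind_sub_mem hΞ (lin_mem L) h2 (bind_mem_pow (lin_mem L⁻¹) hv)
    rw [hinv] at h
    rw [map_add]
    convert neg_mem h using 1
    ring

/-- The terms of degree below E. -/
def truncBelow (E : ℕ) (v : MvPolynomial (Fin d) C) : MvPolynomial (Fin d) C :=
  ∑ b ∈ v.support.filter (fun b => b.degree < E), monomial b (coeff b v)

theorem coeff_truncBelow (E : ℕ) (v : MvPolynomial (Fin d) C) (b : Fin d →₀ ℕ) :
    coeff b (truncBelow E v) = if b.degree < E then coeff b v else 0 := by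
  classical
  rw [truncBelow, coeff_sum]
  simp only [coeff_monomial]
  rw [sum_ite_eq']
  by_cases hb : b.degree < E
  · rw [if_pos hb]
    by_cases hv : coeff b v = 0
    · simp [hv]
    · rw [if_pos (by simp [hb, hv])]
  · rw [if_neg hb, if_neg (by simp [hb])]

end Algebra

theorem norm_eval_le_pow {C : Type} [NontriviallyNormedField C] {E : ℕ}
    {g : MvPolynomial (Fin d) C} (hg : g ∈ vars d C ^ E) {η : Fin d → C} (hη : ‖η‖ ≤ 1) :
    ‖eval η g‖ ≤ (∑ b ∈ g.support, ‖coeff b g‖) * ‖η‖ ^ E := by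
  rw [eval_eq', sum_mul]
  refine (norm_sum_le _ _).trans (sum_le_sum fun b hb => ?_)
  rw [norm_mul, norm_prod]
  refine mul_le_mul_of_nonneg_left ?_ (norm_nonneg _)
  simp only [norm_pow]
  calc ∏ i, ‖η i‖ ^ b i ≤ ∏ i, ‖η‖ ^ b i :=
        prod_le_prod (fun i _ => pow_nonneg (norm_nonneg _) _) fun i _ =>
          pow_le_pow_left₀ (norm_nonneg _) (norm_le_pi_norm η i) _
    _ = ‖η‖ ^ b.degree := by rw [prod_pow_eq_pow_sum, Finsupp.degree_eq_sum]
    _ ≤ ‖η‖ ^ E := pow_le_pow_of_le_one (norm_nonneg _) hη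
        ((mem_pow_idealOfVars_iff E g).1 hg b hb)

/-- The polynomial map can be inverted up to every order. -/
theorem invertPin : InvertPin := by
  intro d C _ _ E L Ξ hdet h0 h1 f
  obtain ⟨v, hv⟩ := exists_inverse_mod L Ξ hdet h0 h1 f E
  have hΞ : ∀ j, Ξ j ∈ vars d C := fun j => by
    rw [← pow_one (vars d C), mem_pow_idealOfVars_iff']
    intro b hb
    rw [(Finsupp.degree_eq_zero_iff b).1 (by omega), h0]
  have hg : f - bind₁ Ξ (truncBelow E v) ∈ vars d C ^ E := by
    have ht : v - truncBelow E v ∈ vars d C ^ E := by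
      rw [mem_pow_idealOfVars_iff']
      intro b hb
      rw [coeff_sub, coeff_truncBelow, if_pos hb, sub_self]
    have h := add_mem hv (bind_mem_pow hΞ ht)
    rw [map_sub] at h
    convert h using 1
    ring
  refine ⟨truncBelow E v, fun b hb => ?_,
    ⟨∑ b ∈ (f - bind₁ Ξ (truncBelow E v)).support, ‖coeff b (f - bind₁ Ξ (truncBelow E v))‖,
      fun η hη => ?_⟩, fun e he => ?_⟩
  · rw [mem_support_iff, coeff_truncBelow, ← Finsupp.degree_eq_sum] at *
    split_ifs at hb with h
    · exact h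
    · exact absurd rfl hb
  · have h := norm_eval_le_pow hg hη
    rw [map_sub] at h
    convert h using 3
    exact (eval₂Hom_bind₁ _ _ _ _).symm
  · rintro ⟨b, hbe, hb⟩
    by_contra hcon
    push Not at hcon
    have hlow : truncBelow E v ∈ vars d C ^ (e + 1) := by
      rw [mem_pow_idealOfVars_iff']
      intro x hx
      exact hcon x (by rw [← Finsupp.degree_eq_sum]; omega)
    have hf : f ∈ vars d C ^ (e + 1) := by
      have := add_mem (Ideal.pow_le_pow_right (show e + 1 ≤ E by omega) hg)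
        (bind_mem_pow hΞ hlow)
      simpa using this
    exact hb ((mem_pow_idealOfVars_iff' _ _).1 hf b (by rw [Finsupp.degree_eq_sum]; omega))

end Vale.Agent.P217.EF.Chart
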