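import Vale.Agent.P217.Jac.Point
import Vale.Agent.P217.A.Height
import Vale.Agent.P217.EF.Invert

/-!
# P217, block EF, chart part: Taylor polynomials of the values near a point
-/

noncomputable section

namespace Vale.Agent.P217.EF.Chart

open MvPolynomial Finset

open scoped Classical

/-- The variable of the shifted coordinate with index l, or zero. -/
def shiftVar (n h : ℕ) (C : Type) [CommRing C] (l : Fin (n - 1)) : MvPolynomial (Fin (n - h)) C :=
  if hl : h ≤ l.1 + 1 then X ⟨l.1 + 1 - h, by have := l.2; omega⟩ else 0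

/-- The monomial with exponents k at the shifted point, as a polynomial in the shift. -/
def shiftMon (n h : ℕ) {C : Type} [CommRing C] (x : Fin (n - 1) → C) (k : Fin (n - 1) →₀ ℕ) :
    MvPolynomial (Fin (n - h)) C :=
  ∏ l, (MvPolynomial.C (x l) + shiftVar n h C l) ^ k l

/-- Exponents in the shifted coordinates. -/
def restrictExp (n h : ℕ) (hh : 1 ≤ h) (k : Fin (n - 1) →₀ ℕ) : Fin (n - h) →₀ ℕ :=
  Finsupp.equivFunOnFinite.symm fun i => k ⟨i.1 + h - 1, by have := i.2; omega⟩

/-- Exponents of degree below E. -/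
def expsBelow (d E : ℕ) : Finset (Fin d →₀ ℕ) :=
  (Finset.Iic (Finsupp.equivFunOnFinite.symm fun _ => E)).filter fun b => b.degree < E

theorem mem_expsBelow {d E : ℕ} {b : Fin d →₀ ℕ} : b ∈ expsBelow d E ↔ b.degree < E := by
  simp only [expsBelow, mem_filter, and_iff_right_iff_imp, Finset.mem_Iic]
  intro hb i
  rw [Finsupp.degree_eq_sum] at hb
  have := Finset.single_le_sum (f := fun i => b i) (fun _ _ => Nat.zero_le _) (mem_univ i)
  simp only [Finsupp.coe_equivFunOnFinite_symm]
  omega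

variable {C : Type} [NontriviallyNormedField C]

/-- A polynomial bounded by the power E on a small polydisc has no terms of degree below E. -/
theorem coeff_eq_zero_of_bound [Infinite C] {d E : ℕ} {D : MvPolynomial (Fin d) C} {K δ : ℝ}
    (hδ : 0 < δ) (hD : ∀ η : Fin d → C, ‖η‖ ≤ δ → ‖eval η D‖ ≤ K * ‖η‖ ^ E) :
    ∀ b : Fin d →₀ ℕ, b.degree < E → coeff b D = 0 := by
  suffices h : ∀ m, ∀ b : Fin d →₀ ℕ, b.degree = m → m < E → coeff b D = 0 from
    fun b hb => h _ b rfl hb
  intro m
  induction m using Nat.strong_induction_on with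
  | _ m ih =>
    intro b₀ hb₀ hm
    suffices hz : ∀ η : Fin d → C, eval η (homogeneousComponent m D) = 0 by
      have h0 : homogeneousComponent m D = 0 := MvPolynomial.funext fun η => by
        rw [hz η, map_zero]
      simpa [coeff_homogeneousComponent, hb₀] using congrArg (coeff b₀) h0
    intro η
    set c := eval η (homogeneousComponent m D) with hc
    by_contra hne
    have hcpos : 0 < ‖c‖ := norm_pos_iff.2 hne
    set B : ℝ := ∑ b ∈ D.support, ‖coeff b D * ∏ i, η i ^ b i‖ with hB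
    have hB0 : 0 ≤ B := sum_nonneg fun b _ => norm_nonneg _
    set A : ℝ := B + |K| * ‖η‖ ^ E + 1 with hA
    have hApos : 0 < A := by positivity
    obtain ⟨t, ht0, ht⟩ := NormedField.exists_norm_lt C
      (r := min 1 (min (δ / (‖η‖ + 1)) (‖c‖ / A))) (by positivity)
    simp only [lt_min_iff] at ht
    obtain ⟨ht1, htδ, htc⟩ := ht
    have hsmall : ‖t • η‖ ≤ δ := by
      rw [norm_smul]
      rw [lt_div_iff₀ (by positivity)] at htδ
      nlinarith [norm_nonneg η, norm_nonneg t]
    have hev : eval (t • η) D = ∑ b ∈ D.support, t ^ b.degree * (coeff b D * ∏ i, η i ^ b i) := by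
      rw [eval_eq']
      refine sum_congr rfl fun b _ => ?_
      simp only [Pi.smul_apply, smul_eq_mul, mul_pow, prod_mul_distrib, prod_pow_eq_pow_sum,
        Finsupp.degree_eq_sum]
      ring
    have hcc : c = ∑ b ∈ D.support.filter (fun b => b.degree = m),
        coeff b D * ∏ i, η i ^ b i := by
      rw [hc, homogeneousComponent_apply, map_sum]
      refine sum_congr rfl fun b _ => ?_
      rw [eval_monomial, Finsupp.prod_fintype _ _ fun i => pow_zero _]
    have hrest : ‖∑ b ∈ D.support.filter (fun b => ¬ b.degree = m),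
        t ^ b.degree * (coeff b D * ∏ i, η i ^ b i)‖ ≤ ‖t‖ ^ (m + 1) * B := by
      refine (norm_sum_le _ _).trans ?_
      rw [hB, mul_sum]
      refine le_trans (sum_le_sum fun b hb => ?_)
        (sum_le_sum_of_subset_of_nonneg (filter_subset _ _) fun b _ _ => by positivity)
      rw [norm_mul, norm_pow]
      refine mul_le_mul_of_nonneg_right (pow_le_pow_of_le_one ht0.le ht1.le ?_) (norm_nonneg _)
      simp only [mem_filter, mem_support_iff] at hb
      by_contra hlt
      exact hb.1 (ih _ (by omega) b rfl (by omega))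
    have hmain : ‖t‖ ^ m * ‖c‖ ≤ ‖t‖ ^ (m + 1) * A := by
      have e : t ^ m * c = eval (t • η) D - ∑ b ∈ D.support.filter (fun b => ¬ b.degree = m),
          t ^ b.degree * (coeff b D * ∏ i, η i ^ b i) := by
        rw [hev, ← sum_filter_add_sum_filter_not D.support (fun b => b.degree = m)
          (fun b => t ^ b.degree * (coeff b D * ∏ i, η i ^ b i)), add_sub_cancel_right, hcc, mul_sum]
        exact sum_congr rfl fun b hb => by rw [(mem_filter.1 hb).2]
      rw [← norm_pow, ← norm_mul, e]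
      refine (norm_sub_le _ _).trans ?_
      have h1 : ‖eval (t • η) D‖ ≤ ‖t‖ ^ (m + 1) * (|K| * ‖η‖ ^ E) := by
        refine (hD _ hsmall).trans ?_
        rw [norm_smul, mul_pow]
        calc K * (‖t‖ ^ E * ‖η‖ ^ E) ≤ |K| * (‖t‖ ^ E * ‖η‖ ^ E) :=
              mul_le_mul_of_nonneg_right (le_abs_self K) (by positivity)
          _ ≤ |K| * (‖t‖ ^ (m + 1) * ‖η‖ ^ E) := by
              refine mul_le_mul_of_nonneg_left (mul_le_mul_of_nonneg_right ?_ (by positivity))
                (abs_nonneg K)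
              exact pow_le_pow_of_le_one ht0.le ht1.le hm
          _ = _ := by ring
      have h2 : 0 ≤ ‖t‖ ^ (m + 1) := pow_nonneg ht0.le _
      rw [hA]
      nlinarith
    rw [pow_succ, mul_assoc] at hmain
    have := le_of_mul_le_mul_left hmain (pow_pos ht0 m)
    rw [lt_div_iff₀ hApos] at htc
    linarith

variable [IsUltrametricDist C] {n h : ℕ}

theorem norm_coeff_mul_le {d : ℕ} {P Q : MvPolynomial (Fin d) C} {u v : ℝ} (hu : 0 ≤ u)
    (hv : 0 ≤ v) (hP : ∀ b, ‖coeff b P‖ ≤ u) (hQ : ∀ b, ‖coeff b Q‖ ≤ v) (b : Fin d →₀ ℕ) :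
    ‖coeff b (P * Q)‖ ≤ u * v := by
  rw [coeff_mul]
  refine IsUltrametricDist.norm_sum_le_of_forall_le_of_nonneg (mul_nonneg hu hv) fun x _ => ?_
  rw [norm_mul]
  exact mul_le_mul (hP _) (hQ _) (norm_nonneg _) hu

theorem shiftMon_bounds {x : Fin (n - 1) → C} {r : ℝ} (hr : 0 ≤ r) (hr1 : r ≤ 1)
    (hx : ∀ l, ‖x l‖ ≤ r) (k : Fin (n - 1) →₀ ℕ) :
    (∀ b, ‖coeff b (shiftMon n h x k)‖ ≤ r ^ (k.degree - b.degree)) ∧
      ∀ b, ‖coeff b (shiftMon n h x k - ∏ l, shiftVar n h C l ^ k l)‖ ≤ r := by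
  have hone : ∀ b : Fin (n - h) →₀ ℕ, ‖coeff b (1 : MvPolynomial (Fin (n - h)) C)‖ ≤ 1 := fun b => by
    rw [coeff_one]
    split_ifs <;> simp
  have hY : ∀ l (b : Fin (n - h) →₀ ℕ), ‖coeff b (shiftVar n h C l)‖ ≤ 1 := fun l b => by
    rw [shiftVar]
    split_ifs
    · rw [coeff_X]
      split_ifs <;> simp
    · simp
  have := prod_pow_rel (A := MvPolynomial (Fin (n - h)) C)
    (fun N P Q => (∀ b, ‖coeff b P‖ ≤ r ^ (N - b.degree)) ∧ (∀ b, ‖coeff b Q‖ ≤ 1) ∧
      ∀ b, ‖coeff b (P - Q)‖ ≤ r)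
    ⟨fun b => by simpa using hone b, hone, fun b => by simpa using hr⟩
    (fun a a' P Q P' Q' hP hP' => by
      have hP1 : ∀ b, ‖coeff b P'‖ ≤ 1 := fun b => (hP'.1 b).trans (pow_le_one₀ hr hr1)
      refine ⟨fun b => ?_, fun b => (norm_coeff_mul_le zero_le_one zero_le_one hP.2.1 hP'.2.1 b).trans
        (one_mul _).le, fun b => ?_⟩
      · rw [coeff_mul]
        refine IsUltrametricDist.norm_sum_le_of_forall_le_of_nonneg (pow_nonneg hr _) fun z hz => ?_
        rw [norm_mul]
        refine (mul_le_mul (hP.1 _) (hP'.1 _) (norm_nonneg _) (pow_nonneg hr _)).trans ?_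
        rw [← pow_add]
        refine pow_le_pow_of_le_one hr hr1 ?_
        rw [HasAntidiagonal.mem_antidiagonal] at hz
        rw [← hz, map_add]
        omega
      · rw [show P * P' - Q * Q' = (P - Q) * P' + Q * (P' - Q') by ring, coeff_add]
        refine (IsUltrametricDist.norm_add_le_max _ _).trans (max_le ?_ ?_)
        · exact (norm_coeff_mul_le hr zero_le_one hP.2.2 hP1 b).trans (mul_one r).le
        · exact (norm_coeff_mul_le zero_le_one hr hP.2.1 hP'.2.2 b).trans (one_mul r).le)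
    (fun l => MvPolynomial.C (x l) + shiftVar n h C l) (shiftVar n h C)
    (fun l => ⟨fun b => by
      by_cases hb : b = 0
      · subst hb
        have h0 : coeff 0 (shiftVar n h C l) = 0 := by
          rw [shiftVar]; split_ifs <;> simp
        rw [coeff_add, h0, coeff_C, if_pos rfl, add_zero, map_zero, Nat.sub_zero, pow_one]
        exact hx l
      · rw [coeff_add, coeff_C, if_neg (Ne.symm hb), zero_add,
          Nat.sub_eq_zero_of_le (Nat.one_le_iff_ne_zero.2 (mt (Finsupp.degree_eq_zero_iff b).1 hb)),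
          pow_zero]
        exact hY l b, hY l, fun b => by
      rw [add_sub_cancel_right, coeff_C]
      split_ifs
      · exact hx l
      · simpa using hr⟩) k
  rw [← Finsupp.degree_eq_sum] at this
  exact ⟨this.1, this.2.2⟩

omit [IsUltrametricDist C] in
theorem coeff_prod_shiftVar (hh : 1 ≤ h) (k k₀ : Fin (n - 1) →₀ ℕ)
    (hk₀ : ∀ l : Fin (n - 1), l.1 + 1 < h → k₀ l = 0) :
    coeff (restrictExp n h hh k₀) (∏ l, shiftVar n h C l ^ k l) = if k = k₀ then 1 else 0 := by
  by_cases hlow : ∃ l : Fin (n - 1), l.1 + 1 < h ∧ k l ≠ 0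
  · obtain ⟨l, hl, hkl⟩ := hlow
    rw [prod_eq_zero (mem_univ l) (by rw [shiftVar, dif_neg (by omega), zero_pow hkl]), coeff_zero,
      if_neg]
    rintro rfl
    exact hkl (hk₀ l hl)
  push Not at hlow
  have e : ∏ l, shiftVar n h C l ^ k l = monomial (restrictExp n h hh k) (1 : C) := by
    rw [monomial_eq, map_one, one_mul, Finsupp.prod_fintype _ _ fun i => pow_zero _,
      ← prod_subset (subset_univ (univ.filter fun l : Fin (n - 1) => h ≤ l.1 + 1)) fun l _ hl => ?_]
    · refine prod_bij' (fun l hl => ⟨l.1 + 1 - h, by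
          have := l.2; have := (mem_filter.1 hl).2; omega⟩)
        (fun i _ => ⟨i.1 + h - 1, by have := i.2; omega⟩) (fun _ _ => mem_univ _)
        (fun i _ => by simp only [mem_filter, mem_univ, true_and]; omega)
        (fun l hl => Fin.ext (by have := (mem_filter.1 hl).2; simp only; omega))
        (fun i _ => Fin.ext (by simp only; omega)) fun l hl => ?_
      have hl' := (mem_filter.1 hl).2
      rw [shiftVar, dif_pos hl']
      simp [restrictExp, show l.1 + 1 - h + h - 1 = l.1 by omega]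
    · rw [hlow l (by simpa using hl), pow_zero]
  rw [e, coeff_monomial]
  refine if_congr ⟨fun hr => Finsupp.ext fun l => ?_, fun hk => by rw [hk]⟩ rfl rfl
  by_cases hl : h ≤ l.1 + 1
  · have := DFunLike.congr_fun hr ⟨l.1 + 1 - h, by have := l.2; omega⟩
    simpa [restrictExp, show l.1 + 1 - h + h - 1 = l.1 by omega] using this
  · rw [hlow l (by omega), hk₀ l (by omega)]

omit [IsUltrametricDist C] in
theorem eval_shiftMon (η : Fin (n - h) → C) (x : Fin (n - 1) → C) (k : Fin (n - 1) →₀ ℕ) :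
    eval η (shiftMon n h x k) = ∏ l, (x l + shiftVec n h η l) ^ k l := by
  rw [shiftMon, map_prod]
  refine prod_congr rfl fun l _ => ?_
  rw [map_pow, map_add, eval_C, shiftVar, shiftVec]
  split_ifs <;> simp

theorem norm_eval_le_one {d E : ℕ} {g : MvPolynomial (Fin d) C} (hg : ∀ b, ‖coeff b g‖ ≤ 1)
    (hlow : ∀ b : Fin d →₀ ℕ, b.degree < E → coeff b g = 0) {η : Fin d → C} (hη : ‖η‖ ≤ 1) :
    ‖eval η g‖ ≤ ‖η‖ ^ E := by
  rw [eval_eq']
  refine IsUltrametricDist.norm_sum_le_of_forall_le_of_nonneg (by positivity) fun b hb => ?_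
  rw [norm_mul, norm_prod]
  refine (mul_le_of_le_one_left (prod_nonneg fun _ _ => norm_nonneg _) (hg b)).trans ?_
  simp only [norm_pow]
  calc ∏ i, ‖η i‖ ^ b i ≤ ∏ i, ‖η‖ ^ b i :=
        prod_le_prod (fun i _ => pow_nonneg (norm_nonneg _) _) fun i _ =>
          pow_le_pow_left₀ (norm_nonneg _) (norm_le_pi_norm η i) _
    _ = ‖η‖ ^ b.degree := by rw [prod_pow_eq_pow_sum, Finsupp.degree_eq_sum]
    _ ≤ ‖η‖ ^ E := pow_le_pow_of_le_one (norm_nonneg _) hη
        (not_lt.1 fun hlt => mem_support_iff.1 hb (hlow b hlt))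

variable {p : ℕ} [Fact p.Prime]

/-- The Taylor coefficient of the value of a at the point P. -/
def taylorCoeff (P : GoodPoint p n h C) (a : E0 p n) (b : Fin (n - h) →₀ ℕ) : C :=
  ∑' k : Fin (n - 1) →₀ ℕ,
    P.emb (MvPowerSeries.coeff k (red p n a)) * coeff b (shiftMon n h (coord P) k)

/-- The Taylor polynomial of the value of a at the point P. -/
def taylorPoly (P : GoodPoint p n h C) (a : E0 p n) (E : ℕ) : MvPolynomial (Fin (n - h)) C :=
  ∑ b ∈ expsBelow (n - h) E, monomial b (taylorCoeff P a b)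

omit [IsUltrametricDist C] in
theorem coeff_sum_expsBelow {d E : ℕ} (c : (Fin d →₀ ℕ) → C) (b : Fin d →₀ ℕ) :
    coeff b (∑ x ∈ expsBelow d E, monomial x (c x)) = if b.degree < E then c b else 0 := by
  rw [coeff_sum]
  simp only [coeff_monomial, sum_ite_eq', mem_expsBelow]

variable [CompleteSpace C]

theorem summable_taylorCoeff (P : GoodPoint p n h C) (a : E0 p n) (b : Fin (n - h) →₀ ℕ) :
    Summable fun k : Fin (n - 1) →₀ ℕ =>
      P.emb (MvPowerSeries.coeff k (red p n a)) * coeff b (shiftMon n h (coord P) k) := by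
  have hr : (0 : ℝ) ≤ (p : ℝ)⁻¹ := by positivity
  refine NonarchimedeanAddGroup.summable_of_tendsto_cofinite_zero ?_
  rw [NormedAddGroup.tendsto_nhds_zero]
  intro ε hε
  obtain ⟨N, hN⟩ := Filter.eventually_atTop.1 ((tendsto_pow_atTop_nhds_zero_of_lt_one hr
    (inv_prime_lt_one (p := p))).eventually (gt_mem_nhds hε))
  refine ((expsBelow (n - 1) (b.degree + N)).finite_toSet.subset fun k hk => ?_)
  rw [mem_coe, mem_expsBelow]
  by_contra hle
  refine hk ?_
  show ‖_ * _‖ < ε
  rw [norm_mul]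
  refine lt_of_le_of_lt ((mul_le_of_le_one_left (norm_nonneg _) (norm_emb_le _ _)).trans
    ((shiftMon_bounds hr (inv_prime_lt_one (p := p)).le (norm_coord_le P) k).1 b)) (hN _ ?_)
  omega

theorem taylor_bound (hn1 : 1 ≤ n) (hh : h ≤ n) (P : GoodPoint p n h C) (a : E0 p n) (E : ℕ)
    (η : Fin (n - h) → C) (P' : GoodPoint p n h C) (hs : IsShift P η P') (hη : ‖η‖ ≤ 1) :
    ‖P'.chi a - eval η (taylorPoly P a E)‖ ≤ 1 * ‖η‖ ^ E := by
  have hr : (0 : ℝ) ≤ (p : ℝ)⁻¹ := by positivity
  have hr1 := (inv_prime_lt_one (p := p)).le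
  rw [one_mul, chi_eq_value hn1 P' a]
  have hv := Eval.hasSum_mveval (norm_emb_le P'.emb) (norm_coord_lt P') (red p n a)
  rw [hs.1] at hv ⊢
  have hT : eval η (taylorPoly P a E) =
      ∑ b ∈ expsBelow (n - h) E, taylorCoeff P a b * ∏ i, η i ^ b i := by
    rw [taylorPoly, map_sum]
    refine sum_congr rfl fun b _ => ?_
    rw [eval_monomial, Finsupp.prod_fintype _ _ fun i => pow_zero _]
  have hsum : HasSum (fun k : Fin (n - 1) →₀ ℕ => ∑ b ∈ expsBelow (n - h) E,
      P.emb (MvPowerSeries.coeff k (red p n a)) * coeff b (shiftMon n h (coord P) k) *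
        ∏ i, η i ^ b i) (eval η (taylorPoly P a E)) := by
    rw [hT]
    exact hasSum_sum fun b _ => (summable_taylorCoeff P a b).hasSum.mul_right _
  rw [← (hv.sub hsum).tsum_eq]
  refine IsUltrametricDist.norm_tsum_le_of_forall_le_of_nonneg (by positivity) fun k => ?_
  set M := shiftMon n h (coord P) k with hM
  have e : P.emb (MvPowerSeries.coeff k (red p n a)) * ∏ i, coord P' i ^ k i -
      ∑ b ∈ expsBelow (n - h) E,
        P.emb (MvPowerSeries.coeff k (red p n a)) * coeff b M * ∏ i, η i ^ b i =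
      P.emb (MvPowerSeries.coeff k (red p n a)) *
        eval η (M - ∑ x ∈ expsBelow (n - h) E, monomial x (coeff x M)) := by
    rw [map_sub, map_sum, hM, eval_shiftMon, coord_of_isShift hh P P' η hs, mul_sub, mul_sum]
    refine congrArg₂ (· - ·) rfl (sum_congr rfl fun b _ => ?_)
    rw [eval_monomial, Finsupp.prod_fintype _ _ fun i => pow_zero _]
    ring
  rw [e, norm_mul]
  refine (mul_le_of_le_one_left (norm_nonneg _) (norm_emb_le _ _)).trans
    (norm_eval_le_one (fun b => ?_) (fun b hb => ?_) hη)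
  · rw [coeff_sub, coeff_sum_expsBelow]
    split_ifs
    · simp
    · rw [sub_zero]
      exact ((shiftMon_bounds hr hr1 (norm_coord_le P) k).1 b).trans (pow_le_one₀ hr hr1)
  · rw [coeff_sub, coeff_sum_expsBelow, if_pos hb, sub_self]

theorem taylorCoeff_ne_zero (hh : 1 ≤ h) (P : GoodPoint p n h C) (a : E0 p n)
    {k₀ : Fin (n - 1) →₀ ℕ} (hk₀ : ∀ l : Fin (n - 1), l.1 + 1 < h → k₀ l = 0)
    (ha : MvPowerSeries.coeff k₀ (red p n a) ≠ 0) :
    taylorCoeff P a (restrictExp n h hh k₀) ≠ 0 := by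
  have hr : (0 : ℝ) ≤ (p : ℝ)⁻¹ := by positivity
  have hr1 := inv_prime_lt_one (p := p)
  set b := restrictExp n h hh k₀
  set j := P.emb
  set f := red p n a
  have hone : ‖j (MvPowerSeries.coeff k₀ f)‖ = 1 := by
    refine le_antisymm (norm_emb_le _ _) ?_
    calc (1 : ℝ) = ‖j (MvPowerSeries.coeff k₀ f)‖ * ‖j (MvPowerSeries.coeff k₀ f)⁻¹‖ := by
          rw [← norm_mul, ← map_mul, mul_inv_cancel₀ ha, map_one, norm_one]
      _ ≤ _ := mul_le_of_le_one_right (norm_nonneg _) (norm_emb_le _ _)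
  have hterm : ∀ k, ‖j (MvPowerSeries.coeff k f) * coeff b (shiftMon n h (coord P) k) -
      (if k = k₀ then j (MvPowerSeries.coeff k f) else 0)‖ ≤ (p : ℝ)⁻¹ := fun k => by
    have h2 := (shiftMon_bounds hr hr1.le (norm_coord_le P) k).2 b
    rw [coeff_sub, coeff_prod_shiftVar hh k k₀ hk₀] at h2
    rw [show (if k = k₀ then j (MvPowerSeries.coeff k f) else 0) =
      j (MvPowerSeries.coeff k f) * (if k = k₀ then 1 else 0) by split_ifs <;> simp, ← mul_sub,
      norm_mul]
    exact (mul_le_of_le_one_left (norm_nonneg _) (norm_emb_le _ _)).trans h2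
  have hs := ((summable_taylorCoeff P a b).hasSum.sub
    (hasSum_ite_eq k₀ (j (MvPowerSeries.coeff k₀ f)))).tsum_eq
  intro h0
  have hle : ‖taylorCoeff P a b - j (MvPowerSeries.coeff k₀ f)‖ ≤ (p : ℝ)⁻¹ := by
    refine le_of_eq_of_le (congrArg norm hs.symm) ?_
    refine IsUltrametricDist.norm_tsum_le_of_forall_le_of_nonneg hr fun k => ?_
    refine le_of_eq_of_le ?_ (hterm k)
    congr 2
    split_ifs with hk
    · rw [hk]
    · rfl
  rw [h0, zero_sub, norm_neg, hone] at hle
  linarith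

/-- The Taylor expansion at a point and its nonvanishing outside the height ideal. -/
theorem taylorPin : TaylorPin := by
  intro p n h _ C _ _ _ _ _ hh hhn P a
  refine ⟨fun E => ⟨taylorPoly P a E, 1, 1, one_pos,
    fun η P' hs hη => taylor_bound (by omega) hhn.le P a E η P' hs hη⟩, fun ha => ?_⟩
  rw [heightIdeal_eq_ker hh hhn.le, RingHom.mem_ker] at ha
  obtain ⟨k₀, hk₀⟩ : ∃ k, MvPowerSeries.coeff k ((red p n).comp (kill h) a) ≠ 0 := by
    by_contra hcon
    push Not at hcon
    exact ha (MvPowerSeries.ext fun k => by rw [hcon k, map_zero])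
  rw [RingHom.comp_apply, red, MvPowerSeries.coeff_map, kill, coeff_killVars] at hk₀
  split_ifs at hk₀ with hlow
  swap
  · exact absurd (map_zero _) hk₀
  have hlow' : ∀ l : Fin (n - 1), l.1 + 1 < h → k₀ l = 0 := fun l hl =>
    hlow l (by simp [lowVars, hl])
  have hne := taylorCoeff_ne_zero hh P a hlow' (k₀ := k₀) (by
    rw [red, MvPowerSeries.coeff_map]; exact hk₀)
  refine ⟨(restrictExp n h hh k₀).degree, fun E hE T K δ hδ hT =>
    ⟨restrictExp n h hh k₀, by rw [Finsupp.degree_eq_sum], ?_⟩⟩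
  set b := restrictExp n h hh k₀
  have hvh : 0 < ‖P.chi (vv p n h)‖ := norm_pos_iff.2 P.chi_h
  have key := coeff_eq_zero_of_bound (D := T - taylorPoly P a E) (K := max K 1) (E := E)
    (δ := min (min δ 1) (min (p : ℝ)⁻¹ (‖P.chi (vv p n h)‖ / 2)))
    (lt_min (lt_min hδ one_pos) (lt_min (inv_prime_pos (p := p)) (half_pos hvh))) (fun η hη => by
      simp only [le_min_iff] at hη
      obtain ⟨P', hs⟩ := exists_shift hh hhn P η hη.2.1 (by linarith [hη.2.2])
      have h1 := hT η P' hs hη.1.1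
      have h2 := taylor_bound (by omega) hhn.le P a E η P' hs hη.1.2
      rw [map_sub, show eval η T - eval η (taylorPoly P a E) =
        (P'.chi a - eval η (taylorPoly P a E)) + -(P'.chi a - eval η T) by ring]
      refine (IsUltrametricDist.norm_add_le_max _ _).trans (max_le (h2.trans ?_) ?_)
      · exact mul_le_mul_of_nonneg_right (le_max_right _ _) (by positivity)
      · rw [norm_neg]
        exact h1.trans (mul_le_mul_of_nonneg_right (le_max_left _ _) (by positivity))) b hE
  rw [coeff_sub, sub_eq_zero, taylorPoly, coeff_sum_expsBelow, if_pos hE] at key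
  rw [key]
  exact hne

end Vale.Agent.P217.EF.Chart

namespace Vale.Agent.P217.EF

open MvPolynomial

variable {p : ℕ} [Fact p.Prime] {n h : ℕ} {C : Type} [NontriviallyNormedField C]
  [IsUltrametricDist C] [CompleteSpace C]

/-- Taylor polynomials with uniform bounds. -/
theorem exists_taylor (hh : 1 ≤ h) (hhn : h < n) (P : GoodPoint p n h C) (a : E0 p n) (E : ℕ) :
    ∃ T : MvPolynomial (Fin (n - h)) C, (∀ b ∈ T.support, (∑ i, b i) < E) ∧
      (∀ b, ‖coeff b T‖ ≤ 1) ∧
      ∀ η P', IsShift P η P' → ‖η‖ ≤ (p : ℝ)⁻¹ → ‖P'.chi a - eval η T‖ ≤ ‖η‖ ^ E := by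
  classical
  refine ⟨Chart.taylorPoly P a E, fun b hb => ?_, fun b => ?_, fun η P' hs hη => ?_⟩
  · rw [mem_support_iff, Chart.taylorPoly, Chart.coeff_sum_expsBelow] at hb
    split_ifs at hb with hlt
    · rwa [← Finsupp.degree_eq_sum]
    · exact absurd rfl hb
  · rw [Chart.taylorPoly, Chart.coeff_sum_expsBelow]
    split_ifs
    · refine IsUltrametricDist.norm_tsum_le_of_forall_le_of_nonneg zero_le_one fun k => ?_
      rw [norm_mul]
      have hr : (0 : ℝ) ≤ (p : ℝ)⁻¹ := by positivity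
      exact mul_le_one₀ (norm_emb_le _ _) (norm_nonneg _)
        (((Chart.shiftMon_bounds hr (inv_prime_lt_one (p := p)).le (norm_coord_le P) k).1 b).trans
          (pow_le_one₀ hr (inv_prime_lt_one (p := p)).le))
    · simp
  · simpa using Chart.taylor_bound (by omega) hhn.le P a E η P' hs
      (hη.trans (inv_prime_lt_one (p := p)).le)

end Vale.Agent.P217.EF
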