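import Vale.Agent.P217.EF.Period
import Vale.Agent.P217.EF.Recursion
import Vale.Agent.P217.EF.Poly
import Vale.Agent.P217.EF.Taylor

/-!
# P217, block EF: the values of the covering map at nearby points, as polynomials up to every order
-/

noncomputable section

namespace Vale.Agent.P217.EF

open Filter Topology Eval MvPolynomial

variable {p : ℕ} [Fact p.Prime] {n h : ℕ} {C : Type} [NontriviallyNormedField C]
  [IsUltrametricDist C] [CompleteSpace C]
  {F : FormalGroup (E0 p n)} {P : GoodPoint p n h C}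

/-- The iterates of multiplication by p, as series. -/
def iterSeries (F : FormalGroup (E0 p n)) : ℕ → PowerSeries (E0 p n)
  | 0 => PowerSeries.X
  | m + 1 => PowerSeries.subst (iterSeries F m) (nsmulSeries F p)

omit [NontriviallyNormedField C] [IsUltrametricDist C] [CompleteSpace C] in
theorem constantCoeff_iterSeries : ∀ m, PowerSeries.constantCoeff (iterSeries F m) = 0
  | 0 => PowerSeries.constantCoeff_X
  | m + 1 => PowerSeries.constantCoeff_subst_eq_zero (constantCoeff_iterSeries m) _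
      (constantCoeff_nsmulSeries F p)

theorem peval_iterSeries (hn : 1 ≤ n) (P' : GoodPoint p n h C) {w : C} (hw : ‖w‖ < 1) :
    ∀ m, peval P'.chi (iterSeries F m) w = (pMul F P')^[m] w
  | 0 => peval_X
  | m + 1 => by
    rw [iterSeries, peval_subst (norm_chi_le hn P') hw (constantCoeff_iterSeries m),
      peval_iterSeries hn P' hw m, Function.iterate_succ_apply', pMul]

/-- The value of a series at nearby points, at a fixed argument, is a polynomial up to order E. -/
theorem exists_series_poly (hh : 1 ≤ h) (hhn : h < n) (P : GoodPoint p n h C)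
    (f : PowerSeries (E0 p n)) {w : C} (hw : ‖w‖ < 1) (E : ℕ) :
    ∃ Y : MvPolynomial (Fin (n - h)) C, ∀ η P', IsShift P η P' → ‖η‖ ≤ (p : ℝ)⁻¹ →
      ‖peval P'.chi f w - eval η Y‖ ≤ ‖η‖ ^ E := by
  classical
  choose T hT1 hT2 hT3 using fun k => exists_taylor hh hhn P (PowerSeries.coeff k f) E
  have hsum : ∀ b, Summable fun k : ℕ => coeff b (T k) * w ^ k := fun b => by
    refine NonarchimedeanAddGroup.summable_of_tendsto_cofinite_zero ?_
    rw [Nat.cofinite_eq_atTop]
    refine squeeze_zero_norm (fun k => ?_)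
      (tendsto_pow_atTop_nhds_zero_of_lt_one (norm_nonneg w) hw)
    rw [norm_mul, norm_pow]
    exact mul_le_of_le_one_left (pow_nonneg (norm_nonneg _) _) (hT2 k b)
  refine ⟨∑ b ∈ Descent.box (n - h) E, monomial b (∑' k : ℕ, coeff b (T k) * w ^ k),
    fun η P' hs hη => ?_⟩
  have hv := hasSum_peval (norm_chi_le (hh.trans hhn.le) P') f hw
  have hY : HasSum (fun k : ℕ => eval η (T k) * w ^ k)
      (eval η (∑ b ∈ Descent.box (n - h) E, monomial b (∑' k : ℕ, coeff b (T k) * w ^ k))) := by
    have h1 := hasSum_sum (s := Descent.box (n - h) E)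
      fun b _ => (hsum b).hasSum.mul_right (∏ i, η i ^ b i)
    have e : (eval η) (∑ b ∈ Descent.box (n - h) E, monomial b (∑' k : ℕ, coeff b (T k) * w ^ k)) =
        ∑ b ∈ Descent.box (n - h) E, (∑' k : ℕ, coeff b (T k) * w ^ k) * ∏ i, η i ^ b i := by
      rw [map_sum]
      refine Finset.sum_congr rfl fun b _ => ?_
      rw [eval_monomial, Finsupp.prod_fintype _ _ fun i => pow_zero _]
    rw [e]
    refine h1.congr_fun fun k => ?_
    rw [eval_eq', Finset.sum_mul, Finset.sum_subset (s₂ := Descent.box (n - h) E)]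
    · exact Finset.sum_congr rfl fun b _ => by ring
    · exact fun b hb => Descent.mem_box.2 (hT1 k b hb)
    · intro b _ hb
      rw [notMem_support_iff.1 hb]
      ring
  rw [← (hv.sub hY).tsum_eq]
  refine IsUltrametricDist.norm_tsum_le_of_forall_le_of_nonneg (pow_nonneg (norm_nonneg _) _)
    fun k => ?_
  rw [← sub_mul, norm_mul, norm_pow]
  exact (mul_le_of_le_one_right (norm_nonneg _) (pow_le_one₀ (norm_nonneg _) hw.le)).trans
    (hT3 k η P' hs hη)

omit [CompleteSpace C] in
theorem chi_dist_le [CompleteSpace C] (hn : 1 ≤ n) (hhn : h ≤ n) {η : Fin (n - h) → C}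
    {P' : GoodPoint p n h C} (hs : IsShift P η P') (a : E0 p n) :
    ‖P'.chi a - P.chi a‖ ≤ ‖η‖ := by
  rw [chi_eq_value hn P', chi_eq_value hn P, hs.1]
  refine norm_mveval_sub_le (norm_emb_le _) (norm_emb_le _) (norm_coord_lt P') (norm_coord_lt P)
    (norm_nonneg η) (fun k => by rw [sub_self, norm_zero]; exact norm_nonneg η) fun i => ?_
  rw [coord_of_isShift hhn P P' η hs, add_sub_cancel_left]
  exact norm_shiftVec_le η i

variable [CharP C p] [IsAlgClosed C] {Gn : FormalGroup ℤ_[p]}

/-- The covering map at nearby points is a polynomial up to every order. -/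
theorem exists_pi_poly (hF : IsUniversalDeformation p n F) (hh : 1 ≤ h) (hhn : h < n)
    (hG : IsHondaLift n Gn) (P : GoodPoint p n h C) {z : C} (hz : ‖z‖ < 1) (E : ℕ) :
    ∃ Y : MvPolynomial (Fin (n - h)) C, ∀ η P', IsShift P η P' → ‖η‖ ≤ (p : ℝ)⁻¹ →
      ‖piMap F P' z - eval η Y‖ ≤ ‖η‖ ^ E := by
  have H : ∀ P : GoodPoint p n h C, PMulShape F P := fun P => pMulShape hF hh hhn.le hG
  have hn := hh.trans hhn.le
  have hw : ‖piMap F P (root p n E z)‖ < 1 := norm_piMap_lt (H P) hh (norm_root_lt hz)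
  obtain ⟨Y, hY⟩ := exists_series_poly hh hhn P (iterSeries F E) hw E
  refine ⟨Y, fun η P' hs hη => ?_⟩
  have h1 := hY η P' hs hη
  rw [peval_iterSeries hn P' hw] at h1
  rw [← sub_add_sub_cancel _ ((pMul F P')^[E] (piMap F P (root p n E z)))]
  refine (IsUltrametricDist.norm_add_le_max _ _).trans (max_le ?_ h1)
  refine (piMap_sub_iterate_le (H P') (H P) hh E hz).trans ?_
  have hle := piMap_lipschitz (H P') (H P) hh (norm_nonneg η) (chi_dist_le hn hhn.le hs)
    (norm_root_lt (m := E) (p := p) (n := n) hz)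
  refine (pow_le_pow_left₀ (norm_nonneg _) hle _).trans
    (pow_le_pow_of_le_one (norm_nonneg _) (hη.trans inv_prime_lt_one.le) ?_)
  exact (Nat.lt_pow_self ((Fact.out : p.Prime).one_lt.trans_le (Nat.le_self_pow (by omega) p))).le

omit [CompleteSpace C] [IsAlgClosed C] in
/-- A polynomial version of the recursion: Newton iteration. -/
theorem exists_root_poly {d : ℕ} {Q : ℕ} (hQ : 2 ≤ Q) (U A : MvPolynomial (Fin d) C)
    (hU : coeff 0 U ≠ 0) {e0 : C} (he : e0 ^ Q = coeff 0 A + e0 * coeff 0 U)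
    (hadd : ∀ a b : C, (a + b) ^ Q = a ^ Q + b ^ Q) :
    ∀ t : ℕ, ∃ (e : MvPolynomial (Fin d) C) (K δ : ℝ), 0 < δ ∧ δ ≤ 1 ∧ 0 ≤ K ∧ coeff 0 e = e0 ∧
      ∀ η : Fin d → C, ‖η‖ ≤ δ →
        ‖eval η e ^ Q - eval η A - eval η e * eval η U‖ ≤ K * ‖η‖ ^ (t + 1) := by
  intro t
  induction t with
  | zero =>
    refine ⟨MvPolynomial.C e0, polyNorm (MvPolynomial.C e0 ^ Q - A - MvPolynomial.C e0 * U -
      MvPolynomial.C (coeff 0 (MvPolynomial.C e0 ^ Q - A - MvPolynomial.C e0 * U))), 1, one_pos,
      le_rfl, polyNorm_nonneg _, coeff_zero_C _, fun η hη => ?_⟩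
    have h1 := norm_eval_sub_const_le (MvPolynomial.C e0 ^ Q - A - MvPolynomial.C e0 * U) hη
    have e1 : coeff 0 (MvPolynomial.C e0 ^ Q - A - MvPolynomial.C e0 * U) = 0 := by
      rw [← constantCoeff_eq, map_sub, map_sub, map_pow, map_mul, constantCoeff_C,
        constantCoeff_eq, he]
      ring
    rw [e1, map_sub, map_sub, map_pow, map_mul, eval_C] at h1
    rw [eval_C, pow_one]
    simpa [e1] using h1
  | succ t ih =>
    obtain ⟨e, K, δ, hδ, hδ1, hK, he0, hres⟩ := ih
    set c : C := (coeff 0 U)⁻¹ with hc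
    set R : MvPolynomial (Fin d) C := e ^ Q - A - e * U with hR
    set D : MvPolynomial (Fin d) C := 1 - MvPolynomial.C c * U with hD
    have hD0 : coeff 0 D = 0 := by
      rw [← constantCoeff_eq, hD, map_sub, map_one, map_mul, constantCoeff_C, constantCoeff_eq,
        hc, inv_mul_cancel₀ hU, sub_self]
    have hR0 : coeff 0 R = 0 := by
      rw [← constantCoeff_eq, hR, map_sub, map_sub, map_pow, map_mul]
      simp only [constantCoeff_eq]
      rw [he0, he]
      ring
    refine ⟨e + MvPolynomial.C c * R, max (K * polyNorm D) (‖c‖ ^ Q * K ^ Q), δ, hδ, hδ1,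
      le_max_of_le_left (mul_nonneg hK (polyNorm_nonneg D)), ?_, fun η hη => ?_⟩
    · rw [← constantCoeff_eq, map_add, map_mul, constantCoeff_C, constantCoeff_eq, hR0, he0,
        mul_zero, add_zero]
    have hη1 : ‖η‖ ≤ 1 := hη.trans hδ1
    have hR' := hres η hη
    have hRη : eval η R = eval η e ^ Q - eval η A - eval η e * eval η U := by
      simp [hR, map_sub, map_pow, map_mul]
    rw [← hRη] at hR'
    have e2 : eval η (e + MvPolynomial.C c * R) ^ Q - eval η A -
        eval η (e + MvPolynomial.C c * R) * eval η U =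
        eval η R * eval η D + c ^ Q * eval η R ^ Q := by
      rw [map_add, map_mul, eval_C, hadd, mul_pow]
      simp only [hD, map_sub, map_one, map_mul, eval_C]
      rw [hRη]
      ring
    rw [e2]
    refine (IsUltrametricDist.norm_add_le_max _ _).trans (max_le ?_ ?_)
    · have hDη : ‖eval η D‖ ≤ polyNorm D * ‖η‖ := by
        have := norm_eval_sub_const_le D hη1
        simpa [hD0] using this
      rw [norm_mul]
      calc ‖eval η R‖ * ‖eval η D‖ ≤ (K * ‖η‖ ^ (t + 1)) * (polyNorm D * ‖η‖) :=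
            mul_le_mul hR' hDη (norm_nonneg _) (by positivity)
        _ = (K * polyNorm D) * ‖η‖ ^ (t + 1 + 1) := by rw [pow_succ _ (t + 1)]; ring
        _ ≤ _ := mul_le_mul_of_nonneg_right (le_max_left _ _) (by positivity)
    · rw [norm_mul, norm_pow, norm_pow]
      calc ‖c‖ ^ Q * ‖eval η R‖ ^ Q ≤ ‖c‖ ^ Q * (K * ‖η‖ ^ (t + 1)) ^ Q :=
            mul_le_mul_of_nonneg_left (pow_le_pow_left₀ (norm_nonneg _) hR' _) (by positivity)
        _ = (‖c‖ ^ Q * K ^ Q) * (‖η‖ ^ (t + 1)) ^ Q := by rw [mul_pow]; ring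
        _ ≤ (‖c‖ ^ Q * K ^ Q) * ‖η‖ ^ (t + 1 + 1) := by
            refine mul_le_mul_of_nonneg_left ?_ (by positivity)
            rw [← pow_mul]
            refine pow_le_pow_of_le_one (norm_nonneg _) hη1 ?_
            have : (t + 1) * 2 ≤ (t + 1) * Q := Nat.mul_le_mul_left _ hQ
            omega
        _ ≤ _ := mul_le_mul_of_nonneg_right (le_max_right _ _) (by positivity)

end Vale.Agent.P217.EF
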