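import Vale.Agent.P217.EF.ChartPins
import Vale.Agent.P217.EF.Basic
import Vale.Agent.P217.B.Symm
import Vale.Agent.P217.I.End

/-!
# P217, block EF: the value of 1 + p ^ l * c by deep digits

A fixed endomorphism of the Honda law is a digit series; two endomorphisms first differ in a
degree that is a power of p.
-/

noncomputable section

namespace Vale.Agent.P217.EF

open Finsupp (single)
open Vale.Agent.P217.I (addS inVar isHom_atom isHom_addS constantCoeff_addS constantCoeff_inVar)
open Vale.Agent.P217.B (digitList constantCoeff_digitList coeff_digitSeries seriesSum_all_zero)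

variable {p : ℕ} [Fact p.Prime]

section field

variable {C : Type} [Field C]

theorem coeff_pow_eq_of_agree {b b' : PowerSeries C} {m : ℕ}
    (h : ∀ i < m, PowerSeries.coeff i b = PowerSeries.coeff i b') (d : ℕ) {i : ℕ} (hi : i < m) :
    PowerSeries.coeff i (b ^ d) = PowerSeries.coeff i (b' ^ d) := by
  have hd : (PowerSeries.X : PowerSeries C) ^ m ∣ b - b' :=
    PowerSeries.X_pow_dvd_iff.mpr fun j hj => by rw [map_sub, h j hj, sub_self]
  have := PowerSeries.X_pow_dvd_iff.mp (hd.trans (sub_dvd_pow_sub_pow b b' d)) i hi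
  rwa [map_sub, sub_eq_zero] at this

theorem seriesSum_append (G : FormalGroup C) : ∀ {L L' : List (PowerSeries C)},
    (∀ a ∈ L, PowerSeries.constantCoeff a = 0) → (∀ a ∈ L', PowerSeries.constantCoeff a = 0) →
      seriesSum G (L ++ L') = addS G (seriesSum G L) (seriesSum G L')
  | [], L', _, h' =>
    (G.zero_add (PowerSeries.HasSubst.of_constantCoeff_zero'
      (seriesSum_constantCoeff G h'))).symm
  | a :: L, L', h, h' => by
    have hL : ∀ b ∈ L, PowerSeries.constantCoeff b = 0 := fun b hb =>
      h b (List.mem_cons_of_mem _ hb)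
    show MvPowerSeries.subst ![a, seriesSum G (L ++ L')] G.toPowerSeries = _
    rw [seriesSum_append G hL h']
    exact (G.assoc' (PowerSeries.HasSubst.of_constantCoeff_zero' (h a (List.mem_cons_self ..)))
      (PowerSeries.HasSubst.of_constantCoeff_zero' (seriesSum_constantCoeff G hL))
      (PowerSeries.HasSubst.of_constantCoeff_zero' (seriesSum_constantCoeff G h'))).symm

theorem coeff_addS_congr (G : FormalGroup C) {a b b' : PowerSeries C}
    (ha : PowerSeries.constantCoeff a = 0) (hb : PowerSeries.constantCoeff b = 0)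
    (hb' : PowerSeries.constantCoeff b' = 0) {m : ℕ}
    (h : ∀ i < m, PowerSeries.coeff i b = PowerSeries.coeff i b') {i : ℕ} (hi : i < m) :
    PowerSeries.coeff i (addS G a b) = PowerSeries.coeff i (addS G a b') := by
  simp only [addS, PowerSeries.coeff]
  rw [MvPowerSeries.coeff_subst (I.hasSubst_two ha hb),
    MvPowerSeries.coeff_subst (I.hasSubst_two ha hb')]
  refine finsum_congr fun d => ?_
  simp only [Finsupp.prod_fintype _ _ (fun s => pow_zero _), Fin.prod_univ_two,
    Matrix.cons_val_zero, Matrix.cons_val_one, Matrix.cons_val_fin_one]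
  congr 1
  show PowerSeries.coeff i (a ^ d 0 * b ^ d 1) = PowerSeries.coeff i (a ^ d 0 * b' ^ d 1)
  rw [PowerSeries.coeff_mul, PowerSeries.coeff_mul]
  refine Finset.sum_congr rfl fun q hq => ?_
  rw [Finset.HasAntidiagonal.mem_antidiagonal] at hq
  rw [coeff_pow_eq_of_agree h (d 1) (show q.2 < m by omega)]

/-- Adding a series of high order changes the first coefficients additively. -/
theorem coeff_addS_of_dvd (G : FormalGroup C) {S a : PowerSeries C} {j : ℕ} (hj : 1 ≤ j)
    (hS : PowerSeries.constantCoeff S = 0) (ha : (PowerSeries.X : PowerSeries C) ^ j ∣ a)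
    {i : ℕ} (hi : i ≤ j) :
    PowerSeries.coeff i (addS G S a) = PowerSeries.coeff i S + PowerSeries.coeff i a := by
  classical
  have ha0 : PowerSeries.constantCoeff a = 0 := by
    rw [← PowerSeries.coeff_zero_eq_constantCoeff_apply]
    exact PowerSeries.X_pow_dvd_iff.mp ha 0 hj
  have h1 := I.hasSubst_two (σ := Unit) hS ha0
  have h0 := I.hasSubst_two (σ := Unit) hS (map_zero MvPowerSeries.constantCoeff)
  let f : (Fin 2 →₀ ℕ) → C := fun d =>
    MvPowerSeries.coeff d G.toPowerSeries * PowerSeries.coeff i (S ^ d 0 * a ^ d 1)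
  let g : (Fin 2 →₀ ℕ) → C := fun d =>
    MvPowerSeries.coeff d G.toPowerSeries * PowerSeries.coeff i (S ^ d 0 * 0 ^ d 1)
  let k : (Fin 2 →₀ ℕ) → C := fun d => if d = single 1 1 then PowerSeries.coeff i a else 0
  have efg : ∀ d, f d = g d + k d := by
    intro d
    by_cases hd : d = single 1 1
    · subst hd
      simp [f, g, k, G.lin_coeff_Y]
    · simp only [f, g, k, if_neg hd, add_zero]
      by_cases hd1 : d 1 = 0
      · simp [hd1]
      · rw [zero_pow hd1, mul_zero, (PowerSeries.coeff i).map_zero, mul_zero]
        refine mul_eq_zero_of_right _ (PowerSeries.X_pow_dvd_iff.mp ?_ i (Nat.lt_succ_of_le hi))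
        rcases Nat.eq_zero_or_pos (d 0) with hd0 | hd0
        · have h2 : 2 ≤ d 1 := by
            by_contra hlt
            exact hd (Finsupp.ext fun s => by fin_cases s <;> simp <;> omega)
          rw [hd0, pow_zero, one_mul]
          refine dvd_trans ?_ ((pow_dvd_pow_of_dvd ha 2).trans (pow_dvd_pow a h2))
          rw [← pow_mul]
          exact pow_dvd_pow _ (by omega)
        · rw [pow_succ' _ j]
          exact mul_dvd_mul ((PowerSeries.X_dvd_iff.mpr hS).trans (dvd_pow_self S (by omega)))
            (ha.trans (dvd_pow_self a hd1))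
  have eg : PowerSeries.coeff i S = ∑ᶠ d, g d := by
    conv_lhs => rw [← G.add_zero (PowerSeries.HasSubst.of_constantCoeff_zero' hS)]
    rw [PowerSeries.coeff, MvPowerSeries.coeff_subst h0]
    exact finsum_congr fun d => by simp [g, PowerSeries.coeff, Finsupp.prod_fintype, Fin.prod_univ_two]
  have ef : PowerSeries.coeff i (addS G S a) = ∑ᶠ d, f d := by
    rw [addS, PowerSeries.coeff, MvPowerSeries.coeff_subst h1]
    exact finsum_congr fun d => by simp [f, PowerSeries.coeff, Finsupp.prod_fintype, Fin.prod_univ_two]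
  have hg : (Function.support g).Finite := by
    refine (MvPowerSeries.coeff_subst_finite h0 G.toPowerSeries (single () i)).subset fun d hd => ?_
    simpa [g, PowerSeries.coeff, Finsupp.prod_fintype, Fin.prod_univ_two] using hd
  have hk : (Function.support k).Finite :=
    (Set.finite_singleton (single 1 1)).subset fun d hd => by
      by_contra hne
      simp only [Set.mem_singleton_iff] at hne
      simp [k, hne] at hd
  rw [ef, eg, finsum_congr efg, finsum_add_distrib hg hk]
  congr 1
  rw [finsum_eq_single _ (single 1 1) fun d hd => if_neg hd]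
  exact if_pos rfl

/-- The coefficient at (i, m - i) of the expanded side only sees the degrees below m. -/
theorem coeff_homRHS_congr (G : FormalGroup C) {b b' : PowerSeries C}
    (hb : PowerSeries.constantCoeff b = 0) (hb' : PowerSeries.constantCoeff b' = 0) {m : ℕ}
    (h : ∀ i < m, PowerSeries.coeff i b = PowerSeries.coeff i b') {e : Fin 2 →₀ ℕ}
    (he : ∀ s, e s < m) :
    MvPowerSeries.coeff e (MvPowerSeries.subst ![inVar 0 b, inVar 1 b] G.toPowerSeries) =
      MvPowerSeries.coeff e (MvPowerSeries.subst ![inVar 0 b', inVar 1 b'] G.toPowerSeries) := by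
  classical
  rw [MvPowerSeries.coeff_subst
      (I.hasSubst_two (constantCoeff_inVar 0 hb) (constantCoeff_inVar 1 hb)),
    MvPowerSeries.coeff_subst
      (I.hasSubst_two (constantCoeff_inVar 0 hb') (constantCoeff_inVar 1 hb'))]
  refine finsum_congr fun d => ?_
  simp only [Finsupp.prod_fintype _ _ (fun s => pow_zero _), Fin.prod_univ_two,
    Matrix.cons_val_zero, Matrix.cons_val_one, Matrix.cons_val_fin_one]
  congr 1
  have hpow : ∀ (i : Fin 2) (k : ℕ) (c : PowerSeries C), inVar i c ^ k = inVar i (c ^ k) :=
    fun i k c => by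
      rw [inVar, inVar, PowerSeries.subst_pow
        (PowerSeries.HasSubst.of_constantCoeff_zero (MvPowerSeries.constantCoeff_X i))]
  rw [hpow, hpow, hpow, hpow, MvPowerSeries.coeff_mul, MvPowerSeries.coeff_mul]
  refine Finset.sum_congr rfl fun q hq => ?_
  rw [Finset.HasAntidiagonal.mem_antidiagonal] at hq
  have key : ∀ (s : Fin 2) (a : Fin 2 →₀ ℕ), a s ≤ e s → ∀ k,
      MvPowerSeries.coeff a (inVar s (b ^ k)) = MvPowerSeries.coeff a (inVar s (b' ^ k)) := by
    intro s a hle k
    have hX := PowerSeries.HasSubst.of_constantCoeff_zero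
      (MvPowerSeries.constantCoeff_X (R := C) s)
    rw [inVar, inVar, PowerSeries.coeff_subst hX, PowerSeries.coeff_subst hX]
    refine finsum_congr fun t => ?_
    rw [MvPowerSeries.X_pow_eq, MvPowerSeries.coeff_monomial]
    split_ifs with ht
    · subst ht
      rw [Finsupp.single_eq_same] at hle
      rw [coeff_pow_eq_of_agree h k (lt_of_le_of_lt hle (he s))]
    · simp
  rw [key 0 q.1 (by rw [← hq]; simp) (d 0), key 1 q.2 (by rw [← hq]; simp) (d 1)]

/-- If all inner binomial coefficients of m vanish, then m is a power of p. -/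
theorem exists_pow_of_choose [CharP C p] {m : ℕ} (hm : 1 ≤ m)
    (h : ∀ i, 1 ≤ i → i < m → ((m.choose i : ℕ) : C) = 0) : ∃ k, m = p ^ k := by
  have hp := (Fact.out : p.Prime)
  obtain ⟨k, r, hr, rfl⟩ := Nat.exists_eq_pow_mul_and_not_dvd (by omega : m ≠ 0) p hp.ne_one
  refine ⟨k, ?_⟩
  by_contra hne
  have hr0 : r ≠ 0 := fun h0 => hr (h0 ▸ dvd_zero p)
  have hr1 : 1 < r := by
    by_contra hle
    rw [show r = 1 by omega, mul_one] at hne
    exact hne rfl
  have hq : 1 ≤ p ^ k := Nat.one_le_pow _ _ hp.pos
  have h1 := h (p ^ k) hq (lt_mul_of_one_lt_right (by omega) hr1)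
  have e : ((Polynomial.X + 1 : Polynomial C) ^ (p ^ k * r)).coeff (p ^ k) = (r : C) := by
    rw [pow_mul, add_pow_char_pow, one_pow,
      show ((Polynomial.X : Polynomial C) ^ p ^ k + 1) ^ r =
        Polynomial.expand C (p ^ k) ((Polynomial.X + 1) ^ r) by simp]
    conv_lhs => arg 2; rw [← one_mul (p ^ k)]
    rw [Polynomial.coeff_expand_mul (by omega), Polynomial.coeff_X_add_one_pow, Nat.choose_one_right]
  rw [Polynomial.coeff_X_add_one_pow, h1] at e
  exact hr ((CharP.cast_eq_zero_iff C p r).mp e.symm)

/-- Two endomorphisms first differ in a degree that is a power of p. -/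
theorem coeff_eq_of_not_pow [CharP C p] (G : FormalGroup C) {b b' : PowerSeries C}
    (hb0 : PowerSeries.constantCoeff b = 0) (hb0' : PowerSeries.constantCoeff b' = 0)
    (hb : I.IsHom G b) (hb' : I.IsHom G b') {m : ℕ} (hm : 1 ≤ m) (hpow : ∀ k, m ≠ p ^ k)
    (h : ∀ i < m, PowerSeries.coeff i b = PowerSeries.coeff i b') :
    PowerSeries.coeff m b = PowerSeries.coeff m b' := by
  classical
  by_contra hne
  suffices hz : ∀ i, 1 ≤ i → i < m → ((m.choose i : ℕ) : C) = 0 by
    obtain ⟨k, hk⟩ := exists_pow_of_choose (p := p) (C := C) hm hz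
    exact hpow k hk
  intro i hi1 him
  set e : Fin 2 →₀ ℕ := single 0 i + single 1 (m - i) with he
  have he0 : e 0 = i := by simp [he]
  have he1 : e 1 = m - i := by simp [he]
  have hdeg : e.degree = m := by
    rw [Finsupp.degree_eq_sum, Fin.sum_univ_two, he0, he1]; omega
  have hG := PowerSeries.HasSubst.of_constantCoeff_zero G.zero_constantCoeff
  have hR := coeff_homRHS_congr G hb0 hb0' h (e := e) (fun s => by
    fin_cases s
    · show e 0 < m; omega
    · show e 1 < m; omega)
  unfold I.IsHom at hb hb'
  rw [← hb, ← hb'] at hR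
  have hsub : MvPowerSeries.coeff e (PowerSeries.subst G.toPowerSeries (b - b')) = 0 := by
    rw [PowerSeries.subst_sub hG, map_sub, hR, sub_self]
  rw [PowerSeries.coeff_subst hG, finsum_eq_single _ m ?_] at hsub
  · rw [map_sub, smul_eq_mul, mul_eq_zero] at hsub
    have hsub' := hsub.resolve_left (sub_ne_zero.mpr hne)
    set L : MvPowerSeries (Fin 2) C := MvPowerSeries.X 0 + MvPowerSeries.X 1 with hL
    have hdiff : MvPowerSeries.coeff e (G.toPowerSeries ^ m - L ^ m) = 0 := by
      rw [← geom_sum₂_mul]
      refine MvPowerSeries.coeff_of_lt_order ?_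
      refine lt_of_lt_of_le ?_ (MvPowerSeries.le_order_mul (f := _) (g := G.toPowerSeries - L))
      have h1 : ((m - 1 : ℕ) : ℕ∞) ≤
          (∑ i ∈ Finset.range m, G.toPowerSeries ^ i * L ^ (m - 1 - i)).order := by
        refine MvPowerSeries.le_order fun a ha => ?_
        rw [map_sum]
        refine Finset.sum_eq_zero fun i hi => ?_
        refine MvPowerSeries.coeff_of_lt_order (lt_of_lt_of_le ha ?_)
        refine le_trans ?_ MvPowerSeries.le_order_mul
        refine le_trans ?_ (add_le_add (MvPowerSeries.le_order_pow i) (MvPowerSeries.le_order_pow _))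
        have g1 : (1 : ℕ∞) ≤ G.toPowerSeries.order :=
          MvPowerSeries.one_le_order_iff_constCoeff_eq_zero.mpr G.zero_constantCoeff
        have l1 : (1 : ℕ∞) ≤ L.order :=
          MvPowerSeries.one_le_order_iff_constCoeff_eq_zero.mpr (by simp [L])
        refine le_trans ?_ (add_le_add (nsmul_le_nsmul_right g1 i) (nsmul_le_nsmul_right l1 _))
        rw [nsmul_one, nsmul_one, ← Nat.cast_add]
        exact Nat.cast_le.mpr (by have := Finset.mem_range.mp hi; omega)
      have h2 : ((2 : ℕ) : ℕ∞) ≤ (G.toPowerSeries - L).order := by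
        refine MvPowerSeries.le_order fun a ha => ?_
        have ha' : a.degree < 2 := by exact_mod_cast ha
        rw [Finsupp.degree_eq_sum, Fin.sum_univ_two] at ha'
        have ha2 : a = 0 ∨ a = single 0 1 ∨ a = single 1 1 := by
          rcases Nat.eq_zero_or_pos (a 0) with h0 | h0
          · rcases Nat.eq_zero_or_pos (a 1) with h1 | h1
            · exact Or.inl (Finsupp.ext fun s => by fin_cases s <;> simpa)
            · exact Or.inr (Or.inr (Finsupp.ext fun s => by fin_cases s <;> simp <;> omega))
          · exact Or.inr (Or.inl (Finsupp.ext fun s => by fin_cases s <;> simp <;> omega))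
        rcases ha2 with rfl | rfl | rfl
        · simp [L, G.zero_constantCoeff]
        · simp [L, G.lin_coeff_X, MvPowerSeries.coeff_X, Finsupp.single_left_inj]
        · simp [L, G.lin_coeff_Y, MvPowerSeries.coeff_X, Finsupp.single_left_inj]
      refine lt_of_lt_of_le ?_ (add_le_add h1 h2)
      rw [hdeg, ← Nat.cast_add]
      exact Nat.cast_lt.mpr (by omega)
    rw [map_sub, sub_eq_zero, hsub', hL, add_pow, map_sum, Finset.sum_eq_single i] at hdiff
    · rw [MvPowerSeries.X_pow_eq, MvPowerSeries.X_pow_eq, MvPowerSeries.monomial_mul_monomial,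
        mul_one, ← map_natCast (MvPowerSeries.C (σ := Fin 2) (R := C)), MvPowerSeries.coeff_mul_C,
        MvPowerSeries.coeff_monomial, if_pos he, one_mul] at hdiff
      exact hdiff.symm
    · intro t _ hne'
      rw [MvPowerSeries.X_pow_eq, MvPowerSeries.X_pow_eq, MvPowerSeries.monomial_mul_monomial,
        mul_one, ← map_natCast (MvPowerSeries.C (σ := Fin 2) (R := C)), MvPowerSeries.coeff_mul_C,
        MvPowerSeries.coeff_monomial, if_neg, zero_mul]
      intro hcon
      apply hne'
      have := (DFunLike.congr_fun hcon 0).symm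
      simpa [he] using this
    · intro hno
      exact absurd (Finset.mem_range.mpr (by omega)) hno
  · intro j hj
    rcases lt_or_gt_of_ne hj with hlt | hgt
    · rw [map_sub, h j hlt, sub_self, zero_smul]
    · rw [I.coeff_pow_eq_zero _ G.zero_constantCoeff (by omega), smul_zero]

end field

section digits

variable {C : Type} [Field C] [CharP C p]

/-- The partial digit sums of b. -/
def partSum (p : ℕ) {C : Type} [Field C] (G : FormalGroup C) (b : PowerSeries C) :
    ℕ → PowerSeries C
  | 0 => 0
  | N + 1 => addS G (partSum p G b N)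
      (PowerSeries.C (PowerSeries.coeff (p ^ N) b - PowerSeries.coeff (p ^ N) (partSum p G b N)) *
        PowerSeries.X ^ p ^ N)

/-- The digits of b. -/
def digitsOf (p : ℕ) {C : Type} [Field C] (G : FormalGroup C) (b : PowerSeries C) (N : ℕ) : C :=
  PowerSeries.coeff (p ^ N) b - PowerSeries.coeff (p ^ N) (partSum p G b N)

omit [CharP C p] in
theorem seriesSum_digitList_succ (G : FormalGroup C) (t : ℕ → C) (M : ℕ) :
    seriesSum G (digitList p t (M + 1)) =
      addS G (seriesSum G (digitList p t M)) (PowerSeries.C (t M) * PowerSeries.X ^ p ^ M) := by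
  have e : digitList p t (M + 1) =
      digitList p t M ++ [PowerSeries.C (t M) * PowerSeries.X ^ p ^ M] := by
    simp [digitList, List.range_succ]
  have hM : ∀ a ∈ [PowerSeries.C (t M) * PowerSeries.X ^ p ^ M],
      PowerSeries.constantCoeff a = 0 := fun a ha => by
    rw [List.mem_singleton] at ha
    subst ha
    simp [(Fact.out : p.Prime).ne_zero]
  rw [e, seriesSum_append G (constantCoeff_digitList t M) hM]
  congr 1
  exact G.add_zero (PowerSeries.HasSubst.of_constantCoeff_zero'
    (hM _ (List.mem_singleton_self _)))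

omit [CharP C p] in
theorem partSum_eq (G : FormalGroup C) (b : PowerSeries C) :
    ∀ N, partSum p G b N = seriesSum G (digitList p (digitsOf p G b) N)
  | 0 => rfl
  | N + 1 => by
    rw [seriesSum_digitList_succ, ← partSum_eq G b N]
    rfl

omit [CharP C p] in
theorem constantCoeff_partSum (G : FormalGroup C) (b : PowerSeries C) (N : ℕ) :
    PowerSeries.constantCoeff (partSum p G b N) = 0 := by
  rw [partSum_eq]
  exact seriesSum_constantCoeff G (constantCoeff_digitList _ N)

omit [CharP C p] in
theorem coeff_seriesSum_digitList_stable (G : FormalGroup C) (t : ℕ → C) {N M : ℕ} (hM : N < M) :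
    PowerSeries.coeff N (seriesSum G (digitList p t M)) =
      PowerSeries.coeff N (digitSeries p G t) := by
  obtain ⟨k, rfl⟩ : ∃ k, M = N + 1 + k := ⟨M - (N + 1), by omega⟩
  clear hM
  induction k with
  | zero => rw [coeff_digitSeries]
  | succ k ih =>
    have hlt : N < p ^ (N + 1 + k) :=
      lt_of_lt_of_le (by omega) (Nat.lt_pow_self (Fact.out : p.Prime).one_lt).le
    rw [show N + 1 + (k + 1) = N + 1 + k + 1 by omega, seriesSum_digitList_succ,
      coeff_addS_of_dvd G (Nat.one_le_pow _ _ (Fact.out : p.Prime).pos)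
        (seriesSum_constantCoeff G (constantCoeff_digitList _ _)) (dvd_mul_left _ _) hlt.le, ih,
      PowerSeries.coeff_C_mul, PowerSeries.coeff_X_pow, if_neg hlt.ne, mul_zero, add_zero]

variable {k : ℕ} {F : FormalGroup ℤ_[p]}

theorem isHom_partSum (hk : 1 ≤ k) (hF : IsHondaLift k F) (hC : ∀ c : C, c ^ p ^ k = c)
    (b : PowerSeries C) : ∀ N, I.IsHom (hondaIn F C) (partSum p (hondaIn F C) b N)
  | 0 => by
    show PowerSeries.subst (hondaIn F C).toPowerSeries (0 : PowerSeries C) =
      MvPowerSeries.subst ![inVar 0 (0 : PowerSeries C), inVar 1 (0 : PowerSeries C)]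
        (hondaIn F C).toPowerSeries
    have hX : ∀ s : Fin 2, inVar s (0 : PowerSeries C) = 0 := fun s => by
      rw [inVar, ← PowerSeries.coe_substAlgHom
        (PowerSeries.HasSubst.of_constantCoeff_zero (MvPowerSeries.constantCoeff_X s)), map_zero]
    rw [hX, hX, ← PowerSeries.coe_substAlgHom
      (PowerSeries.HasSubst.of_constantCoeff_zero (hondaIn F C).zero_constantCoeff), map_zero,
      (hondaIn F C).add_zero PowerSeries.HasSubst.zero]
  | N + 1 => by
    have : F.IsComm := I.isComm_of_lift hk hF
    have : (hondaIn F C).IsComm := I.isComm_map F _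
    exact isHom_addS _ (constantCoeff_partSum _ b N) (by simp [(Fact.out : p.Prime).ne_zero])
      (isHom_partSum hk hF hC b N) (isHom_atom hk hF (hC _) N)

/-- An endomorphism is its digit series. -/
theorem agree_partSum (hk : 1 ≤ k) (hF : IsHondaLift k F) (hC : ∀ c : C, c ^ p ^ k = c)
    {b : PowerSeries C} (hb0 : PowerSeries.constantCoeff b = 0)
    (hb : I.IsHom (hondaIn F C) b) :
    ∀ N i, i < p ^ N →
      PowerSeries.coeff i b = PowerSeries.coeff i (partSum p (hondaIn F C) b N) := by
  intro N
  induction N with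
  | zero =>
    intro i hi
    obtain rfl : i = 0 := by simpa using hi
    simp [partSum, hb0]
  | succ N ih =>
    intro i
    induction i using Nat.strong_induction_on with
    | _ i hrec =>
      intro hi
      rcases le_or_gt i (p ^ N) with hle | hgt
      · rw [partSum, coeff_addS_of_dvd _ (Nat.one_le_pow _ _ (Fact.out : p.Prime).pos)
          (constantCoeff_partSum _ b N) (dvd_mul_left _ _) hle, PowerSeries.coeff_C_mul,
          PowerSeries.coeff_X_pow]
        rcases hle.lt_or_eq with hlt | rfl
        · rw [if_neg hlt.ne, mul_zero, add_zero, ih i hlt]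
        · rw [if_pos rfl, mul_one, add_sub_cancel]
      · refine coeff_eq_of_not_pow (p := p) (hondaIn F C) hb0 (constantCoeff_partSum _ b _) hb
          (isHom_partSum hk hF hC b _) (by omega) ?_ fun j hj => hrec j hj (by omega)
        intro e he
        subst he
        have h1 := (Nat.pow_lt_pow_iff_right (Fact.out : p.Prime).one_lt).mp hgt
        have h2 := (Nat.pow_lt_pow_iff_right (Fact.out : p.Prime).one_lt).mp hi
        omega

theorem digitSeries_digitsOf (hk : 1 ≤ k) (hF : IsHondaLift k F) (hC : ∀ c : C, c ^ p ^ k = c)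
    {b : PowerSeries C} (hb0 : PowerSeries.constantCoeff b = 0)
    (hb : I.IsHom (hondaIn F C) b) :
    digitSeries p (hondaIn F C) (digitsOf p (hondaIn F C) b) = b := by
  ext N
  rw [coeff_digitSeries, ← partSum_eq]
  exact (agree_partSum hk hF hC hb0 hb (N + 1) N
    (lt_of_lt_of_le N.lt_succ_self (Nat.lt_pow_self (Fact.out : p.Prime).one_lt).le)).symm

omit [CharP C p] in
/-- The digits of 1 + p ^ l * c. -/
theorem digitSeries_deep (G : FormalGroup C) (t : ℕ → C) {n l : ℕ} (hnl : 1 ≤ n * l)
    (hQ : p ^ (n * l) ≠ 0) :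
    digitSeries p G (deepDigits n l t) =
      addS G PowerSeries.X (PowerSeries.expand (p ^ (n * l)) hQ (digitSeries p G t)) := by
  ext N
  set d := deepDigits n l t
  obtain ⟨m, hm⟩ : ∃ m, n * l = m := ⟨_, rfl⟩
  have hX0 : ∀ (c : C) (j : ℕ), PowerSeries.constantCoeff
      (PowerSeries.C c * PowerSeries.X ^ p ^ j) = 0 := fun c j => by
    simp [(Fact.out : p.Prime).ne_zero]
  have hsplit : digitList p d (n * l + (N + 1)) = digitList p d (n * l) ++
      (digitList p t (N + 1)).map (PowerSeries.expand (p ^ (n * l)) hQ) := by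
    rw [digitList, List.range_add]
    simp only [digitList, List.map_append, List.map_map]
    congr 1
    refine List.map_congr_left fun j _ => ?_
    simp only [Function.comp_apply, map_mul, PowerSeries.expand_C, map_pow,
      PowerSeries.expand_X]
    rw [← pow_mul, ← pow_add, show d (n * l + j) = t j by
      simp only [d, deepDigits]
      rw [if_neg (by omega), if_pos (by omega), Nat.add_sub_cancel_left]]
  have hhead : seriesSum G (digitList p d (n * l)) = PowerSeries.X := by
    obtain ⟨r, hr⟩ : ∃ r, n * l = r + 1 := ⟨n * l - 1, by omega⟩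
    rw [hr, digitList, List.range_succ_eq_map, List.map_cons, seriesSum, seriesSum_all_zero]
    · rw [G.add_zero (PowerSeries.HasSubst.of_constantCoeff_zero' (hX0 _ _))]
      simp [d, deepDigits]
    · intro a ha
      simp only [List.map_map, List.mem_map, List.mem_range, Function.comp_apply] at ha
      obtain ⟨j, hj, rfl⟩ := ha
      rw [show d (j + 1) = 0 by
        simp only [d, deepDigits]; rw [if_neg (by omega), if_neg (by omega)], map_zero, zero_mul]
  have hmap0 : ∀ a ∈ (digitList p t (N + 1)).map (PowerSeries.expand (p ^ (n * l)) hQ),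
      PowerSeries.constantCoeff a = 0 := by
    intro a ha
    obtain ⟨b, hb, rfl⟩ := List.mem_map.1 ha
    rw [PowerSeries.constantCoeff_expand, constantCoeff_digitList t _ b hb]
  rw [← coeff_seriesSum_digitList_stable G d (M := n * l + (N + 1)) (by omega), hsplit,
    seriesSum_append G (constantCoeff_digitList d _) hmap0, hhead,
    seriesSum_expand G hQ (constantCoeff_digitList t _)]
  refine coeff_addS_congr G PowerSeries.constantCoeff_X ?_ ?_ (m := N + 1) (fun i hi => ?_)
    N.lt_succ_self
  · rw [PowerSeries.constantCoeff_expand]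
    exact seriesSum_constantCoeff G (constantCoeff_digitList t _)
  · rw [PowerSeries.constantCoeff_expand]
    exact B.constantCoeff_digitSeries G t
  by_cases hd : p ^ (n * l) ∣ i
  · obtain ⟨j, rfl⟩ := hd
    rw [PowerSeries.coeff_expand_mul, PowerSeries.coeff_expand_mul]
    refine coeff_seriesSum_digitList_stable G t (lt_of_le_of_lt ?_ hi)
    exact Nat.le_mul_of_pos_left j (Nat.pos_of_ne_zero hQ)
  · rw [PowerSeries.coeff_expand_of_not_dvd _ _ _ hd, PowerSeries.coeff_expand_of_not_dvd _ _ _ hd]

end digits

theorem gammaPin : GammaPin := by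
  intro p n _ C _ _ _ _ Gn hn hGn e c hc
  classical
  set GF := GaloisField p n
  have hq2 : 2 ≤ p ^ n :=
    (Fact.out : p.Prime).two_le.trans (Nat.le_self_pow (by omega) p)
  have : Finite GF := inferInstance
  have : Fintype GF := Fintype.ofFinite GF
  have hcard : Fintype.card GF = p ^ n := by
    rw [← Nat.card_eq_fintype_card]; exact GaloisField.card p n (by omega)
  have hGF : ∀ x : GF, x ^ p ^ n = x := fun x => by rw [← hcard]; exact FiniteField.pow_card x
  have he : ∀ x : GF, ‖e x‖ ≤ 1 := by
    intro x
    by_contra hgt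
    push Not at hgt
    have h1 : ‖e x‖ ^ p ^ n = ‖e x‖ := by rw [← norm_pow, ← map_pow, hGF]
    exact absurd h1 (ne_of_gt (lt_self_pow₀ hgt (by omega)))
  have hrange : ∀ x : C, x ^ p ^ n = x → ∃ y : GF, e y = x := by
    intro x hx
    set P : Polynomial C := Polynomial.X ^ p ^ n - Polynomial.X
    have hP : P ≠ 0 := FiniteField.X_pow_card_sub_X_ne_zero C (by omega)
    have hsub : Finset.univ.image e ⊆ P.roots.toFinset := by
      intro y hy
      obtain ⟨z, -, rfl⟩ := Finset.mem_image.1 hy
      rw [Multiset.mem_toFinset, Polynomial.mem_roots hP]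
      simp [P, ← map_pow, hGF]
    have heq := Finset.eq_of_subset_of_card_le hsub ?_
    · have hxm : x ∈ P.roots.toFinset := by
        rw [Multiset.mem_toFinset, Polynomial.mem_roots hP]
        simp [P, hx]
      rw [← heq] at hxm
      obtain ⟨y, -, hy⟩ := Finset.mem_image.1 hxm
      exact ⟨y, hy⟩
    · rw [Finset.card_image_of_injective _ e.injective, Finset.card_univ, hcard]
      refine (Multiset.toFinset_card_le _).trans ((Polynomial.card_roots' P).trans ?_)
      exact (FiniteField.X_pow_card_sub_X_natDegree_eq C (by omega)).le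
  obtain ⟨hfix, hc0, hhom⟩ := hc
  choose y hy using fun i => hrange _ (hfix i)
  set b : PowerSeries GF := PowerSeries.mk y
  have hbc : PowerSeries.map e b = c := by
    ext i; rw [PowerSeries.coeff_map, PowerSeries.coeff_mk, hy]
  have hb0 : PowerSeries.constantCoeff b = 0 := e.injective (by
    rw [map_zero, ← hc0, ← hbc, ← PowerSeries.coeff_zero_eq_constantCoeff_apply,
      ← PowerSeries.coeff_zero_eq_constantCoeff_apply, PowerSeries.coeff_map])
  set G := hondaIn Gn GF
  have hGe : hondaIn Gn C = G.map e := by
    refine FormalGroup.ext ?_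
    simp only [G, hondaIn, FormalGroup.map_toPowerSeries]
    ext m
    simp only [MvPowerSeries.coeff_map, RingHom.comp_apply]
    exact (RingHom.congr_fun (RingHom.ext_zmod (e.comp (ZMod.castHom (dvd_refl p) GF))
      (ZMod.castHom (dvd_refl p) C)) _).symm
  have hbhom : I.IsHom G b := by
    have hX : ∀ s : Fin 2, PowerSeries.HasSubst (MvPowerSeries.X s : MvPowerSeries (Fin 2) GF) :=
      fun s => PowerSeries.HasSubst.of_constantCoeff_zero (MvPowerSeries.constantCoeff_X s)
    ext m
    refine e.injective ?_
    rw [← MvPowerSeries.coeff_map, ← MvPowerSeries.coeff_map,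
      PowerSeries.map_subst (PowerSeries.HasSubst.of_constantCoeff_zero G.zero_constantCoeff),
      MvPowerSeries.map_subst (I.hasSubst_two (constantCoeff_inVar 0 hb0)
        (constantCoeff_inVar 1 hb0)), hbc, ← FormalGroup.map_toPowerSeries, ← hGe, hhom]
    congr 2
    funext s
    fin_cases s <;>
      simp [inVar, PowerSeries.map_subst (hX _), hbc]
  refine ⟨digitsOf p G b, fun l hl z hz => ?_⟩
  have hnl : 1 ≤ n * l := Nat.mul_pos hn hl
  have hQ : p ^ (n * l) ≠ 0 := pow_ne_zero _ (Fact.out : p.Prime).ne_zero
  rw [digitSeries_deep G _ hnl hQ, digitSeries_digitsOf hn hGn hGF hb0 hbhom]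
  have hexp0 : PowerSeries.constantCoeff (PowerSeries.expand (p ^ (n * l)) hQ b) = 0 := by
    rw [PowerSeries.constantCoeff_expand, hb0]
  rw [addS, Eval.peval_subst_mv he hz (fun s => by fin_cases s <;> simp [hexp0]), hGe, gadd_map,
    vadd]
  congr 1
  funext s
  fin_cases s
  · simp [Eval.peval_X]
  · simp only [Fin.mk_one, Matrix.cons_val_one, Matrix.cons_val_fin_one]
    rw [PowerSeries.expand_apply, Eval.peval_subst he hz
      (by rw [map_pow, PowerSeries.constantCoeff_X, zero_pow hQ]), ← hbc, Eval.peval_map,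
      RingHom.id_comp]
    congr 1
    rw [← one_mul (PowerSeries.X ^ p ^ (n * l) : PowerSeries GF), ← map_one PowerSeries.C,
      Eval.peval_C_mul_X_pow, map_one, one_mul]

end Vale.Agent.P217.EF
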