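import Vale.Agent.P217.EF.Symm
import Vale.Agent.P217.EF.Invert
import Vale.Agent.P217.EF.Gamma
import Vale.Agent.P217.EF.Descent

/-!
# P217, block EF: the orbit of the kernel elements is killed by a nonzero fixed series
-/

noncomputable section

namespace Vale.Agent.P217.EF

open Filter Topology Eval MvPolynomial

variable {p : ℕ} [Fact p.Prime] {n h : ℕ} {C : Type} [NontriviallyNormedField C]
  [IsUltrametricDist C]

omit [IsUltrametricDist C] [Fact p.Prime] in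
theorem fixed_pow {k : ℕ} {x : C} (hx : x ^ p ^ k = x) (m : ℕ) : x ^ p ^ (k * m) = x := by
  induction m with
  | zero => simp
  | succ m ih => rw [show k * (m + 1) = k * m + k by ring, pow_add, pow_mul, ih, hx]

theorem exists_mulVec_bound {d : ℕ} (A : Matrix (Fin d) (Fin d) C) :
    ∃ M : ℝ, 1 ≤ M ∧ ∀ v : Fin d → C, ‖A.mulVec v‖ ≤ M * ‖v‖ := by
  refine ⟨1 + ∑ i, ∑ j, ‖A i j‖, le_add_of_nonneg_right (Finset.sum_nonneg fun _ _ => Finset.sum_nonneg fun _ _ => norm_nonneg _),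
    fun v => ?_⟩
  have h0 : (0 : ℝ) ≤ 1 + ∑ i, ∑ j, ‖A i j‖ :=
    add_nonneg zero_le_one (Finset.sum_nonneg fun _ _ => Finset.sum_nonneg fun _ _ => norm_nonneg _)
  refine (pi_norm_le_iff_of_nonneg (mul_nonneg h0 (norm_nonneg v))).2 fun i => ?_
  simp only [Matrix.mulVec, dotProduct]
  refine IsUltrametricDist.norm_sum_le_of_forall_le_of_nonneg (mul_nonneg h0 (norm_nonneg v))
    fun j _ => ?_
  rw [norm_mul]
  refine mul_le_mul ?_ (norm_le_pi_norm v j) (norm_nonneg _) h0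
  exact ((Finset.single_le_sum (f := fun j => ‖A i j‖) (fun u _ => norm_nonneg _)
    (Finset.mem_univ j)).trans (Finset.single_le_sum (f := fun i => ∑ j, ‖A i j‖)
      (fun u _ => Finset.sum_nonneg fun _ _ => norm_nonneg _) (Finset.mem_univ i))).trans (le_add_of_nonneg_left zero_le_one)

variable [CompleteSpace C] [CharP C p] [IsAlgClosed C] {F : FormalGroup (E0 p n)}
  {P : GoodPoint p n h C} {Gn Gh : FormalGroup ℤ_[p]} {i : PowerSeries C}

omit [IsAlgClosed C] in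
theorem peval_id_pow_char (hn : 1 ≤ n) (f : PowerSeries C)
    (hf : ∀ k, PowerSeries.coeff k f ^ p ^ n = PowerSeries.coeff k f) {y : C} (hy : ‖y‖ < 1) (m : ℕ) :
    peval (RingHom.id C) f y ^ p ^ (n * m) = peval (RingHom.id C) f (y ^ p ^ (n * m)) := by
  have hf1 : ∀ k, ‖PowerSeries.coeff k f‖ ≤ 1 := fun k => norm_eq_of_fixed hn (hf k)
  have hs := hasSum_peval (j := (unitBall C).subtype) norm_subtype_le (toBall f hf1) hy
  rw [peval_toBall] at hs
  have h := hs.map (iterateFrobenius C p (n * m))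
    (by rw [show ⇑(iterateFrobenius C p (n * m)) = fun x : C => x ^ p ^ (n * m) from
      funext fun x => iterateFrobenius_def ..]; exact continuous_pow _)
  rw [iterateFrobenius_def] at h
  refine h.tsum_eq.symm.trans (tsum_congr fun k => ?_)
  simp [iterateFrobenius_def, toBall, mul_pow, fixed_pow (hf k) m, ← pow_mul, mul_comm]

/-- The orbit estimate. -/
theorem orbit_small (hA : BlockA) (hB : BlockB) (hGam : GammaPin)
    (hF : IsUniversalDeformation p n F) (hh : 1 ≤ h) (hhn : h < n)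
    (hGn : IsHondaLift n Gn) (hGh : IsHondaLift h Gh)
    (hi1 : ∀ k, ‖PowerSeries.coeff k i‖ ≤ 1) (hhom : IsHom (lawAt F P) (hondaIn Gh C) i)
    (J : Ideal (E0 p n)) (hJ : IsInvariantIdeal F J) (hJP : ∀ a ∈ J, P.chi a = 0)
    (f₀ : E0 p n) (hf₀ : f₀ ∈ J)
    (ξ : Fin (n - h) → C) (hξ : ∀ j, ‖ξ j‖ < 1) (hξ0 : ∀ j, piMap F P (ξ j) = 0)
    (L : Matrix (Fin (n - h)) (Fin (n - h)) C) (hLdet : IsUnit L.det)
    (hL : ∃ K δ : ℝ, 0 < δ ∧ ∀ η P', IsShift P η P' → ‖η‖ ≤ δ →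
      ∀ j, ‖piMap F P' (ξ j) - L.mulVec η j‖ ≤ K * ‖η‖ ^ 2)
    (cc : PowerSeries C) (hcc : IsFixedEnd (p ^ n) (hondaIn Gn C) cc)
    (E E' : ℕ) (hEE : E ≤ E')
    (T : MvPolynomial (Fin (n - h)) C)
    (hT : ∀ η P', IsShift P η P' → ‖η‖ ≤ (p : ℝ)⁻¹ → ‖P'.chi f₀ - eval η T‖ ≤ ‖η‖ ^ E)
    (Ξ : Fin (n - h) → MvPolynomial (Fin (n - h)) C) (hΞ0 : ∀ j, coeff 0 (Ξ j) = 0)
    (hΞ : ∃ (K δ ε : ℝ), 0 ≤ K ∧ 0 < δ ∧ 0 < ε ∧ ∀ η P', IsShift P η P' → ‖η‖ ≤ δ →
      ∀ u : PowerSeries (unitBall C), PowerSeries.constantCoeff u = 0 →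
        PowerSeries.subst (nsmulSeries (F.map (chiBall (hh.trans hhn.le) P')) p) u = u ^ p ^ h →
        (∀ k < E', ‖((PowerSeries.coeff k u : unitBall C) : C) - PowerSeries.coeff k i‖ ≤ ε) →
        ∀ j, ‖peval (unitBall C).subtype u (piMap F P' (ξ j)) - eval η (Ξ j)‖ ≤ K * ‖η‖ ^ E')
    (v : MvPolynomial (Fin (n - h)) C)
    (hv : ∃ K : ℝ, ∀ η : Fin (n - h) → C, ‖η‖ ≤ 1 →
      ‖eval η T - eval (fun j => eval η (Ξ j)) v‖ ≤ K * ‖η‖ ^ E) :
    ∃ (K : ℝ) (l₀ : ℕ), ∀ l, l₀ ≤ l →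
      ‖eval (fun j => period F P i (peval (RingHom.id C) cc (ξ j)) ^ (p ^ h) ^ l) v‖ ≤
        K * ‖fun j => piMap F P (peval (RingHom.id C) cc (ξ j))‖ ^ ((p ^ h) ^ l * E) := by
  classical
  have hn := hh.trans hhn.le
  have H : ∀ P : GoodPoint p n h C, PMulShape F P := fun P => pMulShape hF hh hhn.le hGn
  have hcc1 : ∀ k, ‖PowerSeries.coeff k cc‖ ≤ 1 := fun k => norm_eq_of_fixed hn (hcc.1 k)
  set μ : Fin (n - h) → C := fun j => period F P i (peval (RingHom.id C) cc (ξ j)) with hμ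
  set z : Fin (n - h) → C := fun j => piMap F P (peval (RingHom.id C) cc (ξ j)) with hz
  have hw : ∀ j, ‖peval (RingHom.id C) cc (ξ j)‖ < 1 := fun j => norm_peval_id_lt hcc1 hcc.2.1 (hξ j)
  have hz1 : ∀ j, ‖z j‖ < 1 := fun j => norm_piMap_lt (H P) hh (hw j)
  have hμ1 : ∀ j, ‖μ j‖ < 1 := fun j => norm_period_lt hF hh hhn.le hGn hi1 hhom (hw j)
  obtain ⟨c₀, hc₀⟩ := hGam p n C Gn hn hGn P.emb cc hcc
  obtain ⟨l₂, s, ψ, hsym, hclose⟩ := hB p n (by omega) F hF c₀
  have hres : F.map residue = hondaIn Gn (GaloisField p n) := residue_universal hF hn hGn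
  obtain ⟨KΞ, δΞ, εΞ, hKΞ, hδΞ, hεΞ, hΞb⟩ := hΞ
  obtain ⟨Kv, hKv⟩ := hv
  obtain ⟨KL, δL, hδL, hLb⟩ := hL
  obtain ⟨M, hM1, hM⟩ := exists_mulVec_bound L⁻¹
  obtain ⟨Kw, hKw0, hKw⟩ := exists_lipschitz v
  have hx0 : 0 < ‖P.chi (vv p n h)‖ := norm_pos_iff.2 P.chi_h
  set B : ℝ := ∑ j, polyNorm (Ξ j - MvPolynomial.C (coeff 0 (Ξ j))) with hB'
  have hB0 : 0 ≤ B := Finset.sum_nonneg fun _ _ => polyNorm_nonneg _
  set δ : ℝ := min (min (min δΞ δL) (min (p : ℝ)⁻¹ (‖P.chi (vv p n h)‖ / 2)))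
    (min (1 / (M * |KL| + 1) / 2) (min (1 / (B + 1)) εΞ)) with hδdef
  have hδ : 0 < δ := lt_min (lt_min (lt_min hδΞ hδL) (lt_min inv_prime_pos (half_pos hx0)))
    (lt_min (half_pos (one_div_pos.2 (by positivity))) (lt_min (one_div_pos.2 (by linarith)) hεΞ))
  obtain ⟨N, hN⟩ := exists_pow_lt_of_lt_one hδ (inv_prime_lt_one (p := p))
  obtain ⟨lN, hlN⟩ := hclose N (max E' 2)
  refine ⟨max |Kv| (max 1 (Kw * KΞ)) * M ^ E, max (max l₂ lN) 1, fun l hl => ?_⟩
  obtain ⟨⟨hs, hψ0, hψ1, hψh⟩, hcst, hψres⟩ := hsym l ((le_max_left _ _).trans ((le_max_left _ _).trans hl))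
  obtain ⟨hsv, hψv⟩ := hlN l ((le_max_right _ _).trans ((le_max_left _ _).trans hl))
  have hψhom : IsHom (F.map (s l).toRingHom) F (ψ l) := ⟨hψ0, hψh⟩
  have hsmall : ∀ j, ‖P.chi (s l (vv p n j)) - P.chi (vv p n j)‖ < δ := fun j => by
    rw [← map_sub]; exact (norm_chi_pow_le hn P (hsv j)).trans_lt hN
  have hne : P.chi (s l (vv p n h)) ≠ 0 := by
    intro h0
    have := hsmall h
    rw [h0, zero_sub, norm_neg] at this
    have h2 : δ ≤ ‖P.chi (vv p n h)‖ / 2 :=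
      (min_le_left _ _).trans ((min_le_right _ _).trans (min_le_right _ _))
    linarith
  obtain ⟨P', hemb, hP'⟩ := exists_symm_point P hh
    (((hA p n hn).2.2 F hF).1 h hhn.le).2 (s l) hs hcst hne
  set η : Fin (n - h) → C := fun u => P.chi (s l (vv p n (h + u))) - P.chi (vv p n (h + u)) with hη
  have hshift : IsShift P η P' := ⟨hemb, fun u => by rw [hP', hη]; ring⟩
  have hηδ : ‖η‖ ≤ δ := (pi_norm_le_iff_of_nonneg hδ.le).2 fun u => (hsmall _).le
  have hηΞ : ‖η‖ ≤ δΞ := hηδ.trans ((min_le_left _ _).trans ((min_le_left _ _).trans (min_le_left _ _)))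
  have hηL : ‖η‖ ≤ δL := hηδ.trans ((min_le_left _ _).trans ((min_le_left _ _).trans (min_le_right _ _)))
  have hηp : ‖η‖ ≤ (p : ℝ)⁻¹ := hηδ.trans ((min_le_left _ _).trans ((min_le_right _ _).trans (min_le_left _ _)))
  have hη1 : ‖η‖ ≤ 1 := hηp.trans inv_prime_lt_one.le
  -- the value of the hom at the moved covering map
  set y : Fin (n - h) → C := fun j => piMap F P' (ξ j) with hy
  have hyη : ∀ j, ‖y j‖ ≤ ‖η‖ := fun j => by
    simpa [hξ0] using piMap_lipschitz (H P') (H P) hh (norm_nonneg η) (chi_dist_le hn hhn.le hshift) (hξ j)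
  have hy1 : ∀ j, ‖y j‖ < 1 := fun j => (hyη j).trans_lt (hηp.trans_lt inv_prime_lt_one)
  have hψy : ∀ j, peval P.chi (ψ l) (y j) = (pMul F P)^[l] (z j) := by
    intro j
    rw [hy, piMap_hom hF hh hhn.le hGn (s l).toRingHom hP' hψhom (hξ j), ← peval_map, hψres, hres,
      hc₀ l ((le_max_right _ _).trans hl) (ξ j) (hξ j), gadd_honda]
    have hpos : p ^ (n * l) ≠ 0 := pow_ne_zero _ (Fact.out : p.Prime).ne_zero
    have hξq : ‖ξ j ^ p ^ (n * l)‖ < 1 := by
      rw [norm_pow]; exact pow_lt_one₀ (norm_nonneg _) (hξ j) hpos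
    rw [← peval_id_pow_char hn cc hcc.1 (hξ j) l,
      piMap_add hF hh hhn.le hGn (hξ j) (by rw [norm_pow]; exact pow_lt_one₀ (norm_nonneg _) (hw j) hpos),
      hξ0, zero_vadd (norm_chi_le hn P) F (norm_piMap_lt (H P) hh
        (by rw [norm_pow]; exact pow_lt_one₀ (norm_nonneg _) (hw j) hpos)),
      piMap_pow_iterate (H P) hh l (by rw [norm_pow]; exact pow_lt_one₀ (norm_nonneg _) (hw j) hpos)]
    have er : root p n l (peval (RingHom.id C) cc (ξ j) ^ p ^ (n * l)) =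
        peval (RingHom.id C) cc (ξ j) :=
      pow_injective_char (p := p) (n * l) (by simp only [root_pow])
    rw [er]
  have hzl : ∀ j, ‖(pMul F P)^[l] (z j)‖ ≤ ‖z‖ ^ (p ^ h) ^ l := fun j => by
    have h0 : (pMul F P)^[l] (0 : C) = 0 := by
      have := norm_iterate_pMul_le (F := F) (P := P) hn l (show ‖(0 : C)‖ < 1 by simp)
      rwa [norm_zero, norm_le_zero_iff] at this
    have h1 := iterate_pMul_contract (H P) l (hz1 j) (show ‖(0 : C)‖ < 1 by simp)
    rw [h0, sub_zero, sub_zero] at h1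
    exact h1.trans (pow_le_pow_left₀ (norm_nonneg _) (norm_le_pi_norm z j) _)
  have hyz : ∀ j, ‖y j‖ ≤ ‖z‖ ^ (p ^ h) ^ l := fun j => by
    refine le_trans (le_of_eq ?_) (hzl j)
    rw [← hψy j]
    rcases eq_or_ne (y j) 0 with h0 | h0
    · have h2 := norm_peval_le (norm_chi_le hn P) (hy1 j).le (ψ l) hψ0
      rw [h0, norm_zero] at h2 ⊢
      exact (le_antisymm h2 (norm_nonneg _)).symm
    have ht : ‖P.chi (PowerSeries.coeff 1 (ψ l)) * y j‖ = ‖y j‖ := by
      rw [norm_mul, chi_eq_one_norm hn P hψ1, one_mul]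
    have h2 := norm_peval_sub_sum_le (norm_chi_le hn P) (ψ l) (hy1 j) 2
    rw [Finset.sum_range_succ, Finset.sum_range_one, pow_zero, pow_one, mul_one,
      PowerSeries.coeff_zero_eq_constantCoeff_apply, hψ0, map_zero, zero_add] at h2
    have h3 : ‖y j‖ ^ 2 < ‖y j‖ := by
      rw [sq]; exact mul_lt_of_lt_one_left (norm_pos_iff.2 h0) (hy1 j)
    rw [← sub_add_cancel (peval P.chi (ψ l) (y j)) (P.chi (PowerSeries.coeff 1 (ψ l)) * y j),
      IsUltrametricDist.norm_add_eq_max_of_norm_ne_norm (by rw [ht]; exact (h2.trans_lt h3).ne),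
      ht, max_eq_right (h2.trans h3.le)]
  -- the bound for η
  have hρ : ‖η‖ ≤ M * ‖z‖ ^ (p ^ h) ^ l := by
    set R := ‖z‖ ^ (p ^ h) ^ l with hR
    have hR0 : 0 ≤ R := pow_nonneg (norm_nonneg _) _
    have hLη : ‖L.mulVec η‖ ≤ max R (|KL| * ‖η‖ ^ 2) := by
      refine (pi_norm_le_iff_of_nonneg (le_max_of_le_left hR0)).2 fun j => ?_
      rw [← sub_add_cancel (L.mulVec η j) (y j)]
      refine (IsUltrametricDist.norm_add_le_max _ _).trans (max_le ?_ ((hyz j).trans (le_max_left _ _)))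
      rw [norm_sub_rev]
      exact ((hLb η P' hshift hηL j).trans (mul_le_mul_of_nonneg_right (le_abs_self _)
        (by positivity))).trans (le_max_right _ _)
    have h1 : ‖η‖ ≤ M * max R (|KL| * ‖η‖ ^ 2) := by
      have := hM (L.mulVec η)
      rw [Matrix.mulVec_mulVec, Matrix.nonsing_inv_mul L hLdet, Matrix.one_mulVec] at this
      exact this.trans (mul_le_mul_of_nonneg_left hLη (zero_le_one.trans hM1))
    rcases max_cases R (|KL| * ‖η‖ ^ 2) with ⟨e, -⟩ | ⟨e, -⟩ <;> rw [e] at h1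
    · exact h1
    have h2 : ‖η‖ * (M * |KL| + 1) ≤ 1 / 2 := by
      have := hηδ.trans ((min_le_right _ _).trans (min_le_left _ _))
      rw [div_div, le_div_iff₀ (by positivity)] at this
      linarith
    have h3 : M * (|KL| * ‖η‖ ^ 2) ≤ ‖η‖ / 2 := by nlinarith [norm_nonneg η]
    have h4 : ‖η‖ ≤ 0 := by linarith
    exact h4.trans (mul_nonneg (zero_le_one.trans hM1) hR0)
  -- the moved series
  set u : PowerSeries (unitBall C) :=
    PowerSeries.subst (PowerSeries.map (chiBall hn P) (ψ l)) (toBall i hi1) with hu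
  have hψb0 : PowerSeries.constantCoeff (PowerSeries.map (chiBall hn P) (ψ l)) = 0 := by
    rw [← PowerSeries.coeff_zero_eq_constantCoeff_apply, PowerSeries.coeff_map,
      PowerSeries.coeff_zero_eq_constantCoeff_apply, hψ0, map_zero]
  have hi0' : PowerSeries.constantCoeff (toBall i hi1) = 0 :=
    Subtype.ext (by simpa [toBall, PowerSeries.coeff_zero_eq_constantCoeff_apply] using hhom.1)
  have hu0 : PowerSeries.constantCoeff u = 0 :=
    PowerSeries.constantCoeff_subst_eq_zero hψb0 _ hi0'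
  have hucl : ∀ k < E', ‖((PowerSeries.coeff k u : unitBall C) : C) - PowerSeries.coeff k i‖ ≤ εΞ := by
    intro k hk
    have := coeff_subst_close (u := toBall i hi1) hψb0 hεΞ.le (K := E') (fun m hm => ?_) hk
    · simpa [hu, toBall] using this
    · have hm' := norm_chi_pow_le hn P (hψv m (hm.trans_le (le_max_left _ _)))
      rw [← map_sub, ← PowerSeries.map_X (chiBall hn P), ← map_sub, PowerSeries.coeff_map, map_sub]
      exact hm'.trans (hN.le.trans ((min_le_right _ _).trans ((min_le_right _ _).trans (min_le_right _ _))))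
  have hmain := hΞb η P' hshift hηΞ u hu0
    (moved_hom hh hn hGh hi1 hhom (s l).toRingHom hP' hψhom) hucl
  have huy : ∀ j, peval (unitBall C).subtype u (y j) = μ j ^ (p ^ h) ^ l := by
    intro j
    rw [hu, peval_subst norm_subtype_le (hy1 j) hψb0, peval_map, subtype_chiBall, hψy, peval_toBall]
    have : ∀ m : ℕ, peval (RingHom.id C) i ((pMul F P)^[m] (z j)) = μ j ^ (p ^ h) ^ m := by
      intro m
      induction m with
      | zero => simp [hμ, hz, period]
      | succ m ih =>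
        rw [Function.iterate_succ_apply', peval_pMul hh hn hGh hi1 hhom
          ((norm_iterate_pMul_le hn m (hz1 j)).trans_lt (hz1 j)), ih, ← pow_mul, ← pow_succ]
    exact this l
  -- conclusion
  set ν : Fin (n - h) → C := fun j => eval η (Ξ j) with hν
  set κ : Fin (n - h) → C := fun j => μ j ^ (p ^ h) ^ l with hκ
  have hν1 : ‖ν‖ ≤ 1 := (pi_norm_le_iff_of_nonneg zero_le_one).2 fun j => by
    have h1 := norm_eval_sub_const_le (Ξ j) hη1
    rw [hΞ0, sub_zero] at h1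
    refine h1.trans ?_
    have h2 : ‖η‖ ≤ 1 / (B + 1) :=
      hηδ.trans ((min_le_right _ _).trans ((min_le_right _ _).trans (min_le_left _ _)))
    rw [le_div_iff₀ (by linarith)] at h2
    have h3 : polyNorm (Ξ j - MvPolynomial.C (coeff 0 (Ξ j))) ≤ B :=
      Finset.single_le_sum (fun u _ => polyNorm_nonneg (Ξ u - MvPolynomial.C (coeff 0 (Ξ u))))
        (Finset.mem_univ j)
    rw [hΞ0] at h3
    nlinarith [norm_nonneg η]
  have hκ1 : ‖κ‖ ≤ 1 := (pi_norm_le_iff_of_nonneg zero_le_one).2 fun j => by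
    rw [hκ, norm_pow]; exact pow_le_one₀ (norm_nonneg _) (hμ1 j).le
  have hdiff : ‖κ - ν‖ ≤ KΞ * ‖η‖ ^ E :=
    (pi_norm_le_iff_of_nonneg (mul_nonneg hKΞ (by positivity))).2 fun j => by
      show ‖μ j ^ (p ^ h) ^ l - eval η (Ξ j)‖ ≤ _
      rw [← huy j]
      exact (hmain j).trans (mul_le_mul_of_nonneg_left (pow_le_pow_of_le_one (norm_nonneg _) hη1 hEE) hKΞ)
  have hchi : P'.chi f₀ = 0 := by
    rw [hP']
    refine hJP _ ?_
    rw [← hJ (s l) hs]
    exact Ideal.mem_map_of_mem _ hf₀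
  have hTη : ‖eval η T‖ ≤ ‖η‖ ^ E := by simpa [hchi] using hT η P' hshift hηp
  have hνv : ‖eval ν v‖ ≤ max |Kv| 1 * ‖η‖ ^ E := by
    rw [← sub_add_cancel (eval ν v) (eval η T)]
    refine (IsUltrametricDist.norm_add_le_max _ _).trans (max_le ?_ ?_)
    · rw [norm_sub_rev]
      exact (hKv η hη1).trans (mul_le_mul_of_nonneg_right ((le_abs_self _).trans (le_max_left _ _))
        (by positivity))
    · exact hTη.trans (le_mul_of_one_le_left (by positivity) (le_max_right _ _))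
  have hall : ‖eval κ v‖ ≤ max |Kv| (max 1 (Kw * KΞ)) * ‖η‖ ^ E := by
    rw [← sub_add_cancel (eval κ v) (eval ν v)]
    refine (IsUltrametricDist.norm_add_le_max _ _).trans (max_le ?_ ?_)
    · refine (hKw κ ν hκ1 hν1).trans ((mul_le_mul_of_nonneg_left hdiff hKw0).trans ?_)
      rw [← mul_assoc]
      exact mul_le_mul_of_nonneg_right ((le_max_right _ _).trans (le_max_right _ _)) (by positivity)
    · exact hνv.trans (mul_le_mul_of_nonneg_right (max_le (le_max_left _ _)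
        ((le_max_left _ _).trans (le_max_right _ _))) (by positivity))
  refine hall.trans ?_
  rw [mul_assoc, pow_mul, ← mul_pow]
  exact mul_le_mul_of_nonneg_left (pow_le_pow_left₀ (norm_nonneg _) hρ E)
    (le_max_of_le_left (abs_nonneg _))

end Vale.Agent.P217.EF
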