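import Vale.Agent.P217.EF.Cover2
import Vale.Agent.P217.EF.ChartPins

/-!
# P217, block EF: the period map
-/

noncomputable section

namespace Vale.Agent.P217.EF

open Filter Topology Eval

variable {p : ℕ} [Fact p.Prime] {n h : ℕ} {C : Type} [NontriviallyNormedField C]
  [IsUltrametricDist C]

/-- A series with coefficients of norm at most 1, over the unit ball. -/
def toBall (i : PowerSeries C) (hi : ∀ k, ‖PowerSeries.coeff k i‖ ≤ 1) : PowerSeries (unitBall C) :=
  PowerSeries.mk fun k => ⟨PowerSeries.coeff k i, hi k⟩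

theorem map_toBall (i : PowerSeries C) (hi : ∀ k, ‖PowerSeries.coeff k i‖ ≤ 1) :
    PowerSeries.map (unitBall C).subtype (toBall i hi) = i := by
  ext k; simp [toBall]

theorem peval_toBall (i : PowerSeries C) (hi : ∀ k, ‖PowerSeries.coeff k i‖ ≤ 1) (y : C) :
    peval (unitBall C).subtype (toBall i hi) y = peval (RingHom.id C) i y := by
  conv_rhs => rw [← map_toBall i hi, peval_map, RingHom.id_comp]

omit [IsUltrametricDist C] in
theorem isHom_reflect {R S : Type} [CommRing R] [CommRing S] (f : R →+* S)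
    (hf : Function.Injective f) {G G' : FormalGroup R} {i : PowerSeries R}
    (hi : IsHom (G.map f) (G'.map f) (PowerSeries.map f i)) : IsHom G G' i := by
  have hi0 : PowerSeries.constantCoeff i = 0 := hf (by
    rw [map_zero, ← PowerSeries.coeff_zero_eq_constantCoeff_apply, ← PowerSeries.coeff_map,
      PowerSeries.coeff_zero_eq_constantCoeff_apply]
    exact hi.1)
  refine ⟨hi0, MvPowerSeries.ext fun k => hf ?_⟩
  have hX : ∀ u : Fin 2, PowerSeries.HasSubst (MvPowerSeries.X u : MvPowerSeries (Fin 2) R) :=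
    fun u => PowerSeries.HasSubst.of_constantCoeff_zero (MvPowerSeries.constantCoeff_X u)
  have hz : ∀ u : Fin 2, (![PowerSeries.subst (MvPowerSeries.X 0 : MvPowerSeries (Fin 2) R) i,
      PowerSeries.subst (MvPowerSeries.X 1 : MvPowerSeries (Fin 2) R) i] u).constantCoeff = 0 :=
    fun u => by
      fin_cases u <;>
        exact PowerSeries.constantCoeff_subst_eq_zero (MvPowerSeries.constantCoeff_X _) _ hi0
  rw [← MvPowerSeries.coeff_map, ← MvPowerSeries.coeff_map,
    PowerSeries.map_subst (PowerSeries.HasSubst.of_constantCoeff_zero G.zero_constantCoeff),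
    MvPowerSeries.map_subst (MvPowerSeries.hasSubst_of_constantCoeff_zero hz)]
  refine (congrArg (MvPowerSeries.coeff k) hi.2).trans ?_
  congr 2
  funext u
  fin_cases u <;> simp [PowerSeries.map_subst (hX _)]

/-- The coefficient map at a point, into the unit ball. -/
def chiBall (hn : 1 ≤ n) (P : GoodPoint p n h C) : E0 p n →+* unitBall C :=
  P.chi.codRestrict (unitBall C) (norm_chi_le hn P)

theorem subtype_chiBall (hn : 1 ≤ n) (P : GoodPoint p n h C) :
    (unitBall C).subtype.comp (chiBall hn P) = P.chi := RingHom.ext fun _ => rfl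

variable [CompleteSpace C] [CharP C p] {F : FormalGroup (E0 p n)} {P : GoodPoint p n h C}
  {Gh : FormalGroup ℤ_[p]} {i : PowerSeries C}

/-- The Honda law over the unit ball. -/
def castBall (p : ℕ) [Fact p.Prime] (C : Type) [NontriviallyNormedField C] [IsUltrametricDist C]
    [CharP C p] : ℤ_[p] →+* unitBall C :=
  (EF.cast p C).codRestrict (unitBall C) norm_cast_le

omit [CompleteSpace C] in
theorem subtype_castBall : (unitBall C).subtype.comp (castBall p C) = EF.cast p C :=
  RingHom.ext fun _ => rfl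

omit [CompleteSpace C] in
theorem isHom_ball (hn : 1 ≤ n) (hi1 : ∀ k, ‖PowerSeries.coeff k i‖ ≤ 1)
    (hhom : IsHom (lawAt F P) (hondaIn Gh C) i) :
    IsHom (F.map (chiBall hn P)) (Gh.map (castBall p C)) (toBall i hi1) := by
  refine isHom_reflect (unitBall C).subtype Subtype.val_injective ?_
  rw [map_toBall]
  convert hhom using 1 <;>
    · refine FormalGroup.ext (MvPowerSeries.ext fun k => ?_)
      simp only [FormalGroup.map, MvPowerSeries.coeff_map, lawAt, hondaIn]
      rfl

omit [CompleteSpace C] in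
theorem castBall_nsmul (hh : 1 ≤ h) (hG : IsHondaLift h Gh) :
    nsmulSeries (Gh.map (castBall p C)) p = (PowerSeries.X : PowerSeries (unitBall C)) ^ p ^ h := by
  have e : castBall p C = (ZMod.castHom (dvd_refl p) (unitBall C)).comp PadicInt.toZMod :=
    hom_padicInt_eq _
  rw [← (map_nsmulSeries Gh _ p).2, e, PowerSeries.map_comp, RingHom.comp_apply,
    honda_nsmul_p hh hG, map_pow, PowerSeries.map_X]

omit [CompleteSpace C] in
/-- A hom to the Honda law turns multiplication by p into the Q-th power. -/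
theorem subst_nsmul_of_hom (hh : 1 ≤ h) (hG : IsHondaLift h Gh) {G : FormalGroup (unitBall C)}
    {u : PowerSeries (unitBall C)} (hu : IsHom G (Gh.map (castBall p C)) u) :
    PowerSeries.subst (nsmulSeries G p) u = u ^ p ^ h := by
  rw [(hom_nsmul hu.1 hu.2 p).2.2, castBall_nsmul hh hG,
    PowerSeries.subst_pow (PowerSeries.HasSubst.of_constantCoeff_zero' hu.1),
    PowerSeries.subst_X (PowerSeries.HasSubst.of_constantCoeff_zero' hu.1)]

/-- The value of the hom turns multiplication by p into the Q-th power. -/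
theorem peval_pMul (hh : 1 ≤ h) (hn : 1 ≤ n) (hG : IsHondaLift h Gh)
    (hi1 : ∀ k, ‖PowerSeries.coeff k i‖ ≤ 1) (hhom : IsHom (lawAt F P) (hondaIn Gh C) i)
    {y : C} (hy : ‖y‖ < 1) :
    peval (RingHom.id C) i (pMul F P y) = peval (RingHom.id C) i y ^ p ^ h := by
  have hb := isHom_ball hn hi1 hhom
  have e := congrArg (fun g => peval (unitBall C).subtype g y) (subst_nsmul_of_hom hh hG hb)
  rw [peval_subst norm_subtype_le hy (constantCoeff_nsmulSeries _ _)] at e
  rw [pMul, ← peval_toBall i hi1, ← peval_toBall i hi1]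
  rw [← (map_nsmulSeries F _ p).2, peval_map, subtype_chiBall] at e
  rw [e, peval_eq_evalHom norm_subtype_le hy, peval_eq_evalHom norm_subtype_le hy]
  exact map_pow _ _ _

theorem peval_vadd (hn : 1 ≤ n) (hi1 : ∀ k, ‖PowerSeries.coeff k i‖ ≤ 1)
    (hhom : IsHom (lawAt F P) (hondaIn Gh C) i) {a b : C} (ha : ‖a‖ < 1) (hb : ‖b‖ < 1) :
    peval (RingHom.id C) i (vadd P.chi F a b) =
      vadd (EF.cast p C) Gh (peval (RingHom.id C) i a) (peval (RingHom.id C) i b) := by
  have h1 := isHom_ball hn hi1 hhom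
  have e1 : vadd (unitBall C).subtype (F.map (chiBall hn P)) a b = vadd P.chi F a b := by
    rw [← subtype_chiBall hn P]; simp [vadd, FormalGroup.map, mveval_map]
  have e2 : ∀ u v : C, vadd (unitBall C).subtype (Gh.map (castBall p C)) u v =
      vadd (EF.cast p C) Gh u v := fun u v => by
    rw [← subtype_castBall]; simp [vadd, FormalGroup.map, mveval_map]
  rw [← peval_toBall i hi1, ← peval_toBall i hi1, ← peval_toBall i hi1, ← e1, ← e2]
  exact hom_vadd norm_subtype_le h1 ha hb

omit [CompleteSpace C] [CharP C p] in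
theorem norm_peval_id_lt (hi1 : ∀ k, ‖PowerSeries.coeff k i‖ ≤ 1)
    (hi0 : PowerSeries.constantCoeff i = 0) {y : C} (hy : ‖y‖ < 1) :
    ‖peval (RingHom.id C) i y‖ < 1 := by
  rw [← peval_toBall i hi1]
  refine (norm_peval_le norm_subtype_le hy.le _ ?_).trans_lt hy
  exact Subtype.ext (by simpa [toBall, PowerSeries.coeff_zero_eq_constantCoeff_apply] using hi0)

omit [CompleteSpace C] [CharP C p] in
theorem norm_peval_id_sub_le [CompleteSpace C] (hi1 : ∀ k, ‖PowerSeries.coeff k i‖ ≤ 1) {a b : C}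
    (ha : ‖a‖ < 1) (hb : ‖b‖ < 1) {δ : ℝ} (hab : ‖a - b‖ ≤ δ) :
    ‖peval (RingHom.id C) i a - peval (RingHom.id C) i b‖ ≤ δ := by
  rw [← peval_toBall i hi1, ← peval_toBall i hi1]
  exact norm_peval_sub_le norm_subtype_le norm_subtype_le ha hb
    (fun k => by rw [sub_self, norm_zero]; exact (norm_nonneg _).trans hab) hab

omit [CharP C p] in
/-- A series with nonzero linear term is onto a small disc. -/
theorem exists_small_preimage [IsAlgClosed C] (hi1 : ∀ k, ‖PowerSeries.coeff k i‖ ≤ 1)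
    (hi0 : PowerSeries.constantCoeff i = 0) (ha : PowerSeries.coeff 1 i ≠ 0) {w : C}
    (hw : ‖w‖ < ‖PowerSeries.coeff 1 i‖ ^ 2) :
    ∃ b, ‖b‖ < 1 ∧ peval (RingHom.id C) i b = w := by
  set a := PowerSeries.coeff 1 i with ha'
  rcases eq_or_ne w 0 with rfl | hw0
  · refine ⟨0, by simp, ?_⟩
    rw [peval, tsum_eq_single 0 fun k hk => by simp [hk]]
    simp [hi0]
  have hapos : 0 < ‖a‖ := norm_pos_iff.2 ha
  have hle1 : ‖a‖ ≤ 1 := hi1 1
  let g : ℕ → C := fun k => if k = 0 then -w / a ^ 2 else PowerSeries.coeff k i * a ^ k / a ^ 2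
  have hg0 : ‖g 0‖ < 1 := by
    simp only [g, if_pos rfl, norm_div, norm_neg, norm_pow]
    rwa [div_lt_one (pow_pos hapos 2)]
  have hg : ∀ k, ‖g k‖ ≤ 1 := by
    intro k
    rcases Nat.lt_or_ge k 2 with hk | hk
    · interval_cases k
      · exact hg0.le
      · simp only [g, if_neg one_ne_zero, pow_one, ← ha', ← sq]
        rw [div_self (pow_ne_zero 2 ha), norm_one]
    · simp only [g, if_neg (by omega : k ≠ 0), norm_div, norm_mul, norm_pow]
      rw [div_le_one (pow_pos hapos 2)]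
      calc ‖PowerSeries.coeff k i‖ * ‖a‖ ^ k ≤ 1 * ‖a‖ ^ 2 :=
            mul_le_mul (hi1 k) (pow_le_pow_of_le_one hapos.le hle1 hk) (by positivity) zero_le_one
        _ = ‖a‖ ^ 2 := one_mul _
  let f : PowerSeries (unitBall C) := PowerSeries.mk fun k => ⟨g k, hg k⟩
  have hfc : ∀ k, ((PowerSeries.coeff k f : unitBall C) : C) = g k := fun k => by simp [f]
  obtain ⟨y, hy, hy0⟩ := exists_zero f (c := ⟨g 0, hg 0⟩)
    (by simp [g, hw0, ha]) hg0 Nat.one_pos
    (fun k hk => by rw [hfc, Nat.lt_one_iff.1 hk])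
    (by rw [hfc]; simp only [g, if_neg one_ne_zero, pow_one, ← ha', ← sq]
        rw [div_self (pow_ne_zero 2 ha), norm_one])
  have hay : ‖a * y‖ < 1 := by
    rw [norm_mul]; exact (mul_le_of_le_one_left (norm_nonneg _) hle1).trans_lt hy
  refine ⟨a * y, hay, ?_⟩
  have s1 := hasSum_peval (j := (unitBall C).subtype) norm_subtype_le f hy
  have s2 := hasSum_peval (j := (unitBall C).subtype) norm_subtype_le (toBall i hi1) hay
  rw [peval_toBall] at s2
  have s3 : HasSum (fun k : ℕ => if k = 0 then w else 0) w := hasSum_ite_eq 0 w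
  have e := ((s2.sub s3).div_const (a ^ 2)).unique (s1.congr_fun fun k => ?_)
  · rw [hy0, div_eq_zero_iff, or_iff_left (pow_ne_zero 2 ha), sub_eq_zero] at e
    exact e
  · simp only [Subring.coe_subtype, hfc, toBall, PowerSeries.coeff_mk, g]
    rcases eq_or_ne k 0 with rfl | hk
    · simp [hi0, neg_div]
    · simp only [if_neg hk]
      ring

variable [IsAlgClosed C] {Gn : FormalGroup ℤ_[p]}

/-- The period map of a hom. -/
def period (F : FormalGroup (E0 p n)) (P : GoodPoint p n h C) (i : PowerSeries C) (z : C) : C :=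
  peval (RingHom.id C) i (piMap F P z)

theorem period_pow (hF : IsUniversalDeformation p n F) (hh : 1 ≤ h) (hhn : h ≤ n)
    (hGn : IsHondaLift n Gn) (hGh : IsHondaLift h Gh)
    (hi1 : ∀ k, ‖PowerSeries.coeff k i‖ ≤ 1) (hhom : IsHom (lawAt F P) (hondaIn Gh C) i)
    {z : C} (hz : ‖z‖ < 1) : period F P i (z ^ p ^ n) = period F P i z ^ p ^ h := by
  have H : PMulShape F P := pMulShape hF hh hhn hGn
  rw [period, period, piMap_pow H hh hz,
    peval_pMul hh (hh.trans hhn) hGh hi1 hhom (norm_piMap_lt H hh hz)]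

theorem period_pow_iterate (hF : IsUniversalDeformation p n F) (hh : 1 ≤ h) (hhn : h ≤ n)
    (hGn : IsHondaLift n Gn) (hGh : IsHondaLift h Gh)
    (hi1 : ∀ k, ‖PowerSeries.coeff k i‖ ≤ 1) (hhom : IsHom (lawAt F P) (hondaIn Gh C) i)
    (m : ℕ) {z : C} (hz : ‖z‖ < 1) :
    period F P i (z ^ p ^ (n * m)) = period F P i z ^ (p ^ h) ^ m := by
  induction m with
  | zero => simp
  | succ m ih =>
    rw [show n * (m + 1) = n * m + n by ring, pow_add, pow_mul, period_pow hF hh hhn hGn hGh hi1 hhom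
      (by rw [norm_pow]; exact pow_lt_one₀ (norm_nonneg _) hz
            (pow_pos (Fact.out : p.Prime).pos _).ne'), ih, ← pow_mul, ← pow_succ]

theorem norm_period_lt (hF : IsUniversalDeformation p n F) (hh : 1 ≤ h) (hhn : h ≤ n)
    (hGn : IsHondaLift n Gn) (hi1 : ∀ k, ‖PowerSeries.coeff k i‖ ≤ 1)
    (hhom : IsHom (lawAt F P) (hondaIn Gh C) i) {z : C} (hz : ‖z‖ < 1) :
    ‖period F P i z‖ < 1 :=
  norm_peval_id_lt hi1 hhom.1 (norm_piMap_lt (pMulShape hF hh hhn hGn) hh hz)

theorem period_surjective (hF : IsUniversalDeformation p n F) (hh : 1 ≤ h) (hhn : h ≤ n)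
    (hGn : IsHondaLift n Gn) (hGh : IsHondaLift h Gh)
    (hi1 : ∀ k, ‖PowerSeries.coeff k i‖ ≤ 1) (hhom : IsHom (lawAt F P) (hondaIn Gh C) i)
    (ha : PowerSeries.coeff 1 i ≠ 0) {w : C} (hw : ‖w‖ < 1) :
    ∃ z, ‖z‖ < 1 ∧ period F P i z = w := by
  have hp : 2 ≤ p ^ h := (Fact.out : p.Prime).two_le.trans (Nat.le_self_pow (by omega) p)
  obtain ⟨m, hm⟩ := exists_pow_lt_of_lt_one (pow_pos (norm_pos_iff.2 ha) 2) hw
  have hm' : ‖w ^ (p ^ h) ^ m‖ < ‖PowerSeries.coeff 1 i‖ ^ 2 := by
    rw [norm_pow]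
    exact (pow_le_pow_of_le_one (norm_nonneg _) hw.le (Nat.lt_pow_self hp).le).trans_lt hm
  obtain ⟨b, hb, hbw⟩ := exists_small_preimage hi1 hhom.1 ha hm'
  obtain ⟨z, hz, hzb⟩ := piMap_surjective (P := P) hF hh hhn hGn hb
  refine ⟨root p n m z, norm_root_lt hz, pow_injective_char (p := p) (h * m) ?_⟩
  simp only [pow_mul]
  rw [← period_pow_iterate hF hh hhn hGn hGh hi1 hhom m (norm_root_lt hz), root_pow, period, hzb,
    hbw]

/-- The period data. -/
theorem exists_periodData (hLin : LinearisedPin) (T : Untilt p C)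
    (hF : IsUniversalDeformation p n F) (hh : 1 ≤ h) (hhn : h < n) (hGn : IsHondaLift n Gn)
    (hGh : IsHondaLift h Gh) (a : ℕ → C) (ha1 : ∀ j, ‖a j‖ ≤ 1) (hi : i = digitSeries p (hondaIn Gh C) a)
    (hi1 : ∀ k, ‖PowerSeries.coeff k i‖ ≤ 1) (hhom : IsHom (lawAt F P) (hondaIn Gh C) i)
    (hlin : PowerSeries.coeff 1 i ≠ 0) (ξ : Fin (n - h) → C) (hξ : ∀ j, ‖ξ j‖ < 1)
    (hindep : ∀ c : Fin (n - h) → ℤ_[p],
      (∀ ε : ℝ, 0 < ε → ∃ N, ∀ m, N ≤ m → ‖pointSum (hondaIn Gn C)
        (List.ofFn fun j => nPoint (hondaIn Gn C) ((c j).appr m) (ξ j))‖ < ε) → c = 0) :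
    ∃ D : PeriodData p n h C T Gn Gh, D.xi = ξ ∧ D.Phi = period F P i := by
  have H : PMulShape F P := pMulShape hF hh hhn.le hGn
  obtain ⟨M, hM⟩ := hLin p n h C T Gn Gh hh hhn hGn hGh F hF P a ha1 (hi ▸ hhom) (period F P i)
    (fun z hz => norm_period_lt hF hh hhn.le hGn hi1 hhom hz)
    (fun z hz => period_pow hF hh hhn.le hGn hGh hi1 hhom hz)
    (fun z hz => by
      rw [period, ← hi]
      exact norm_peval_id_sub_le hi1 (norm_piMap_lt H hh hz) hz (piMap_sub_self_le H hh hz))
  refine ⟨{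
    xi := ξ
    xi_small := hξ
    Phi := period F P i
    Phi_small := fun z hz => norm_period_lt hF hh hhn.le hGn hi1 hhom hz
    Phi_zero := ?_
    Phi_add := fun u v hu hv => ?_
    Phi_pow := fun z hz => period_pow hF hh hhn.le hGn hGh hi1 hhom hz
    Phi_surj := fun w hw => period_surjective hF hh hhn.le hGn hGh hi1 hhom hlin hw
    mat := M
    linearised := hM
    xi_indep := hindep }, rfl, rfl⟩
  · rw [period, piMap_zero H hh, peval, tsum_eq_single 0 fun k hk => by simp [hk]]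
    simp [hhom.1]
  · rw [gadd_honda, gadd_honda, period, period, period, piMap_add hF hh hhn.le hGn hu hv,
      peval_vadd (hh.trans hhn.le) hi1 hhom (norm_piMap_lt H hh hu) (norm_piMap_lt H hh hv)]

end Vale.Agent.P217.EF
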