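import Vale.Agent.P217.EF.Basic

/-!
# P217, block EF: points and the roots of order q ^ m
-/

noncomputable section

namespace Vale.Agent.P217.EF

open Filter Topology

variable {p : ℕ} [Fact p.Prime] {n h : ℕ} {C : Type} [NontriviallyNormedField C]
  [IsUltrametricDist C]

omit [IsUltrametricDist C] in
theorem norm_eq_of_fixed {k : ℕ} (hk : 1 ≤ k) {x : C} (hx : x ^ p ^ k = x) : ‖x‖ ≤ 1 := by
  by_contra hlt
  push Not at hlt
  have h2 : 2 ≤ p ^ k := (Fact.out : p.Prime).two_le.trans (Nat.le_self_pow (by omega) p)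
  have : ‖x‖ ^ 1 < ‖x‖ ^ p ^ k := pow_lt_pow_right₀ hlt (by omega)
  rw [pow_one, ← norm_pow, hx] at this
  exact lt_irrefl _ this

omit [IsUltrametricDist C] in
theorem emb_fixed (hn : 1 ≤ n) (P : GoodPoint p n h C) (x : GaloisField p n) :
    P.emb x ^ p ^ n = P.emb x := by
  have : Fintype (GaloisField p n) := Fintype.ofFinite _
  rw [← map_pow, ← GaloisField.card p n (by omega), Nat.card_eq_fintype_card, FiniteField.pow_card]

theorem mem_maximal_of_constantCoeff {a : E0 p n} (ha : MvPowerSeries.constantCoeff a = 0) :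
    a ∈ IsLocalRing.maximalIdeal (E0 p n) := by
  rw [IsLocalRing.mem_maximalIdeal]
  intro hu
  exact not_isUnit_zero (ha ▸ MvPowerSeries.isUnit_constantCoeff a hu)

omit [IsUltrametricDist C] in
theorem chi_sub_emb_le (P : GoodPoint p n h C) (a : E0 p n) :
    ‖P.chi a - P.emb (residue a)‖ ≤ (p : ℝ)⁻¹ := by
  have hm : a - constants (MvPowerSeries.constantCoeff a) ∈ IsLocalRing.maximalIdeal (E0 p n) :=
    mem_maximal_of_constantCoeff (by simp [constants])
  have := P.chi_small _ hm
  rwa [map_sub, P.chi_constants] at this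

theorem norm_chi_le (hn : 1 ≤ n) (P : GoodPoint p n h C) (a : E0 p n) : ‖P.chi a‖ ≤ 1 := by
  have e : P.chi a = (P.chi a - P.emb (residue a)) + P.emb (residue a) := (sub_add_cancel _ _).symm
  rw [e]
  refine (IsUltrametricDist.norm_add_le_max _ _).trans (max_le ?_ ?_)
  · refine (chi_sub_emb_le P a).trans (inv_le_one_of_one_le₀ ?_)
    exact_mod_cast (Fact.out : p.Prime).one_le
  · exact norm_eq_of_fixed hn (emb_fixed hn P _)

theorem inv_prime_lt_one : (p : ℝ)⁻¹ < 1 :=
  inv_lt_one_of_one_lt₀ (by exact_mod_cast (Fact.out : p.Prime).one_lt)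

theorem inv_prime_pos : (0 : ℝ) < (p : ℝ)⁻¹ :=
  inv_pos.2 (by exact_mod_cast (Fact.out : p.Prime).pos)

omit [IsUltrametricDist C] in
theorem chi_vv_n (P : GoodPoint p n h C) : P.chi (vv p n n) = 1 := by
  rw [vv, dif_neg (by omega), if_pos rfl, map_one]

omit [IsUltrametricDist C] in
theorem vv_mem_maximal {i : ℕ} (hi : i < n) : vv p n i ∈ IsLocalRing.maximalIdeal (E0 p n) := by
  apply mem_maximal_of_constantCoeff
  by_cases h1 : 1 ≤ i
  · rw [vv, dif_pos ⟨h1, hi⟩, MvPowerSeries.constantCoeff_X]
  · rw [vv, dif_neg (by omega), if_neg (by omega), map_zero]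

variable [CharP C p]

omit [IsUltrametricDist C] in
theorem chi_p (P : GoodPoint p n h C) : P.chi (p : E0 p n) = 0 := by
  rw [map_natCast, CharP.cast_eq_zero]

variable [IsAlgClosed C]

/-- The root of order q ^ m, for q = p ^ n. -/
def root (p n : ℕ) [Fact p.Prime] [CharP C p] (m : ℕ) (z : C) : C :=
  (frobeniusEquiv C p).symm^[n * m] z

omit [IsUltrametricDist C] in
theorem root_pow (m : ℕ) (z : C) : root p n m z ^ p ^ (n * m) = z := by
  exact iterate_frobeniusEquiv_symm_pow_p_pow C p z (n * m)

omit [IsUltrametricDist C] [IsAlgClosed C] in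
theorem pow_injective_char (k : ℕ) : Function.Injective fun x : C => x ^ p ^ k := by
  intro x y hxy
  have := iterateFrobenius_inj C p k
  exact this (by simpa only [iterateFrobenius_def] using hxy)

omit [IsUltrametricDist C] in
theorem root_zero (m : ℕ) : root p n m (0 : C) = 0 :=
  pow_injective_char (p := p) (n * m) (by
    simp only [root_pow, zero_pow (pow_ne_zero _ (Fact.out : p.Prime).ne_zero)])

omit [IsUltrametricDist C] in
theorem root_zero_index (z : C) : root p n 0 z = z := by simp [root]

omit [IsUltrametricDist C] in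
theorem root_succ_pow (m : ℕ) (z : C) : root p n (m + 1) z ^ p ^ n = root p n m z :=
  pow_injective_char (p := p) (n * m) (by
    simp only [← pow_mul, ← pow_add, root_pow]
    rw [show n + n * m = n * (m + 1) by ring, root_pow])

omit [IsUltrametricDist C] in
theorem root_succ_of_pow (m : ℕ) (z : C) : root p n (m + 1) (z ^ p ^ n) = root p n m z :=
  pow_injective_char (p := p) (n * (m + 1)) (by
    simp only [root_pow]
    rw [show n * (m + 1) = n * m + n by ring, pow_add, pow_mul, root_pow])

omit [IsUltrametricDist C] in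
theorem norm_root_lt {m : ℕ} {z : C} (hz : ‖z‖ < 1) : ‖root p n m z‖ < 1 := by
  by_contra hge
  push Not at hge
  have := one_le_pow₀ (n := p ^ (n * m)) hge
  rw [← norm_pow, root_pow] at this
  linarith

end Vale.Agent.P217.EF
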