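import Vale.Agent.P217.EF.ChartMap

/-!
# P217, block EF: the point moved by a symmetry and the moved period map
-/

noncomputable section

namespace Vale.Agent.P217.EF

open Filter Topology Eval

variable {p : ℕ} [Fact p.Prime] {n h : ℕ} {C : Type} [NontriviallyNormedField C]
  [IsUltrametricDist C]

theorem chi_eq_one_norm (hn : 1 ≤ n) (P : GoodPoint p n h C) {a : E0 p n} (ha : IsUnit a) :
    ‖P.chi a‖ = 1 := by
  obtain ⟨b, hb⟩ := isUnit_iff_exists_inv.1 ha
  refine le_antisymm (norm_chi_le hn P a) ?_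
  have h1 : ‖P.chi a‖ * ‖P.chi b‖ = 1 := by rw [← norm_mul, ← map_mul, hb, map_one, norm_one]
  exact h1 ▸ mul_le_of_le_one_right (norm_nonneg _) (norm_chi_le hn P b)

theorem norm_chi_pow_le (hn : 1 ≤ n) (P : GoodPoint p n h C) {N : ℕ} {a : E0 p n}
    (ha : a ∈ IsLocalRing.maximalIdeal (E0 p n) ^ N) : ‖P.chi a‖ ≤ ((p : ℝ)⁻¹) ^ N :=
  norm_le_pow_of_mem inv_prime_pos.le P.chi_small
    (fun u v _ hu hv => (IsUltrametricDist.norm_add_le_max u v).trans (max_le hu hv)) N a ha
    (norm_chi_le hn P)

omit [IsUltrametricDist C] in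
/-- The point moved by a symmetry. -/
theorem exists_symm_point [CharP C p] (P : GoodPoint p n h C) (hh : 1 ≤ h) {F : FormalGroup (E0 p n)}
    (hInv : IsInvariantIdeal F (heightIdeal p n h)) (s : E0 p n ≃+* E0 p n) (hs : IsSymmetry F s)
    (hcst : ∀ a, s (constants a) = constants a) (hne : P.chi (s (vv p n h)) ≠ 0) :
    ∃ P' : GoodPoint p n h C, P'.emb = P.emb ∧ ∀ a, P'.chi a = P.chi (s a) := by
  refine ⟨{
    chi := P.chi.comp s.toRingHom
    emb := P.emb
    chi_constants := fun a => by
      simp only [RingHom.comp_apply, RingEquiv.toRingHom_eq_coe, RingEquiv.coe_toRingHom, hcst]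
      exact P.chi_constants a
    chi_zero := fun i hi => ?_
    chi_h := hne
    chi_small := fun a ha => P.chi_small _ ?_ }, rfl, fun a => rfl⟩
  · have hmem : vv p n i ∈ heightIdeal p n h := by
      rcases Nat.eq_zero_or_pos i with rfl | h0
      · by_cases hn : n = 0
        · subst hn
          have : vv p 0 0 = 1 := by simp [vv]
          exact absurd (P.chi_zero 0 hi) (by rw [this, map_one]; exact one_ne_zero)
        · rw [vv, dif_neg (by omega), if_neg (Ne.symm hn)]
          exact zero_mem _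
      · rw [heightIdeal, if_neg (by omega)]
        exact Ideal.subset_span (Set.mem_insert_of_mem _ ⟨i, h0, hi, rfl⟩)
    have hmap := Ideal.mem_map_of_mem s.toRingHom hmem
    rw [hInv s hs] at hmap
    exact heightIdeal_le_ker hh P hmap
  · rw [IsLocalRing.mem_maximalIdeal, mem_nonunits_iff] at ha ⊢
    intro hu
    exact ha (by simpa using hu.map s.symm.toRingHom)

/-- Substituting a series close to X changes coefficients little. -/
theorem coeff_subst_close {u ψ : PowerSeries (unitBall C)} (hψ0 : PowerSeries.constantCoeff ψ = 0)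
    {ε : ℝ} (hε : 0 ≤ ε) {K : ℕ}
    (hψ : ∀ k < K, ‖((PowerSeries.coeff k ψ - PowerSeries.coeff k PowerSeries.X : unitBall C) : C)‖ ≤ ε)
    {k : ℕ} (hk : k < K) :
    ‖((PowerSeries.coeff k (PowerSeries.subst ψ u) : unitBall C) : C) -
      ((PowerSeries.coeff k u : unitBall C) : C)‖ ≤ ε := by
  let I : Ideal (unitBall C) :=
    { carrier := {x | ‖(x : C)‖ ≤ ε}
      add_mem' := fun {a b} ha hb =>
        (IsUltrametricDist.norm_add_le_max (a : C) (b : C)).trans (max_le ha hb)
      zero_mem' := by simpa using hε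
      smul_mem' := fun c x hx => by
        show ‖((c * x : unitBall C) : C)‖ ≤ ε
        rw [Subring.coe_mul, norm_mul]
        exact le_trans (mul_le_of_le_one_left (norm_nonneg _) c.2) hx }
  have hdvd : (PowerSeries.X : PowerSeries (unitBall C ⧸ I)) ^ K ∣
      PowerSeries.map (Ideal.Quotient.mk I) ψ - PowerSeries.X := by
    rw [PowerSeries.X_pow_dvd_iff]
    intro m hm
    rw [← PowerSeries.map_X (Ideal.Quotient.mk I), ← map_sub, PowerSeries.coeff_map,
      Ideal.Quotient.eq_zero_iff_mem, map_sub]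
    exact hψ m hm
  suffices e : Ideal.Quotient.mk I (PowerSeries.coeff k (PowerSeries.subst ψ u)) =
      Ideal.Quotient.mk I (PowerSeries.coeff k u) by
    have := Ideal.Quotient.eq.1 e
    exact this
  have hψs := PowerSeries.HasSubst.of_constantCoeff_zero' hψ0
  have hψs' : PowerSeries.HasSubst (PowerSeries.map (Ideal.Quotient.mk I) ψ) :=
    PowerSeries.HasSubst.of_constantCoeff_zero' (by
      rw [← PowerSeries.coeff_zero_eq_constantCoeff_apply, PowerSeries.coeff_map,
        PowerSeries.coeff_zero_eq_constantCoeff_apply, hψ0, map_zero])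
  rw [← PowerSeries.coeff_map, ← PowerSeries.coeff_map,
    show PowerSeries.map (Ideal.Quotient.mk I) (PowerSeries.subst ψ u) =
      PowerSeries.subst (PowerSeries.map (Ideal.Quotient.mk I) ψ)
        (PowerSeries.map (Ideal.Quotient.mk I) u) from PowerSeries.map_subst hψs u]
  conv_rhs => rw [← PowerSeries.X_subst (PowerSeries.map (Ideal.Quotient.mk I) u)]
  rw [PowerSeries.coeff_subst' hψs', PowerSeries.coeff_subst' PowerSeries.HasSubst.X']
  refine finsum_congr fun d => ?_
  congr 1
  have := PowerSeries.X_pow_dvd_iff.1 (hdvd.trans (sub_dvd_pow_sub_pow _ _ d)) k hk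
  rwa [map_sub, sub_eq_zero] at this

variable [CompleteSpace C] [CharP C p] {F : FormalGroup (E0 p n)} {P P' : GoodPoint p n h C}
  {Gh : FormalGroup ℤ_[p]} {i : PowerSeries C}

omit [CompleteSpace C] in
/-- The moved series turns multiplication by p into the Q-th power. -/
theorem moved_hom (hh : 1 ≤ h) (hn : 1 ≤ n) (hG : IsHondaLift h Gh)
    (hi1 : ∀ k, ‖PowerSeries.coeff k i‖ ≤ 1) (hhom : IsHom (lawAt F P) (hondaIn Gh C) i)
    (s : E0 p n →+* E0 p n) (hs : ∀ a, P'.chi a = P.chi (s a))
    {ψ : PowerSeries (E0 p n)} (hψ : IsHom (F.map s) F ψ) :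
    PowerSeries.subst (nsmulSeries (F.map (chiBall hn P')) p)
        (PowerSeries.subst (PowerSeries.map (chiBall hn P) ψ) (toBall i hi1)) =
      PowerSeries.subst (PowerSeries.map (chiBall hn P) ψ) (toBall i hi1) ^ p ^ h := by
  have hb := isHom_ball hn hi1 hhom
  have e0 := subst_nsmul_of_hom hh hG hb
  set g := chiBall hn P with hg
  set ψb := PowerSeries.map g ψ with hψb
  have hψb0 : PowerSeries.constantCoeff ψb = 0 := by
    rw [hψb, ← PowerSeries.coeff_zero_eq_constantCoeff_apply, PowerSeries.coeff_map,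
      PowerSeries.coeff_zero_eq_constantCoeff_apply, hψ.1, map_zero]
  have hNs : ∀ {R : Type} [CommRing R] (G : FormalGroup R), PowerSeries.HasSubst (nsmulSeries G p) :=
    fun G => PowerSeries.HasSubst.of_constantCoeff_zero' (constantCoeff_nsmulSeries G p)
  have hψs := PowerSeries.HasSubst.of_constantCoeff_zero' hψb0
  have e1 : PowerSeries.subst (nsmulSeries (F.map (chiBall hn P')) p) ψb =
      PowerSeries.subst ψb (nsmulSeries (F.map g) p) := by
    have hchi : chiBall hn P' = g.comp s := RingHom.ext fun a => Subtype.ext (hs a)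
    rw [hchi, ← (map_nsmulSeries F (g.comp s) p).2, ← (map_nsmulSeries F g p).2,
      PowerSeries.map_comp, RingHom.comp_apply, (map_nsmulSeries F s p).2]
    have := congrArg (PowerSeries.map g) (hom_nsmul hψ.1 hψ.2 p).2.2
    exact (PowerSeries.map_subst (hNs _) ψ).symm.trans (this.trans
      (PowerSeries.map_subst (PowerSeries.HasSubst.of_constantCoeff_zero' hψ.1) _))
  rw [PowerSeries.subst_comp_subst_apply hψs (hNs _), e1,
    ← PowerSeries.subst_comp_subst_apply (hNs _) hψs, e0, PowerSeries.subst_pow hψs]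

end Vale.Agent.P217.EF
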